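import Vale.Agent.P157.Parisi.System
import Vale.Agent.P168.Upper.Trees

/-!
The nodes of a finite cascade: independent variables attached to them, and the unit vectors of the
leaves in those coordinates.
-/

noncomputable section

open MeasureTheory ProbabilityTheory
open scoped BigOperators

namespace Vale.Agent.P157.Parisi.Up

open Vale.Agent.P168
open Vale.Agent.P168.Upper (mp_precomp mp_curry mp_zip mp_pi mp_shuffle integral_mp)
open Vale.Agent.P168.Cascade (Leaf leafW leafMarks GoodTree measurable_child)

/-! ### Nodes -/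

/-- The nodes of the tree with branching numbers `n`, the root excepted. -/
def Node : (r : ℕ) → (Fin r → ℕ) → Type
  | 0, _ => Empty
  | r + 1, n => Fin (n 0) × Option (Node r (Fin.tail n))

instance nodeFintype : (r : ℕ) → (n : Fin r → ℕ) → Fintype (Node r n)
  | 0, _ => inferInstanceAs (Fintype Empty)
  | r + 1, n =>
    haveI := nodeFintype r (Fin.tail n)
    inferInstanceAs (Fintype (Fin (n 0) × Option (Node r (Fin.tail n))))

/-- The node of depth `p + 1` above a leaf. -/
def node : {r : ℕ} → (n : Fin r → ℕ) → Leaf r n → Fin r → Node r n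
  | 0, _, _, p => p.elim0
  | _ + 1, n, l, p =>
    Fin.cases (l 0, none) (fun p' => (l 0, some (node (Fin.tail n) (Fin.tail l) p'))) p

lemma node_zero {r : ℕ} (n : Fin (r + 1) → ℕ) (l : Leaf (r + 1) n) :
    node n l 0 = (l 0, none) := rfl

lemma node_succ {r : ℕ} (n : Fin (r + 1) → ℕ) (l : Leaf (r + 1) n) (p : Fin r) :
    node n l p.succ = (l 0, some (node (Fin.tail n) (Fin.tail l) p)) := rfl

lemma node_injective : ∀ {r : ℕ} (n : Fin r → ℕ) (l : Leaf r n), Function.Injective (node n l)
  | 0, _, _ => fun p => p.elim0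
  | r + 1, n, l => fun p p' h => by
    cases p using Fin.cases with
    | zero =>
      cases p' using Fin.cases with
      | zero => rfl
      | succ i =>
        rw [node_zero, node_succ] at h
        exact absurd (congrArg Prod.snd h) (Option.some_ne_none _).symm
    | succ i =>
      cases p' using Fin.cases with
      | zero =>
        rw [node_zero, node_succ] at h
        exact absurd (congrArg Prod.snd h) (Option.some_ne_none _)
      | succ j =>
        rw [node_succ, node_succ] at h
        rw [node_injective _ _ (Option.some.inj (congrArg Prod.snd h))]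

variable {β X : Type}

/-- Attaching variables to the nodes. -/
def att : (r : ℕ) → (n : Fin r → ℕ) → CascTree β r n × (Node r n → X) → CascTree (β × X) r n
  | 0, _, _ => ()
  | r + 1, n, z => fun k => ((z.1 k).1, ((z.1 k).2.1, z.2 (k, none)),
      att r (Fin.tail n) ((z.1 k).2.2, fun c => z.2 (k, some c)))

lemma leafW_att : ∀ (r : ℕ) (m : Fin r → ℝ) (n : Fin r → ℕ)
    (z : CascTree β r n × (Node r n → X)) (l : Leaf r n),
    leafW r m n (att r n z) l = leafW r m n z.1 l
  | 0, _, _, _, _ => rfl
  | r + 1, m, n, z, l => by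
    simp only [leafW, att]
    exact congrArg _ (leafW_att r (Fin.tail m) (Fin.tail n) _ _)

lemma leafMarks_att : ∀ (r : ℕ) (n : Fin r → ℕ) (z : CascTree β r n × (Node r n → X))
    (l : Leaf r n) (p : Fin r),
    leafMarks r n (att r n z) l p = (leafMarks r n z.1 l p, z.2 (node n l p))
  | 0, _, _, _, p => p.elim0
  | r + 1, n, z, l, p => by
    cases p using Fin.cases with
    | zero => simp [leafMarks, att, node_zero]
    | succ p =>
      simp only [leafMarks, att, node_succ, Fin.cons_succ]
      exact leafMarks_att r (Fin.tail n) _ _ p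

lemma goodTree_att : ∀ (r : ℕ) (n : Fin r → ℕ) (z : CascTree β r n × (Node r n → X)),
    GoodTree r n z.1 → GoodTree r n (att r n z)
  | 0, _, _, _ => trivial
  | r + 1, _, _, h => fun k => ⟨(h k).1, goodTree_att r _ _ (h k).2⟩

variable [MeasurableSpace β] [MeasurableSpace X]

/-- Splitting off the root. -/
lemma mp_option {κ : Type} [Fintype κ] (μ : Measure X) [IsProbabilityMeasure μ] :
    MeasurePreserving (fun x : Option κ → X => (x none, fun i => x (some i)))
      (Measure.pi fun _ => μ) (μ.prod (Measure.pi fun _ => μ)) := by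
  have hg : Function.Injective (Sum.elim (fun _ : Unit => none) (fun i : κ => some i)) := by
    rintro (a | a) (b | b) h <;> simp_all
  exact ((measurePreserving_eval (fun _ : Unit => μ) ()).prod
    (MeasurePreserving.id (Measure.pi fun _ : κ => μ))).comp
    ((measurePreserving_sumPiEquivProdPi fun _ : Unit ⊕ κ => μ).comp (mp_precomp μ hg))

theorem mp_att (ν : Measure β) [IsProbabilityMeasure ν] (μ : Measure X) [IsProbabilityMeasure μ] :
    ∀ (r : ℕ) (n : Fin r → ℕ), MeasurePreserving (att r n)
      ((cascLaw ν r n).prod (Measure.pi fun _ : Node r n => μ)) (cascLaw (ν.prod μ) r n)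
  | 0, n => by
    refine ⟨measurable_const, ?_⟩
    change Measure.map (fun _ => ()) _ = Measure.dirac ()
    rw [Measure.map_const]
    simp
  | r + 1, n => by
    have ih := mp_att ν μ r (Fin.tail n)
    have h1 := measurePreserving_prodAssoc unif (ν.prod (cascLaw ν r (Fin.tail n)))
      (μ.prod (Measure.pi fun _ : Node r (Fin.tail n) => μ))
    have h2 := ((MeasurePreserving.id (ν.prod μ)).prod ih).comp
      ((measurePreserving_prodAssoc ν μ
        ((cascLaw ν r (Fin.tail n)).prod (Measure.pi fun _ : Node r (Fin.tail n) => μ))).symm.comp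
        (mp_shuffle ν (cascLaw ν r (Fin.tail n)) μ
          (Measure.pi fun _ : Node r (Fin.tail n) => μ)))
    have hstep := (((MeasurePreserving.id unif).prod h2).comp h1).comp
      ((MeasurePreserving.id (unif.prod (ν.prod (cascLaw ν r (Fin.tail n))))).prod
        (mp_option (κ := Node r (Fin.tail n)) μ))
    exact ((mp_pi (ι := Fin (n 0)) hstep).comp (mp_zip _ _)).comp
      ((MeasurePreserving.id (Measure.pi fun _ : Fin (n 0) =>
        unif.prod (ν.prod (cascLaw ν r (Fin.tail n))))).prod
        (mp_curry (ι := Fin (n 0)) (κ := Option (Node r (Fin.tail n))) μ))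

/-- A root variable and node variables as one family. -/
theorem mp_rootAtt (ν : Measure β) [IsProbabilityMeasure ν] (μ : Measure X) [IsProbabilityMeasure μ]
    (r : ℕ) (n : Fin r → ℕ) :
    MeasurePreserving (fun z : CascTree β r n × (Option (Node r n) → X) =>
        (z.2 none, att r n (z.1, fun c => z.2 (some c))))
      ((cascLaw ν r n).prod (Measure.pi fun _ : Option (Node r n) => μ))
      (μ.prod (cascLaw (ν.prod μ) r n)) := by
  have h1 := (MeasurePreserving.id (cascLaw ν r n)).prod (mp_option (κ := Node r n) μ)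
  have h2 := (measurePreserving_prodAssoc μ (cascLaw ν r n)
      (Measure.pi fun _ : Node r n => μ)).comp
    (((Measure.measurePreserving_swap (μ := cascLaw ν r n) (ν := μ)).prod
      (MeasurePreserving.id (Measure.pi fun _ : Node r n => μ))).comp
      (measurePreserving_prodAssoc (cascLaw ν r n) μ (Measure.pi fun _ : Node r n => μ)).symm)
  exact ((MeasurePreserving.id μ).prod (mp_att ν μ r n)).comp (h2.comp h1)

/-! ### Leaf vectors -/

/-- The increment of `q` above `p`. -/
def inc {r : ℕ} (q : Fin (r + 1) → ℝ) (p : Fin r) : ℝ := q p.succ - q p.castSucc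

lemma inc_nonneg {r : ℕ} {q : Fin (r + 1) → ℝ} (hq : Monotone q) (p : Fin r) : 0 ≤ inc q p :=
  sub_nonneg.2 (hq Fin.castSucc_lt_succ.le)

lemma sum_inc_lt {r : ℕ} (q : Fin (r + 1) → ℝ) :
    ∀ p : Fin (r + 1), q 0 + ∑ i : Fin r, (if i.val < p.val then inc q i else 0) = q p := by
  intro p
  induction p using Fin.induction with
  | zero => simp
  | succ p ih =>
    have e : ∀ i : Fin r, (if i.val < p.succ.val then inc q i else 0) =
        (if i.val < p.castSucc.val then inc q i else 0) + if i = p then inc q i else 0 := by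
      intro i
      simp only [Fin.val_succ, Fin.val_castSucc, Fin.ext_iff]
      split_ifs <;> first | omega | simp
    simp only [e, Finset.sum_add_distrib, Finset.sum_ite_eq', Finset.mem_univ, if_true]
    rw [← add_assoc, ih, inc]
    ring

lemma sum_inc {r : ℕ} (q : Fin (r + 1) → ℝ) : q 0 + ∑ i : Fin r, inc q i = q (Fin.last r) := by
  simpa using sum_inc_lt q (Fin.last r)

open scoped Classical in
/-- The vector of a leaf: `√q₀` at the root and `√(inc q)` at the nodes above it. -/
def leafVec {r : ℕ} (n : Fin r → ℕ) (q : Fin (r + 1) → ℝ) (l : Leaf r n) :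
    Option (Node r n) → ℝ
  | none => Real.sqrt (q 0)
  | some c => ∑ p : Fin r, if node n l p = c then Real.sqrt (inc q p) else 0

lemma leafVec_node {r : ℕ} (n : Fin r → ℕ) (q : Fin (r + 1) → ℝ) (l : Leaf r n) (p : Fin r) :
    leafVec n q l (some (node n l p)) = Real.sqrt (inc q p) := by
  classical
  simp only [leafVec, (node_injective n l).eq_iff]
  simp

lemma dot_leafVec {r : ℕ} (n : Fin r → ℕ) (q : Fin (r + 1) → ℝ) (l : Leaf r n)
    (γ : Option (Node r n) → ℝ) :
    dot γ (leafVec n q l) = pathField q (γ none) fun p => γ (some (node n l p)) := by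
  classical
  simp only [dot, Fintype.sum_option, leafVec, pathField, Finset.mul_sum]
  rw [Finset.sum_comm]
  simp only [mul_ite, mul_zero, Finset.sum_ite_eq, Finset.mem_univ, if_true]
  congr 1
  · ring
  · exact Finset.sum_congr rfl fun p _ => mul_comm _ _

lemma sum_leafVec_sq {r : ℕ} (n : Fin r → ℕ) {q : Fin (r + 1) → ℝ} (hq : Monotone q)
    (h0 : 0 ≤ q 0) (l : Leaf r n) : ∑ c, leafVec n q l c ^ 2 = q (Fin.last r) := by
  have h : ∑ c, leafVec n q l c ^ 2 = dot (leafVec n q l) (leafVec n q l) :=
    Finset.sum_congr rfl fun c _ => sq _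
  rw [h, dot_leafVec, pathField, ← sum_inc q]
  simp only [leafVec_node]
  congr 1
  · exact Real.mul_self_sqrt h0
  · exact Finset.sum_congr rfl fun p _ => Real.mul_self_sqrt (inc_nonneg hq p)

lemma abs_pathField_le {r : ℕ} (q : Fin (r + 1) → ℝ) {a g₀ : ℝ} {η : Fin r → ℝ}
    (h0 : |g₀| ≤ a) (h : ∀ p, |η p| ≤ a) :
    |pathField q g₀ η| ≤ (Real.sqrt (q 0) + ∑ p, Real.sqrt (inc q p)) * a := by
  rw [pathField, add_mul, Finset.sum_mul]
  refine (abs_add_le _ _).trans (add_le_add ?_ ((Finset.abs_sum_le_sum_abs _ _).trans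
    (Finset.sum_le_sum fun p _ => ?_)))
  · rw [abs_mul, abs_of_nonneg (Real.sqrt_nonneg _)]; gcongr
  · rw [abs_mul, abs_of_nonneg (Real.sqrt_nonneg _)]; exact mul_le_mul_of_nonneg_left (h p) (Real.sqrt_nonneg _)

end Vale.Agent.P157.Parisi.Up
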