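import Vale.Agent.P157.Parisi.Upper.SumSq
import Vale.Agent.P157.Parisi.Cavity.Gauss
import Vale.Agent.P168.Upper.Nested

/-!
Clipped Gaussian sums are below Gaussian variables in convex order; the Parisi recursion preserves
convexity and the Lipschitz bound; the site recursion with many small fields.
-/

noncomputable section

open MeasureTheory ProbabilityTheory Filter
open scoped BigOperators Topology

namespace Vale.Agent.P157.Parisi.Up

open Vale.Agent.P168 (genNested)
open Vale.Agent.P168.Cascade (Exps)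
open Vale.Agent.P168.Upper (integral_mp measurable_genNested genNested_bounds)

/-- Exponential growth. -/
structure Growth (G : ℝ → ℝ) (A K : ℝ) : Prop where
  cont : Continuous G
  nonnegA : 0 ≤ A
  nonnegK : 0 ≤ K
  bound : ∀ z, |G z| ≤ A * Real.exp (K * |z|)

lemma integrable_exp_abs_sum {ι : Type} [Fintype ι] (c : ℝ) :
    Integrable (fun b : ι → ℝ => Real.exp (c * ∑ k, |b k|)) (gam ι) := by
  have h := Integrable.fintype_prod (μ := fun _ : ι => gaussianReal 0 1)
    (f := fun _ (x : ℝ) => Real.exp (c * |x|)) fun _ => Cavity.integrable_exp_abs c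
  refine h.congr (Eventually.of_forall fun b => ?_)
  simp only [← Real.exp_sum, Finset.mul_sum]

lemma Growth.integrable {G : ℝ → ℝ} {A K : ℝ} (h : Growth G A K) {ι : Type} [Fintype ι] (y c : ℝ)
    {T : (ι → ℝ) → ℝ} (hT : Measurable T) (hb : ∀ b, |T b| ≤ ∑ k, |b k|) :
    Integrable (fun b => G (y + c * T b)) (gam ι) := by
  refine ((integrable_exp_abs_sum (K * |c|)).const_mul (A * Real.exp (K * |y|))).mono'
    (h.cont.measurable.comp ((hT.const_mul c).const_add y)).aestronglyMeasurable
    (Eventually.of_forall fun b => ?_)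
  rw [Real.norm_eq_abs, mul_assoc A, ← Real.exp_add]
  refine (h.bound _).trans (mul_le_mul_of_nonneg_left (Real.exp_le_exp.2 ?_) h.nonnegA)
  calc K * |y + c * T b| ≤ K * (|y| + |c| * ∑ k, |b k|) := by
        refine mul_le_mul_of_nonneg_left ((abs_add_le _ _).trans ?_) h.nonnegK
        rw [abs_mul]
        exact add_le_add le_rfl (mul_le_mul_of_nonneg_left (hb b) (abs_nonneg _))
    _ = _ := by ring

lemma Growth.integrable_one {G : ℝ → ℝ} {A K : ℝ} (h : Growth G A K) (y c : ℝ) {T : ℝ → ℝ}
    (hT : Measurable T) (hb : ∀ u, |T u| ≤ |u|) :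
    Integrable (fun u => G (y + c * T u)) (gaussianReal 0 1) := by
  refine ((Cavity.integrable_exp_abs (K * |c|)).const_mul (A * Real.exp (K * |y|))).mono'
    (h.cont.measurable.comp ((hT.const_mul c).const_add y)).aestronglyMeasurable
    (Eventually.of_forall fun b => ?_)
  rw [Real.norm_eq_abs, mul_assoc A, ← Real.exp_add]
  refine (h.bound _).trans (mul_le_mul_of_nonneg_left (Real.exp_le_exp.2 ?_) h.nonnegA)
  calc K * |y + c * T b| ≤ K * (|y| + |c| * |b|) := by
        refine mul_le_mul_of_nonneg_left ((abs_add_le _ _).trans ?_) h.nonnegK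
        rw [abs_mul]
        exact add_le_add le_rfl (mul_le_mul_of_nonneg_left (hb b) (abs_nonneg _))
    _ = _ := by ring

lemma pair_le {G : ℝ → ℝ} (hG : ConvexOn ℝ Set.univ G) (y c : ℝ) {u v : ℝ} (h : |v| ≤ |u|) :
    G (y + c * v) + G (y - c * v) ≤ G (y + c * u) + G (y - c * u) := by
  rcases eq_or_ne u 0 with hu | hu
  · subst hu
    rw [abs_zero, abs_nonpos_iff] at h
    subst h
    exact le_rfl
  set l := (1 + v / u) / 2
  have hvu : |v / u| ≤ 1 := by rw [abs_div]; exact div_le_one_of_le₀ h (abs_nonneg _)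
  obtain ⟨h1, h2⟩ := abs_le.1 hvu
  have hl0 : 0 ≤ l := by simp only [l]; linarith
  have hl1 : 0 ≤ 1 - l := by simp only [l]; linarith
  have a := hG.2 (Set.mem_univ (y + c * u)) (Set.mem_univ (y - c * u)) hl0 hl1 (by ring)
  have b := hG.2 (Set.mem_univ (y + c * u)) (Set.mem_univ (y - c * u)) hl1 hl0 (by ring)
  have e1 : l * (y + c * u) + (1 - l) * (y - c * u) = y + c * v := by
    simp only [l]; field_simp; ring
  have e2 : (1 - l) * (y + c * u) + l * (y - c * u) = y - c * v := by
    simp only [l]; field_simp; ring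
  simp only [smul_eq_mul, e1, e2] at a b
  linarith

lemma clip_one {G : ℝ → ℝ} {A K a : ℝ} (hG : ConvexOn ℝ Set.univ G) (hg : Growth G A K)
    (ha : 0 ≤ a) (y c : ℝ) :
    ∫ u, G (y + c * clipA a u) ∂gaussianReal 0 1 ≤ ∫ u, G (y + c * u) ∂gaussianReal 0 1 := by
  have i1 := hg.integrable_one y c (measurable_clipA a) (abs_clipA_le_abs ha)
  have i2 := hg.integrable_one y c (T := fun u => u) measurable_id fun u => le_rfl
  have j1 := hg.integrable_one y (-c) (measurable_clipA a) (abs_clipA_le_abs ha)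
  have j2 := hg.integrable_one y (-c) (T := fun u => u) measurable_id fun u => le_rfl
  have e1 := integral_mp mp_neg (g := fun u => G (y + c * clipA a u))
    (hg.cont.measurable.comp (((measurable_clipA a).const_mul c).const_add y))
  have e2 := integral_mp mp_neg (g := fun u => G (y + c * u))
    (hg.cont.measurable.comp ((measurable_id'.const_mul c).const_add y))
  simp only [clipA_neg ha, mul_neg] at e1 e2
  simp only [neg_mul] at j1 j2
  have h := integral_mono (i1.add j1) (i2.add j2) fun u => by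
    simp only [Pi.add_apply]
    have := pair_le hG y c (abs_clipA_le_abs ha u)
    simpa only [sub_eq_add_neg] using this
  simp only [Pi.add_apply] at h
  rw [integral_add i1 j1, integral_add i2 j2, e1, e2] at h
  linarith

/-- Sums of clipped Gaussians are below sums of Gaussians in convex order. -/
theorem clip_mean {G : ℝ → ℝ} {A K a : ℝ} (hG : ConvexOn ℝ Set.univ G) (hg : Growth G A K)
    (ha : 0 ≤ a) (c : ℝ) : ∀ (L : ℕ) (y : ℝ),
    ∫ b, G (y + c * ∑ k, clipA a (b k)) ∂gam (Fin L) ≤ ∫ b, G (y + c * ∑ k, b k) ∂gam (Fin L)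
  | 0, y => by simp
  | L + 1, y => by
    have hS : ∀ (T : ℝ → ℝ) (_ : Measurable T) (n : ℕ),
        Measurable fun b : Fin n → ℝ => ∑ k, T (b k) := fun T hT n =>
      Finset.measurable_sum _ fun k _ => hT.comp (measurable_pi_apply k)
    have hB : ∀ (T : ℝ → ℝ), (∀ u, |T u| ≤ |u|) → ∀ (n : ℕ) (b : Fin n → ℝ),
        |∑ k, T (b k)| ≤ ∑ k, |b k| := fun T hT n b =>
      (Finset.abs_sum_le_sum_abs _ _).trans (Finset.sum_le_sum fun k _ => hT _)
    set φ := clipA a
    have hφ : Measurable φ := measurable_clipA a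
    have hφb : ∀ u, |φ u| ≤ |u| := abs_clipA_le_abs ha
    have hsplit := measurePreserving_piFinSuccAbove (fun _ : Fin (L + 1) => gaussianReal 0 1) 0
    -- integrability on the product
    have hi : ∀ (T U : ℝ → ℝ), Measurable T → Measurable U → (∀ u, |T u| ≤ |u|) →
        (∀ u, |U u| ≤ |u|) → Integrable (fun z : ℝ × (Fin L → ℝ) =>
          G (y + c * (T z.1 + ∑ k, U (z.2 k)))) ((gaussianReal 0 1).prod (gam (Fin L))) := by
      intro T U hT hU hTb hUb
      refine (((Cavity.integrable_exp_abs (K * |c|)).mul_prod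
        (integrable_exp_abs_sum (ι := Fin L) (K * |c|))).const_mul (A * Real.exp (K * |y|))).mono'
        (hg.cont.measurable.comp ((((hT.comp measurable_fst).add
          ((hS U hU L).comp measurable_snd)).const_mul c).const_add y)).aestronglyMeasurable
        (Eventually.of_forall fun z => ?_)
      rw [Real.norm_eq_abs, mul_assoc A, ← Real.exp_add, ← Real.exp_add]
      refine (hg.bound _).trans (mul_le_mul_of_nonneg_left (Real.exp_le_exp.2 ?_) hg.nonnegA)
      calc K * |y + c * (T z.1 + ∑ k, U (z.2 k))|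
          ≤ K * (|y| + |c| * (|z.1| + ∑ k, |z.2 k|)) := by
            refine mul_le_mul_of_nonneg_left ((abs_add_le _ _).trans ?_) hg.nonnegK
            rw [abs_mul]
            exact add_le_add le_rfl (mul_le_mul_of_nonneg_left ((abs_add_le _ _).trans
              (add_le_add (hTb _) (hB U hUb L z.2))) (abs_nonneg _))
        _ = _ := by ring
    have hsucc : ∀ (T : ℝ → ℝ), Measurable T → (∀ u, |T u| ≤ |u|) →
        ∫ b : Fin (L + 1) → ℝ, G (y + c * ∑ k, T (b k)) ∂gam (Fin (L + 1)) =
          ∫ z, G (y + c * (T z.1 + ∑ k, T (z.2 k))) ∂(gaussianReal 0 1).prod (gam (Fin L)) := by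
      intro T hT hTb
      rw [← integral_mp hsplit (g := fun z : ℝ × (Fin L → ℝ) =>
        G (y + c * (T z.1 + ∑ k, T (z.2 k))))
        (hg.cont.measurable.comp ((((hT.comp measurable_fst).add
          ((hS T hT L).comp measurable_snd)).const_mul c).const_add y))]
      refine integral_congr_ae (Eventually.of_forall fun b => ?_)
      simp only [Fin.sum_univ_succ]
      rfl
    have hidm : Measurable fun u : ℝ => u := measurable_id'
    have hidb : ∀ u : ℝ, |(fun u : ℝ => u) u| ≤ |u| := fun u => le_rfl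
    have k1 := hi φ φ hφ hφ hφb hφb
    have k2 := hi φ (fun u => u) hφ hidm hφb hidb
    have k3 := hi (fun u => u) (fun u => u) hidm hidm hidb hidb
    rw [hsucc φ hφ hφb, hsucc (fun u => u) hidm hidb]
    calc ∫ z, G (y + c * (φ z.1 + ∑ k, φ (z.2 k))) ∂(gaussianReal 0 1).prod (gam (Fin L))
        ≤ ∫ z, G (y + c * (φ z.1 + ∑ k, z.2 k)) ∂(gaussianReal 0 1).prod (gam (Fin L)) := by
          rw [integral_prod _ k1, integral_prod _ k2]
          refine integral_mono k1.integral_prod_left k2.integral_prod_left fun u => ?_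
          simpa only [mul_add, ← add_assoc] using clip_mean hG hg ha c L (y + c * φ u)
      _ ≤ ∫ z, G (y + c * (z.1 + ∑ k, z.2 k)) ∂(gaussianReal 0 1).prod (gam (Fin L)) := by
          rw [integral_prod_symm _ k2, integral_prod_symm _ k3]
          refine integral_mono k2.integral_prod_right k3.integral_prod_right fun b => ?_
          simpa only [mul_add, add_comm (c * φ _), add_comm (c * (_ : ℝ)) (c * ∑ k, b k),
            ← add_assoc] using clip_one hG hg ha (y + c * ∑ k, b k) c

lemma clip_gauss {G : ℝ → ℝ} {A K a : ℝ} (hG : ConvexOn ℝ Set.univ G) (hg : Growth G A K)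
    (ha : 0 ≤ a) {L : ℕ} (hL : 0 < L) (y c : ℝ) :
    ∫ b, G (y + c * (Real.sqrt (1 / L) * ∑ k, clipA a (b k))) ∂gam (Fin L) ≤
      ∫ g, G (y + c * g) ∂gaussianReal 0 1 := by
  have hL' : (0 : ℝ) < L := by exact_mod_cast hL
  set u : Fin L → ℝ := fun _ => Real.sqrt (1 / L)
  have hu : ∑ k, u k ^ 2 = 1 := by
    simp only [u, Real.sq_sqrt (show (0 : ℝ) ≤ 1 / L by positivity), Finset.sum_const,
      Finset.card_univ, Fintype.card_fin, nsmul_eq_mul]
    field_simp
  have h := clip_mean hG hg ha (c * Real.sqrt (1 / L)) L y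
  have e : ∀ b : Fin L → ℝ, c * Real.sqrt (1 / L) * ∑ k, b k = c * dot b u := fun b => by
    simp only [dot, u, ← Finset.sum_mul]; ring
  have hR : ∫ b, G (y + c * Real.sqrt (1 / L) * ∑ k, b k) ∂gam (Fin L) =
      ∫ g, G (y + c * g) ∂gaussianReal 0 1 := by
    simp only [e]
    exact Cavity.integral_dot_unit hu (φ := fun x => G (y + c * x))
      (hg.cont.measurable.comp ((measurable_id'.const_mul c).const_add y))
  rw [hR] at h
  simpa only [mul_assoc] using h

/-! ### The recursion -/

/-- Lipschitz with constant one. -/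
def Lip1 (F : ℝ → ℝ) : Prop := ∀ x y, F x ≤ F y + |x - y|

lemma Lip1.continuous {F : ℝ → ℝ} (h : Lip1 F) : Continuous F := by
  refine (LipschitzWith.of_dist_le_mul (K := 1) fun x y => ?_).continuous
  simp only [NNReal.coe_one, one_mul, Real.dist_eq]
  exact abs_le.2 ⟨by linarith [h y x, abs_sub_comm x y], by linarith [h x y]⟩

lemma Lip1.growth {F : ℝ → ℝ} (h : Lip1 F) : Growth F (|F 0| + 1) 1 := by
  refine ⟨h.continuous, by positivity, zero_le_one, fun z => ?_⟩
  have h1 : |F z| ≤ |F 0| + |z| := by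
    have := h z 0
    have := h 0 z
    rw [abs_le]
    constructor <;> (simp only [sub_zero, zero_sub, abs_neg] at *)
    · linarith [neg_abs_le (F 0)]
    · linarith [le_abs_self (F 0)]
  have h2 := Real.add_one_le_exp |z|
  have h3 : 0 ≤ |z| := abs_nonneg z
  rw [one_mul]
  nlinarith [abs_nonneg (F 0)]

lemma growth_exp {F : ℝ → ℝ} (h : Lip1 F) {m : ℝ} (hm : 0 ≤ m) :
    Growth (fun z => Real.exp (m * F z)) (Real.exp (m * |F 0|)) m := by
  refine ⟨Real.continuous_exp.comp (h.continuous.const_mul m), (Real.exp_pos _).le, hm, fun z => ?_⟩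
  rw [Real.abs_exp, ← Real.exp_add, ← mul_add]
  refine Real.exp_le_exp.2 (mul_le_mul_of_nonneg_left ?_ hm)
  have := h z 0
  rw [sub_zero] at this
  linarith [le_abs_self (F 0)]

lemma convex_exp {F : ℝ → ℝ} (h : ConvexOn ℝ Set.univ F) {m : ℝ} (hm : 0 ≤ m) :
    ConvexOn ℝ Set.univ fun z => Real.exp (m * F z) := by
  refine ⟨convex_univ, fun x _ y _ a b ha hb hab => ?_⟩
  have h1 := mul_le_mul_of_nonneg_left (h.2 (Set.mem_univ x) (Set.mem_univ y) ha hb hab) hm
  have h2 := convexOn_exp.2 (Set.mem_univ (m * F x)) (Set.mem_univ (m * F y)) ha hb hab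
  simp only [smul_eq_mul] at h1 h2 ⊢
  refine le_trans (Real.exp_le_exp.2 ?_) h2
  linarith

lemma layer_props {m δ : ℝ} (hm : 0 < m) {F : ℝ → ℝ} (hF : ConvexOn ℝ Set.univ F) (hL : Lip1 F) :
    ConvexOn ℝ Set.univ (layer m δ F) ∧ Lip1 (layer m δ F) := by
  set s := Real.sqrt δ
  set W : ℝ → ℝ → ℝ := fun x g => Real.exp (m * F (x + s * g))
  have hi : ∀ x, Integrable (W x) (gaussianReal 0 1) := fun x =>
    (growth_exp hL hm.le).integrable_one x s (T := fun u => u) measurable_id fun u => le_rfl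
  set H : ℝ → ℝ := fun x => ∫ g, W x g ∂gaussianReal 0 1
  have hH : ∀ x, 0 < H x := fun x => integral_exp_pos (hi x)
  have hlayer : ∀ x, layer m δ F x = 1 / m * Real.log (H x) := fun x => rfl
  constructor
  · refine ⟨convex_univ, fun x _ y _ a b ha hb hab => ?_⟩
    simp only [smul_eq_mul, hlayer]
    set z := a * x + b * y
    have hpt : ∀ g, W z g ≤ H x ^ a * H y ^ b * (a * (W x g / H x) + b * (W y g / H y)) := fun g => by
      have hc := hF.2 (Set.mem_univ (x + s * g)) (Set.mem_univ (y + s * g)) ha hb hab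
      simp only [smul_eq_mul] at hc
      rw [show a * (x + s * g) + b * (y + s * g) = z + (a + b) * (s * g) by simp only [z]; ring,
        hab, one_mul] at hc
      have h1 : W z g ≤ W x g ^ a * W y g ^ b := by
        simp only [W]
        rw [← Real.exp_mul, ← Real.exp_mul, ← Real.exp_add]
        refine Real.exp_le_exp.2 ?_
        have := mul_le_mul_of_nonneg_left hc hm.le
        linarith
      have hA : 0 ≤ W x g / H x := div_nonneg (Real.exp_pos _).le (hH x).le
      have hB : 0 ≤ W y g / H y := div_nonneg (Real.exp_pos _).le (hH y).le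
      refine h1.trans (le_trans (le_of_eq ?_) (mul_le_mul_of_nonneg_left
        (Real.geom_mean_le_arith_mean2_weighted ha hb hA hB hab)
        (mul_nonneg (Real.rpow_nonneg (hH x).le _) (Real.rpow_nonneg (hH y).le _))))
      rw [Real.div_rpow (Real.exp_pos _).le (hH x).le, Real.div_rpow (Real.exp_pos _).le (hH y).le]
      have := (Real.rpow_pos_of_pos (hH x) a).ne'
      have := (Real.rpow_pos_of_pos (hH y) b).ne'
      field_simp
      rfl
    have hle : H z ≤ H x ^ a * H y ^ b := by
      refine (integral_mono (hi z)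
        (((((hi x).div_const _).const_mul a).add (((hi y).div_const _).const_mul b)).const_mul _)
        hpt).trans_eq ?_
      simp only [Pi.add_apply]
      rw [integral_const_mul, integral_add (((hi x).div_const _).const_mul a)
        (((hi y).div_const _).const_mul b), integral_const_mul, integral_const_mul, integral_div,
        integral_div, div_self (hH x).ne', div_self (hH y).ne', mul_one, mul_one, hab, mul_one]
    have hlog := Real.log_le_log (hH z) hle
    rw [Real.log_mul (Real.rpow_pos_of_pos (hH x) a).ne' (Real.rpow_pos_of_pos (hH y) b).ne',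
      Real.log_rpow (hH x), Real.log_rpow (hH y)] at hlog
    have := mul_le_mul_of_nonneg_left hlog (one_div_pos.2 hm).le
    linarith
  · intro x y
    simp only [hlayer]
    have hle : H x ≤ Real.exp (m * |x - y|) * H y := by
      rw [← integral_const_mul]
      refine integral_mono (hi x) ((hi y).const_mul _) fun g => ?_
      simp only [W]
      rw [← Real.exp_add]
      refine Real.exp_le_exp.2 ?_
      have := hL (x + s * g) (y + s * g)
      rw [add_sub_add_right_eq_sub] at this
      have := mul_le_mul_of_nonneg_left this hm.le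
      linarith
    have hlog := Real.log_le_log (hH x) hle
    rw [Real.log_mul (Real.exp_pos _).ne' (hH y).ne', Real.log_exp] at hlog
    have := mul_le_mul_of_nonneg_left hlog (one_div_pos.2 hm).le
    rw [mul_add, ← mul_assoc (1 / m), one_div_mul_cancel hm.ne', one_mul] at this
    linarith

lemma level_props : ∀ {r : ℕ} (m : Fin r → ℝ) (ρ : Fin (r + 1) → ℝ), (∀ i, 0 < m i) →
    ∀ {ψ : ℝ → ℝ}, ConvexOn ℝ Set.univ ψ → Lip1 ψ →
      ConvexOn ℝ Set.univ (level m ρ ψ 0) ∧ Lip1 (level m ρ ψ 0)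
  | 0, _, _, _, _, h1, h2 => ⟨h1, h2⟩
  | r + 1, m, ρ, hm, ψ, h1, h2 => by
    obtain ⟨a, b⟩ := level_props (Fin.tail m) (Fin.tail ρ) (fun i => hm i.succ) h1 h2
    exact layer_props (hm 0) a b

/-- The site exponent built from many small clipped fields. -/
def siteExp {r L : ℕ} (a : ℝ) (ρ : Fin (r + 1) → ℝ) (η : Fin r → Fin L → ℝ) : ℝ :=
  Real.sqrt (1 / L) * ∑ k, ∑ p, Real.sqrt (inc ρ p) * clipA a (η p k)

lemma abs_siteExp_le {r L : ℕ} {a : ℝ} (ha : 0 ≤ a) (ρ : Fin (r + 1) → ℝ)
    (η : Fin r → Fin L → ℝ) :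
    |siteExp a ρ η| ≤ Real.sqrt (1 / L) * (L * ∑ p, Real.sqrt (inc ρ p) * a) := by
  rw [siteExp, abs_mul, abs_of_nonneg (Real.sqrt_nonneg _)]
  refine mul_le_mul_of_nonneg_left ((Finset.abs_sum_le_sum_abs _ _).trans
    ((Finset.sum_le_sum fun k _ => (Finset.abs_sum_le_sum_abs _ _).trans
      (Finset.sum_le_sum fun p _ => ?_)).trans_eq
      (by simp : ∑ _k : Fin L, ∑ p, Real.sqrt (inc ρ p) * a = _))) (Real.sqrt_nonneg _)
  rw [abs_mul, abs_of_nonneg (Real.sqrt_nonneg _)]
  exact mul_le_mul_of_nonneg_left (abs_clipA_le ha _) (Real.sqrt_nonneg _)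

lemma measurable_siteExp {r L : ℕ} (a : ℝ) (ρ : Fin (r + 1) → ℝ) :
    Measurable (siteExp (L := L) a ρ) :=
  (Finset.measurable_sum _ fun k _ => Finset.measurable_sum _ fun p _ =>
    (((measurable_clipA a).comp ((measurable_pi_apply k).comp (measurable_pi_apply p))).const_mul
      _)).const_mul _

lemma siteExp_cons {r L : ℕ} (a : ℝ) (ρ : Fin (r + 2) → ℝ) (b : Fin L → ℝ)
    (η : Fin r → Fin L → ℝ) :
    siteExp a ρ (Fin.cons b η) =
      Real.sqrt (ρ 1 - ρ 0) * (Real.sqrt (1 / L) * ∑ k, clipA a (b k)) +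
        siteExp a (Fin.tail ρ) η := by
  simp only [siteExp, Fin.sum_univ_succ, Fin.cons_zero, Fin.cons_succ, Finset.sum_add_distrib,
    ← Finset.mul_sum]
  have h0 : inc ρ 0 = ρ 1 - ρ 0 := by simp [inc]
  have ht : ∀ p : Fin r, inc ρ p.succ = inc (Fin.tail ρ) p := fun p => by simp [inc, Fin.tail]
  simp only [h0, ht]
  ring

/-- One layer of many small fields. -/
lemma site_layer {L : ℕ} (hL : 0 < L) {a : ℝ} (ha : 0 ≤ a) {μ : ℝ} (hμ : 0 < μ) {F : ℝ → ℝ}
    (hFc : ConvexOn ℝ Set.univ F) (hFl : Lip1 F) (x d : ℝ) {I : (Fin L → ℝ) → ℝ}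
    (hIm : Measurable I) {lo : ℝ} (hlo0 : 0 < lo) (hlo : ∀ b, lo ≤ I b)
    (hhi : ∀ b, I b ≤ Real.exp (F (x + d * (Real.sqrt (1 / L) * ∑ k, clipA a (b k))))) :
    Real.log ((∫ b, I b ^ μ ∂gam (Fin L)) ^ (1 / μ)) ≤
      1 / μ * Real.log (∫ g, Real.exp (μ * F (x + d * g)) ∂gaussianReal 0 1) := by
  have hR : Integrable (fun b : Fin L → ℝ =>
      Real.exp (μ * F (x + d * (Real.sqrt (1 / L) * ∑ k, clipA a (b k))))) (gam (Fin L)) := by
    have := (growth_exp hFl hμ.le).integrable x
      (d * Real.sqrt (1 / L)) (T := fun b : Fin L → ℝ => ∑ k, clipA a (b k))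
      (Finset.measurable_sum _ fun k _ => (measurable_clipA a).comp (measurable_pi_apply k))
      fun b => (Finset.abs_sum_le_sum_abs _ _).trans
        (Finset.sum_le_sum fun k _ => abs_clipA_le_abs ha _)
    simpa only [mul_assoc] using this
  have hpow : ∀ b, I b ^ μ ≤
      Real.exp (μ * F (x + d * (Real.sqrt (1 / L) * ∑ k, clipA a (b k)))) := fun b => by
    refine (Real.rpow_le_rpow (hlo0.le.trans (hlo b)) (hhi b) hμ.le).trans_eq ?_
    rw [← Real.exp_mul, mul_comm]
  have hI0 : ∀ b, 0 ≤ I b ^ μ := fun b => Real.rpow_nonneg (hlo0.le.trans (hlo b)) _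
  have hII : Integrable (fun b => I b ^ μ) (gam (Fin L)) :=
    hR.mono' (hIm.pow_const _).aestronglyMeasurable (Eventually.of_forall fun b => by
      rw [Real.norm_eq_abs, abs_of_nonneg (hI0 b)]; exact hpow b)
  have hpos : 0 < ∫ b, I b ^ μ ∂gam (Fin L) := by
    refine lt_of_lt_of_le (Real.rpow_pos_of_pos hlo0 μ) ?_
    simpa using integral_mono (integrable_const _) hII fun b =>
      Real.rpow_le_rpow hlo0.le (hlo b) hμ.le
  rw [Real.log_rpow hpos]
  refine mul_le_mul_of_nonneg_left (Real.log_le_log hpos ?_) (one_div_pos.2 hμ).le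
  exact (integral_mono hII hR hpow).trans
    (clip_gauss (convex_exp hFc hμ.le) (growth_exp hFl hμ.le) ha hL x d)

lemma measurable_siteCons {r L : ℕ} (a : ℝ) (ρ : Fin (r + 2) → ℝ) {ψ : ℝ → ℝ} (hl : Lip1 ψ)
    (x : ℝ) : Measurable fun z : (Fin L → ℝ) × (Fin r → Fin L → ℝ) =>
      Real.exp (ψ (x + siteExp a ρ (Fin.cons z.1 z.2))) := by
  refine (hl.continuous.measurable.comp (Measurable.const_add ?_ x)).exp
  exact (measurable_siteExp a ρ).comp Vale.Agent.P168.Cascade.measurable_cons

lemma site_bounds {r L : ℕ} {a : ℝ} (ha : 0 ≤ a) (ρ : Fin (r + 1) → ℝ) {ψ : ℝ → ℝ} (hl : Lip1 ψ)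
    (x : ℝ) (η : Fin r → Fin L → ℝ) :
    Real.exp (ψ x - Real.sqrt (1 / (L : ℝ)) * (L * ∑ p, Real.sqrt (inc ρ p) * a)) ≤
        Real.exp (ψ (x + siteExp a ρ η)) ∧
      Real.exp (ψ (x + siteExp a ρ η)) ≤
        Real.exp (ψ x + Real.sqrt (1 / (L : ℝ)) * (L * ∑ p, Real.sqrt (inc ρ p) * a)) := by
  have h1 := hl x (x + siteExp a ρ η)
  have h2 := hl (x + siteExp a ρ η) x
  rw [sub_add_cancel_left, abs_neg] at h1
  rw [add_sub_cancel_left] at h2
  have := abs_siteExp_le (L := L) ha ρ η
  constructor <;> refine Real.exp_le_exp.2 ?_ <;> linarith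

/-- Many small fields are below the Gaussian recursion. -/
theorem site_rec {L : ℕ} (hL : 0 < L) {a : ℝ} (ha : 0 ≤ a) : ∀ {r : ℕ} (m : Fin r → ℝ),
    (∀ i, 0 < m i) → ∀ (ρ : Fin (r + 1) → ℝ) (ψ : ℝ → ℝ), ConvexOn ℝ Set.univ ψ → Lip1 ψ →
      ∀ x, Real.log (genNested (gam (Fin L)) m fun η => Real.exp (ψ (x + siteExp a ρ η))) ≤
        level m ρ ψ 0 x
  | 0, _, _, ρ, ψ, _, _, x => by
    simp [genNested, level, siteExp, Real.log_exp]
  | r + 1, m, hm, ρ, ψ, hc, hl, x => by
    obtain ⟨hFc, hFl⟩ := level_props (Fin.tail m) (Fin.tail ρ) (fun i => hm i.succ) hc hl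
    have hb : ∀ b : Fin L → ℝ,
        Real.exp (ψ x - Real.sqrt (1 / (L : ℝ)) * (L * ∑ p, Real.sqrt (inc ρ p) * a)) ≤
          genNested (gam (Fin L)) (Fin.tail m)
            (fun η => Real.exp (ψ (x + siteExp a ρ (Fin.cons b η)))) := fun b =>
      (genNested_bounds (gam (Fin L)) (Fin.tail m) (fun i => hm i.succ)
        (fun η => Real.exp (ψ (x + siteExp a ρ (Fin.cons b η))))
        ((measurable_siteCons a ρ hl x).comp (f := fun η : Fin r → Fin L → ℝ => (b, η))
          (measurable_const.prodMk measurable_id))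
        (lo := Real.exp (ψ x - Real.sqrt (1 / (L : ℝ)) * (L * ∑ p, Real.sqrt (inc ρ p) * a)))
        (hi := Real.exp (ψ x + Real.sqrt (1 / (L : ℝ)) * (L * ∑ p, Real.sqrt (inc ρ p) * a)))
        (Real.exp_pos _) fun η => site_bounds ha ρ hl x (Fin.cons b η)).1
    refine site_layer hL ha (hm 0) hFc hFl x (Real.sqrt (ρ 1 - ρ 0))
      (measurable_genNested (gam (Fin L)) (Fin.tail m) _ (measurable_siteCons a ρ hl x))
      (Real.exp_pos _) hb fun b => ?_
    have ih := site_rec hL ha (Fin.tail m) (fun i => hm i.succ) (Fin.tail ρ) ψ hc hl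
      (x + Real.sqrt (ρ 1 - ρ 0) * (Real.sqrt (1 / L) * ∑ k, clipA a (b k)))
    simp only [add_assoc, ← siteExp_cons] at ih
    exact (Real.log_le_iff_le_exp ((Real.exp_pos _).trans_le (hb b))).1 ih

/-! ### The logarithm of the hyperbolic cosine -/

lemma logCosh_props : ConvexOn ℝ Set.univ (fun x => Real.log (Real.cosh x)) ∧
    Lip1 fun x => Real.log (Real.cosh x) := by
  constructor
  · refine ⟨convex_univ, fun x _ y _ a b ha hb hab => ?_⟩
    simp only [smul_eq_mul]
    have hx := Real.cosh_pos x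
    have hy := Real.cosh_pos y
    have key : ∀ u v : ℝ, Real.exp (a * u + b * v) ≤ Real.cosh x ^ a * Real.cosh y ^ b *
        (a * (Real.exp u / Real.cosh x) + b * (Real.exp v / Real.cosh y)) := fun u v => by
      refine le_trans (le_of_eq ?_) (mul_le_mul_of_nonneg_left
        (Real.geom_mean_le_arith_mean2_weighted ha hb (div_nonneg (Real.exp_pos u).le hx.le)
          (div_nonneg (Real.exp_pos v).le hy.le) hab)
        (mul_nonneg (Real.rpow_nonneg hx.le _) (Real.rpow_nonneg hy.le _)))
      rw [Real.div_rpow (Real.exp_pos _).le hx.le, Real.div_rpow (Real.exp_pos _).le hy.le,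
        ← Real.exp_mul, ← Real.exp_mul, mul_comm u, mul_comm v, Real.exp_add]
      have := (Real.rpow_pos_of_pos hx a).ne'
      have := (Real.rpow_pos_of_pos hy b).ne'
      field_simp
    have h1 := key x y
    have h2 := key (-x) (-y)
    have hle : Real.cosh (a * x + b * y) ≤ Real.cosh x ^ a * Real.cosh y ^ b := by
      have e : Real.cosh x ^ a * Real.cosh y ^ b *
          (a * (Real.exp x / Real.cosh x) + b * (Real.exp y / Real.cosh y)) +
          Real.cosh x ^ a * Real.cosh y ^ b *
          (a * (Real.exp (-x) / Real.cosh x) + b * (Real.exp (-y) / Real.cosh y)) =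
          2 * (Real.cosh x ^ a * Real.cosh y ^ b) := by
        have cx : Real.exp (-x) = 2 * Real.cosh x - Real.exp x := by rw [Real.cosh_eq]; ring
        have cy : Real.exp (-y) = 2 * Real.cosh y - Real.exp y := by rw [Real.cosh_eq]; ring
        rw [cx, cy, sub_div, sub_div, mul_div_assoc, mul_div_assoc, div_self hx.ne',
          div_self hy.ne']
        linear_combination (2 * (Real.cosh x ^ a * Real.cosh y ^ b)) * hab
      rw [Real.cosh_eq, show -(a * x + b * y) = a * -x + b * -y by ring]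
      linarith
    have := Real.log_le_log (Real.cosh_pos _) hle
    rwa [Real.log_mul (Real.rpow_pos_of_pos hx a).ne' (Real.rpow_pos_of_pos hy b).ne',
      Real.log_rpow hx, Real.log_rpow hy] at this
  · intro x y
    have h : Real.cosh x ≤ Real.exp |x - y| * Real.cosh y := by
      rw [Real.cosh_eq, Real.cosh_eq, mul_div_assoc', mul_add, ← Real.exp_add, ← Real.exp_add]
      gcongr <;> linarith [le_abs_self (x - y), neg_abs_le (x - y)]
    have := Real.log_le_log (Real.cosh_pos x) h
    rw [Real.log_mul (Real.exp_pos _).ne' (Real.cosh_pos y).ne', Real.log_exp] at this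
    linarith

end Vale.Agent.P157.Parisi.Up
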