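import Vale.Agent.P157.Parisi.Upper.Step
import Vale.Agent.P157.Parisi.Upper.Convex

/-!
All fields at once: the free energy of the fields on the uniform weight factors over the sites and
is bounded by the site value.
-/

noncomputable section

open MeasureTheory ProbabilityTheory Filter
open scoped BigOperators Topology

namespace Vale.Agent.P157.Parisi.Up

open Vale.Agent.P168 (genNested)
open Vale.Agent.P168.Cascade
open Vale.Agent.P168.Upper (integral_mp mp_flip measurable_genNested genNested_map genNested_prod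
  genNested_one genNested_bounds)

variable {r N : ℕ}

/-- The product of `j` field weights. -/
def fieldsW {j : ℕ} (δ a : ℝ) (ρ : Fin (r + 1) → ℝ) (E : Fin j → Fin N → ℝ) (σ : Cube N)
    (η : Fin r → Fin j → Fin N → ℝ) : ℝ :=
  Real.exp (∑ k, fieldX δ a ρ (E k) σ fun p => η p k)

lemma measurable_fieldsW {j : ℕ} (δ a : ℝ) (ρ : Fin (r + 1) → ℝ) (σ : Cube N) :
    Measurable fun z : (Fin j → Fin N → ℝ) × (Fin r → Fin j → Fin N → ℝ) =>
      fieldsW δ a ρ z.1 σ z.2 := by
  simp only [fieldsW, Real.exp_sum]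
  refine Finset.measurable_prod _ fun k _ => ?_
  exact Measurable.comp (g := fun q : (Fin N → ℝ) × (Fin r → Fin N → ℝ) => fieldZ δ a ρ q.1 σ q.2)
    (f := fun z : (Fin j → Fin N → ℝ) × (Fin r → Fin j → Fin N → ℝ) => (z.1 k, fun p => z.2 p k))
    (measurable_fieldZ δ a ρ σ)
    (((measurable_pi_apply k).comp measurable_fst).prodMk (measurable_pi_lambda _ fun p =>
      (measurable_pi_apply k).comp ((measurable_pi_apply p).comp measurable_snd)))

variable {β : Type} [MeasurableSpace β]

lemma wbdd_fields {j : ℕ} {C δ a : ℝ} (ha : 0 ≤ a) (ρ : Fin (r + 1) → ℝ)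
    {w : Cube N → (Fin r → β) → ℝ} (hw : WBdd C w) (E : Fin j → Fin N → ℝ) :
    WBdd (C * Real.exp (j * fieldM δ a N ρ)) (tens w (fieldsW δ a ρ E)) := fun σ => by
  have hb : ∀ η : Fin r → Fin j → Fin N → ℝ,
      |∑ k, fieldX δ a ρ (E k) σ (fun p => η p k)| ≤ j * fieldM δ a N ρ := fun η =>
    (Finset.abs_sum_le_sum_abs _ _).trans
      ((Finset.sum_le_sum fun k _ => abs_fieldX_le ha ρ (E k) σ _).trans_eq (by simp [fieldM]))
  refine ⟨mul_pos (hw σ).pos (Real.exp_pos _), ?_, fun η => ⟨?_, ?_⟩⟩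
  · refine Measurable.mul ((hw σ).meas.comp (measurable_pi_lambda _ fun i =>
      (measurable_pi_apply i).fst)) ?_
    exact Measurable.comp
      (g := fun q : (Fin j → Fin N → ℝ) × (Fin r → Fin j → Fin N → ℝ) => fieldsW δ a ρ q.1 σ q.2)
      (f := fun η : Fin r → β × (Fin j → Fin N → ℝ) => (E, fun i => (η i).2))
      (measurable_fieldsW δ a ρ σ)
      (measurable_const.prodMk (measurable_pi_lambda _ fun i => (measurable_pi_apply i).snd))
  · rw [mul_inv, ← Real.exp_neg]
    exact mul_le_mul ((hw σ).mem _).1 (Real.exp_le_exp.2 (abs_le.1 (hb _)).1) (Real.exp_pos _).le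
      ((hw σ).gt_zero _).le
  · exact mul_le_mul ((hw σ).mem _).2 (Real.exp_le_exp.2 (abs_le.1 (hb _)).2) (Real.exp_pos _).le
      (hw σ).pos.le

lemma measW_fields {j : ℕ} (δ a : ℝ) (ρ : Fin (r + 1) → ℝ) {P : Type} [MeasurableSpace P]
    {W : P → Cube N → (Fin r → β) → ℝ} (hW : MeasW W) :
    MeasW fun (z : P × (Fin j → Fin N → ℝ)) => tens (W z.1) (fieldsW δ a ρ z.2) := fun σ => by
  refine Measurable.mul ?_ ?_
  · exact Measurable.comp (g := fun q : P × (Fin r → β) => W q.1 σ q.2)
      (f := fun z : (P × (Fin j → Fin N → ℝ)) × (Fin r → β × (Fin j → Fin N → ℝ)) =>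
        (z.1.1, fun i => (z.2 i).1)) (hW σ)
      ((measurable_fst.comp measurable_fst).prodMk
        (measurable_pi_lambda _ fun i => ((measurable_pi_apply i).comp measurable_snd).fst))
  · exact Measurable.comp
      (g := fun q : (Fin j → Fin N → ℝ) × (Fin r → Fin j → Fin N → ℝ) => fieldsW δ a ρ q.1 σ q.2)
      (f := fun z : (P × (Fin j → Fin N → ℝ)) × (Fin r → β × (Fin j → Fin N → ℝ)) =>
        (z.1.2, fun i => (z.2 i).2)) (measurable_fieldsW δ a ρ σ)
      ((measurable_snd.comp measurable_fst).prodMk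
        (measurable_pi_lambda _ fun i => ((measurable_pi_apply i).comp measurable_snd).snd))

/-- The recursion of the fields, unrolled. -/
theorem fields_eq {δ a : ℝ} (ha : 0 ≤ a) {m : Fin r → ℝ} (hm : Exps m) (ρ : Fin (r + 1) → ℝ) :
    ∀ (j : ℕ) (β : Type) [MeasurableSpace β] (ν : Measure β) [IsProbabilityMeasure ν] (C : ℝ)
      (w : Cube N → (Fin r → β) → ℝ), WBdd C w →
      fields δ a m ρ j β ν w = ∫ E, Phi (ν.prod (Measure.pi fun _ : Fin j => gam (Fin N))) m
        (tens w (fieldsW δ a ρ E)) ∂(Measure.pi fun _ : Fin j => gam (Fin N))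
  | 0, β, _, ν, _, C, w, hw => by
    have e : ∀ E : Fin 0 → Fin N → ℝ,
        Phi (ν.prod (Measure.pi fun _ : Fin 0 => gam (Fin N))) m (tens w (fieldsW δ a ρ E)) =
          Phi ν m w := fun E => by
      simp only [Phi]
      congr 1
      rw [← genNested_map (ν.prod (Measure.pi fun _ : Fin 0 => gam (Fin N))) ν
        measurePreserving_fst m (fun η => ∑ σ, w σ η) (bdd_sum hw).meas]
      congr 1
      funext η
      simp [tens, fieldsW]
    simp only [e, fields, integral_const, probReal_univ, one_smul]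
  | j + 1, β, _, ν, _, C, w, hw => by
    set P1 := Measure.pi fun _ : Fin (j + 1) => gam (Fin N)
    set P0 := Measure.pi fun _ : Fin j => gam (Fin N)
    have hsplit := measurePreserving_piFinSuccAbove (fun _ : Fin (j + 1) => gam (Fin N)) 0
    have hmap : MeasurePreserving
        (fun z : β × (Fin (j + 1) → Fin N → ℝ) => ((z.1, z.2 0), fun k : Fin j => z.2 k.succ))
        (ν.prod P1) ((ν.prod (gam (Fin N))).prod P0) :=
      (measurePreserving_prodAssoc ν (gam (Fin N)) P0).symm.comp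
        ((MeasurePreserving.id ν).prod hsplit)
    let Wj : (Fin N → ℝ) × (Fin j → Fin N → ℝ) →
        Cube N → (Fin r → (β × (Fin N → ℝ)) × (Fin j → Fin N → ℝ)) → ℝ :=
      fun z => tens (tens w (fieldZ δ a ρ z.1)) (fieldsW δ a ρ z.2)
    let G : (Fin N → ℝ) × (Fin j → Fin N → ℝ) → ℝ := fun z =>
      Phi ((ν.prod (gam (Fin N))).prod P0) m (Wj z)
    have hWj : MeasW Wj := measW_fields δ a ρ (measW_field_const δ a ρ hw)
    have hWb : ∀ z, WBdd (C * Real.exp (fieldM δ a N ρ) * Real.exp (j * fieldM δ a N ρ)) (Wj z) :=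
      fun z => wbdd_fields ha ρ (wbdd_field ha ρ hw z.1) z.2
    have hGm : Measurable G := measurable_Phi _ m hWj
    have hGi : Integrable G ((gam (Fin N)).prod P0) :=
      integrable_bdd hGm fun z => abs_Phi_le' _ hm (hWb z)
    have e : ∀ E : Fin (j + 1) → Fin N → ℝ,
        Phi (ν.prod P1) m (tens w (fieldsW δ a ρ E)) = G (E 0, fun k => E k.succ) := fun E => by
      simp only [G, Phi]
      congr 1
      rw [← genNested_map (ν.prod P1) ((ν.prod (gam (Fin N))).prod P0) hmap m
        (fun η => ∑ σ, Wj (E 0, fun k => E k.succ) σ η) (bdd_sum (hWb _)).meas]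
      congr 1
      funext η
      refine Finset.sum_congr rfl fun σ _ => ?_
      simp only [Wj, tens, fieldsW, fieldZ, Fin.sum_univ_succ, Real.exp_add]
      ring
    calc fields δ a m ρ (j + 1) β ν w = ∫ e, ∫ E, G (e, E) ∂P0 ∂gam (Fin N) := by
          refine integral_congr_ae (Eventually.of_forall fun e => ?_)
          exact fields_eq ha hm ρ j (β × (Fin N → ℝ)) (ν.prod (gam (Fin N))) _ _
            (wbdd_field ha ρ hw e)
      _ = ∫ z, G z ∂(gam (Fin N)).prod P0 := (integral_prod _ hGi).symm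
      _ = ∫ E, G (E 0, fun k => E k.succ) ∂P1 := (integral_mp hsplit hGm).symm
      _ = _ := by simp only [e]

/-- Factorisation over the sites. -/
theorem genNested_pi {γ : Type} [MeasurableSpace γ] (μ : Measure γ) [IsProbabilityMeasure μ]
    {r : ℕ} (m : Fin r → ℝ) (hm : ∀ i, 0 < m i) : ∀ (n : ℕ) (Z : Fin n → (Fin r → γ) → ℝ),
    (∀ i, Measurable (Z i)) → (∀ i η, 0 ≤ Z i η) →
    genNested (Measure.pi fun _ : Fin n => μ) m (fun η => ∏ i, Z i fun p => η p i) =
      ∏ i, genNested μ m (Z i)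
  | 0, Z, _, _ => by
    simp only [Finset.univ_eq_empty, Finset.prod_empty]
    exact genNested_one _ m hm
  | n + 1, Z, hZ, hZ0 => by
    have hsplit := measurePreserving_piFinSuccAbove (fun _ : Fin (n + 1) => μ) 0
    let Y : (Fin r → γ × (Fin n → γ)) → ℝ := fun θ =>
      Z 0 (fun p => (θ p).1) * ∏ i : Fin n, Z i.succ fun p => (θ p).2 i
    have hY : Measurable Y :=
      ((hZ 0).comp (measurable_pi_lambda _ fun p => (measurable_pi_apply p).fst)).mul
        (Finset.measurable_prod _ fun i _ => (hZ i.succ).comp (measurable_pi_lambda _ fun p =>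
          (measurable_pi_apply i).comp (measurable_pi_apply p).snd))
    rw [Fin.prod_univ_succ, ← genNested_pi μ m hm n (fun i => Z i.succ) (fun i => hZ _)
      fun i η => hZ0 _ _, ← genNested_prod μ (Measure.pi fun _ : Fin n => μ) m (Z 0)
        (fun η => ∏ i : Fin n, Z i.succ fun p => η p i) (hZ0 0)
        fun η => Finset.prod_nonneg fun i _ => hZ0 _ _,
      ← genNested_map _ _ hsplit m Y hY]
    congr 1
    funext η
    simp only [Y, Fin.prod_univ_succ]
    rfl

/-- The uniform weight. -/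
def unifW (N : ℕ) {r : ℕ} : Cube N → (Fin r → Unit) → ℝ := fun _ _ => ((2 : ℝ) ^ N)⁻¹

lemma wbdd_unifW (N : ℕ) {r : ℕ} : WBdd ((2 : ℝ) ^ N) (unifW N (r := r)) := fun _ =>
  ⟨by positivity, measurable_const, fun _ => ⟨le_rfl,
    (inv_le_one_of_one_le₀ (one_le_pow₀ one_le_two)).trans (one_le_pow₀ one_le_two)⟩⟩

lemma sum_cube_exp (P : Fin N → ℝ) :
    ∑ σ : Cube N, ((2 : ℝ) ^ N)⁻¹ * Real.exp (∑ i, sv σ i * P i) = ∏ i, Real.cosh (P i) := by
  have e : ∀ i, Real.cosh (P i) =
      ∑ b : Bool, 2⁻¹ * Real.exp ((if b then (1 : ℝ) else -1) * P i) := fun i => by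
    simp [Real.cosh_eq]
    ring
  simp only [e, Fintype.prod_sum]
  refine Finset.sum_congr rfl fun σ _ => ?_
  rw [Finset.prod_mul_distrib, Finset.prod_const, Finset.card_univ, Fintype.card_fin, inv_pow,
    Real.exp_sum]
  rfl

/-- The exponent at one site. -/
def siteArg {L : ℕ} (δ a : ℝ) (ρ : Fin (r + 1) → ℝ) (e : Fin L → ℝ)
    (η : Fin r → Fin L → ℝ) : ℝ :=
  Real.sqrt δ * ∑ k, pathField ρ (clipA a (e k)) fun p => clipA a (η p k)

lemma measurable_siteArg {L : ℕ} (δ a : ℝ) (ρ : Fin (r + 1) → ℝ) :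
    Measurable fun z : (Fin L → ℝ) × (Fin r → Fin L → ℝ) => siteArg δ a ρ z.1 z.2 := by
  refine (Finset.measurable_sum _ fun k _ => ?_).const_mul _
  refine (measurable_pathField ρ).comp
    (f := fun z : (Fin L → ℝ) × (Fin r → Fin L → ℝ) =>
      (clipA a (z.1 k), fun p => clipA a (z.2 p k))) (Measurable.prodMk ?_ ?_)
  · exact (measurable_clipA a).comp ((measurable_pi_apply k).comp measurable_fst)
  · exact measurable_pi_lambda _ fun p => (measurable_clipA a).comp
      ((measurable_pi_apply k).comp ((measurable_pi_apply p).comp measurable_snd))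

lemma abs_siteArg_le {L : ℕ} {δ a : ℝ} (ha : 0 ≤ a) (ρ : Fin (r + 1) → ℝ) (e : Fin L → ℝ)
    (η : Fin r → Fin L → ℝ) : |siteArg δ a ρ e η| ≤ Real.sqrt δ * (L * (fieldLen ρ * a)) := by
  rw [siteArg, abs_mul, abs_of_nonneg (Real.sqrt_nonneg δ)]
  exact mul_le_mul_of_nonneg_left ((Finset.abs_sum_le_sum_abs _ _).trans
    ((Finset.sum_le_sum fun k _ => abs_pathField_le ρ (abs_clipA_le ha _) fun p =>
      abs_clipA_le ha _).trans_eq (by simp : ∑ _k : Fin L, fieldLen ρ * a = _)))
    (Real.sqrt_nonneg δ)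

/-- The log nested mean at one site. -/
def siteLog {L : ℕ} (δ a : ℝ) (m : Fin r → ℝ) (ρ : Fin (r + 1) → ℝ) (e : Fin L → ℝ) : ℝ :=
  Real.log (genNested (gam (Fin L)) m fun η => Real.exp (Real.log (Real.cosh (siteArg δ a ρ e η))))

lemma measurable_cosh_siteArg {L : ℕ} (δ a : ℝ) (ρ : Fin (r + 1) → ℝ) :
    Measurable fun z : (Fin L → ℝ) × (Fin r → Fin L → ℝ) =>
      Real.exp (Real.log (Real.cosh (siteArg δ a ρ z.1 z.2))) :=
  ((Real.continuous_cosh.measurable.comp (measurable_siteArg δ a ρ)).log).exp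

lemma site_mem {L : ℕ} {δ a : ℝ} (ha : 0 ≤ a) {m : Fin r → ℝ} (hm : Exps m)
    (ρ : Fin (r + 1) → ℝ) (e : Fin L → ℝ) :
    1 ≤ genNested (gam (Fin L)) m (fun η => Real.exp (Real.log (Real.cosh (siteArg δ a ρ e η)))) ∧
    genNested (gam (Fin L)) m (fun η => Real.exp (Real.log (Real.cosh (siteArg δ a ρ e η)))) ≤
      Real.cosh (Real.sqrt δ * (L * (fieldLen ρ * a))) := by
  refine genNested_bounds (gam (Fin L)) m hm.pos _
    ((measurable_cosh_siteArg δ a ρ).comp (f := fun η => (e, η))
      (measurable_const.prodMk measurable_id)) one_pos fun η => ?_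
  rw [Real.exp_log (Real.cosh_pos _)]
  exact ⟨Real.one_le_cosh _, Real.cosh_le_cosh.2 ((abs_siteArg_le ha ρ e η).trans (le_abs_self _))⟩

lemma measurable_siteLog {L : ℕ} (δ a : ℝ) (m : Fin r → ℝ) (ρ : Fin (r + 1) → ℝ) :
    Measurable (siteLog (L := L) δ a m ρ) :=
  (measurable_genNested (gam (Fin L)) m _ (measurable_cosh_siteArg δ a ρ)).log

lemma integrable_siteLog {L : ℕ} {δ a : ℝ} (ha : 0 ≤ a) {m : Fin r → ℝ} (hm : Exps m)
    (ρ : Fin (r + 1) → ℝ) {P : Type} [MeasurableSpace P] (μ : Measure P) [IsFiniteMeasure μ]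
    {T : P → Fin L → ℝ} (hT : Measurable T) : Integrable (fun p => siteLog δ a m ρ (T p)) μ := by
  refine integrable_bdd (C := Real.log (Real.cosh (Real.sqrt δ * (L * (fieldLen ρ * a)))))
    ((measurable_siteLog δ a m ρ).comp hT) fun p => ?_
  obtain ⟨h1, h2⟩ := site_mem (δ := δ) ha hm ρ (T p)
  simp only [siteLog]
  rw [abs_of_nonneg (Real.log_nonneg h1)]
  exact Real.log_le_log (one_pos.trans_le h1) h2

/-- The fields on the uniform weight factor over the sites. -/
theorem fields_unif {δ a : ℝ} (ha : 0 ≤ a) {m : Fin r → ℝ} (hm : Exps m) (ρ : Fin (r + 1) → ℝ)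
    (L : ℕ) :
    fields δ a m ρ L Unit (Measure.dirac ()) (unifW N) =
      N * ∫ e, siteLog δ a m ρ e ∂gam (Fin L) := by
  rw [fields_eq ha hm ρ L Unit (Measure.dirac ()) _ _ (wbdd_unifW N)]
  set PL := Measure.pi fun _ : Fin L => gam (Fin N)
  have hflip : MeasurePreserving (fun (x : Fin L → Fin N → ℝ) (i : Fin N) (k : Fin L) => x k i) PL
      (Measure.pi fun _ : Fin N => gam (Fin L)) :=
    mp_flip (ι := Fin L) (κ := Fin N) (gaussianReal 0 1)
  let Z : (Fin L → Fin N → ℝ) → Fin N → (Fin r → Fin L → ℝ) → ℝ := fun E i η =>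
    Real.exp (Real.log (Real.cosh (siteArg δ a ρ (fun k => E k i) η)))
  have hZm : ∀ E i, Measurable (Z E i) := fun E i => (measurable_cosh_siteArg δ a ρ).comp
    (f := fun η => (fun k => E k i, η)) (measurable_const.prodMk measurable_id)
  have e : ∀ E : Fin L → Fin N → ℝ,
      Phi ((Measure.dirac ()).prod PL) m (tens (unifW N) (fieldsW δ a ρ E)) =
        ∑ i, siteLog δ a m ρ fun k => E k i := fun E => by
    have hY : Measurable fun η : Fin r → Fin N → Fin L → ℝ => ∏ i, Z E i fun p => η p i :=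
      Finset.measurable_prod _ fun i _ => (hZm E i).comp
        (measurable_pi_lambda _ fun p => (measurable_pi_apply i).comp (measurable_pi_apply p))
    have h1 : (fun η : Fin r → Unit × (Fin L → Fin N → ℝ) =>
        ∑ σ, tens (unifW N) (fieldsW δ a ρ E) σ η) =
        fun η => (fun η' : Fin r → Fin N → Fin L → ℝ => ∏ i, Z E i fun p => η' p i)
          fun p i k => (η p).2 k i := by
      funext η
      simp only [Z, Real.exp_log (Real.cosh_pos _), tens, unifW, fieldsW]
      rw [← sum_cube_exp]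
      refine Finset.sum_congr rfl fun σ _ => ?_
      congr 2
      simp only [fieldX, siteArg, Finset.mul_sum]
      rw [Finset.sum_comm]
      exact Finset.sum_congr rfl fun i _ => Finset.sum_congr rfl fun k _ => by ring
    have h2 : genNested ((Measure.dirac ()).prod PL) m
        (fun η => ∑ σ, tens (unifW N) (fieldsW δ a ρ E) σ η) =
        ∏ i, genNested (gam (Fin L)) m (Z E i) := by
      rw [h1]
      refine (genNested_map ((Measure.dirac ()).prod PL) (Measure.pi fun _ : Fin N => gam (Fin L))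
        (hflip.comp measurePreserving_snd) m _ hY).trans ?_
      exact genNested_pi (gam (Fin L)) m hm.pos N (Z E) (hZm E) fun i η => (Real.exp_pos _).le
    simp only [Phi, h2]
    rw [Real.log_prod fun i _ => (one_pos.trans_le (site_mem ha hm ρ _).1).ne']
    rfl
  simp only [e]
  have hT : ∀ i : Fin N, Measurable fun E : Fin L → Fin N → ℝ => fun k => E k i := fun i =>
    measurable_pi_lambda _ fun k => (measurable_pi_apply i).comp (measurable_pi_apply k)
  rw [integral_finsetSum _ fun i _ => integrable_siteLog ha hm ρ PL (hT i)]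
  have hi : ∀ i : Fin N, ∫ E, siteLog δ a m ρ (fun k => E k i) ∂PL =
      ∫ e, siteLog δ a m ρ e ∂gam (Fin L) := fun i =>
    integral_mp ((measurePreserving_eval (fun _ : Fin N => gam (Fin L)) i).comp hflip)
      (measurable_siteLog δ a m ρ)
  simp only [hi]
  simp

/-- The fields are below the site value. -/
theorem fields_unif_le {a : ℝ} (ha : 0 ≤ a) {m : Fin r → ℝ} (hm : Exps m) (ρ : Fin (r + 1) → ℝ)
    {L : ℕ} (hL : 0 < L) :
    fields (1 / (L : ℝ)) a m ρ L Unit (Measure.dirac ()) (unifW N) ≤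
      N * (siteValue m ρ + ρ (Fin.last r) / 2) := by
  rw [fields_unif ha hm ρ L]
  refine mul_le_mul_of_nonneg_left ?_ (Nat.cast_nonneg _)
  obtain ⟨hc, hl⟩ := level_props m ρ hm.pos logCosh_props.1 logCosh_props.2
  set F := level m ρ (fun x => Real.log (Real.cosh x)) 0 with hF
  have hT : Measurable fun e : Fin L → ℝ => ∑ k, clipA a (e k) :=
    Finset.measurable_sum _ fun k _ => (measurable_clipA a).comp (measurable_pi_apply k)
  have hpt : ∀ e : Fin L → ℝ, siteLog (1 / (L : ℝ)) a m ρ e ≤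
      F (0 + Real.sqrt (ρ 0) * (Real.sqrt (1 / L) * ∑ k, clipA a (e k))) := fun e => by
    have harg : ∀ η, siteArg (1 / (L : ℝ)) a ρ e η =
        Real.sqrt (ρ 0) * (Real.sqrt (1 / L) * ∑ k, clipA a (e k)) + siteExp a ρ η := fun η => by
      simp only [siteArg, pathField, siteExp, inc, Finset.sum_add_distrib, ← Finset.mul_sum]
      ring
    simp only [siteLog, harg, zero_add]
    exact site_rec hL ha m hm.pos ρ _ logCosh_props.1 logCosh_props.2 _
  have hi : Integrable (fun e : Fin L → ℝ =>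
      F (0 + Real.sqrt (ρ 0) * (Real.sqrt (1 / L) * ∑ k, clipA a (e k)))) (gam (Fin L)) := by
    have := hl.growth.integrable 0 (Real.sqrt (ρ 0) * Real.sqrt (1 / L)) hT fun b =>
      (Finset.abs_sum_le_sum_abs _ _).trans (Finset.sum_le_sum fun k _ => abs_clipA_le_abs ha _)
    simpa only [mul_assoc] using this
  have hs : Integrable (fun e : Fin L → ℝ => siteLog (1 / (L : ℝ)) a m ρ e) (gam (Fin L)) :=
    integrable_siteLog ha hm ρ _ measurable_id
  refine ((integral_mono hs hi hpt).trans (clip_gauss hc hl.growth ha hL 0 (Real.sqrt (ρ 0)))).trans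
    (le_of_eq ?_)
  simp only [siteValue, zero_add, hF]
  ring

end Vale.Agent.P157.Parisi.Up
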