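import Vale.Agent.P157.Parisi.Upper.Step
import Vale.Agent.P157.Parisi.Main.Energy

/-!
Slots at the start: a binomial number of patterns against `⌊α N⌋` of them.
-/

noncomputable section

open MeasureTheory ProbabilityTheory Filter
open scoped BigOperators Topology

namespace Vale.Agent.P157.Parisi.Up

open Vale.Agent.P168 (genNested)
open Vale.Agent.P168.Cascade (Exps)

/-- The mean of `G` at a binomial number of successes in `j` trials of probability `ε`. -/
def binMean (ε : ℝ) : ℕ → (ℕ → ℝ) → ℝ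
  | 0, G => G 0
  | j + 1, G => ε * binMean ε j (fun n => G (n + 1)) + (1 - ε) * binMean ε j G

lemma binMean_mono {ε : ℝ} (h0 : 0 ≤ ε) (h1 : ε ≤ 1) :
    ∀ (j : ℕ) {G H : ℕ → ℝ}, (∀ n, G n ≤ H n) → binMean ε j G ≤ binMean ε j H
  | 0, _, _, h => h 0
  | j + 1, _, _, h => add_le_add
      (mul_le_mul_of_nonneg_left (binMean_mono h0 h1 j fun n => h (n + 1)) h0)
      (mul_le_mul_of_nonneg_left (binMean_mono h0 h1 j h) (sub_nonneg.2 h1))

lemma binMean_affine (ε a b : ℝ) :
    ∀ (j : ℕ) (G : ℕ → ℝ), binMean ε j (fun n => a * G n + b) = a * binMean ε j G + b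
  | 0, _ => rfl
  | j + 1, G => by
    simp only [binMean, binMean_affine ε a b j]
    ring

lemma binMean_sq (ε : ℝ) : ∀ (j : ℕ) (t : ℝ),
    binMean ε j (fun n => ((n : ℝ) - t) ^ 2) = j * (ε * (1 - ε)) + (j * ε - t) ^ 2
  | 0, t => by simp [binMean]
  | j + 1, t => by
    have e : (fun n : ℕ => (((n + 1 : ℕ) : ℝ) - t) ^ 2) = fun n : ℕ => ((n : ℝ) - (t - 1)) ^ 2 := by
      funext n; push_cast; ring
    simp only [binMean, e, binMean_sq ε j]
    push_cast
    ring

lemma binMean_integral {P : Type*} [MeasurableSpace P] {μ : Measure P} (ε : ℝ) :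
    ∀ (j : ℕ) (K : P → ℕ → ℝ), (∀ n, Integrable (fun p => K p n) μ) →
      Integrable (fun p => binMean ε j (K p)) μ ∧
        ∫ p, binMean ε j (K p) ∂μ = binMean ε j fun n => ∫ p, K p n ∂μ
  | 0, _, h => ⟨h 0, rfl⟩
  | j + 1, K, h => by
    obtain ⟨i1, e1⟩ := binMean_integral ε j (fun p n => K p (n + 1)) fun n => h (n + 1)
    obtain ⟨i0, e0⟩ := binMean_integral ε j K h
    refine ⟨(i1.const_mul ε).add (i0.const_mul (1 - ε)), ?_⟩
    simp only [binMean]
    rw [integral_add (i1.const_mul ε) (i0.const_mul (1 - ε)), integral_const_mul,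
      integral_const_mul, e1, e0]

variable {N : ℕ} {f : ℝ → ℝ} {A : ℝ}

lemma abs_log_tilt_le (H G : Cube N → ℝ) {a : ℝ} (hG : ∀ σ, |G σ| ≤ a) :
    |Real.log (∑ σ, Real.exp (H σ) / (∑ τ, Real.exp (H τ)) * Real.exp (G σ))| ≤ a := by
  set w : Cube N → ℝ := fun σ => Real.exp (H σ) / ∑ τ, Real.exp (H τ)
  have hw : ∀ σ, 0 < w σ := fun σ => div_pos (Real.exp_pos _) (Main.sum_exp_pos H)
  have h1 : ∑ σ, w σ = 1 := by
    simp only [w, ← Finset.sum_div, div_self (Main.sum_exp_pos H).ne']
  have hp : 0 < ∑ σ, w σ * Real.exp (G σ) :=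
    Finset.sum_pos (fun σ _ => mul_pos (hw σ) (Real.exp_pos _)) Finset.univ_nonempty
  rw [abs_le, Real.le_log_iff_exp_le hp, Real.log_le_iff_le_exp hp]
  constructor
  · calc Real.exp (-a) = ∑ σ, w σ * Real.exp (-a) := by rw [← Finset.sum_mul, h1, one_mul]
      _ ≤ _ := Finset.sum_le_sum fun σ _ => mul_le_mul_of_nonneg_left
          (Real.exp_le_exp.2 (abs_le.1 (hG σ)).1) (hw σ).le
  · calc _ ≤ ∑ σ, w σ * Real.exp a := Finset.sum_le_sum fun σ _ =>
          mul_le_mul_of_nonneg_left (Real.exp_le_exp.2 (abs_le.1 (hG σ)).2) (hw σ).le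
      _ = _ := by rw [← Finset.sum_mul, h1, one_mul]

/-- The mean log-average of `n` fresh patterns over a base Hamiltonian. -/
def baseLog (f : ℝ → ℝ) (H : Cube N → ℝ) (n : ℕ) : ℝ :=
  ∫ g : Fin n → Fin N → ℝ, Main.cubeLog (fun σ => H σ + ∑ a, f (dot (g a) (unitVec σ)))
    ∂Measure.pi fun _ => gam (Fin N)

lemma continuous_cubeLog_pat (hs : Smooth f A) (H : Cube N → ℝ) (n : ℕ) :
    Continuous fun g : Fin n → Fin N → ℝ =>
      Main.cubeLog (fun σ => H σ + ∑ a, f (dot (g a) (unitVec σ))) := by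
  have := continuous_of_smooth hs
  unfold Main.cubeLog
  refine Continuous.log (by unfold dot; fun_prop) fun g => ?_
  exact (div_pos (Main.sum_exp_pos _) (by positivity)).ne'

lemma abs_cubeLog_pat_le (hs : Smooth f A) (H : Cube N → ℝ) {n : ℕ} (g : Fin n → Fin N → ℝ) :
    |Main.cubeLog (fun σ => H σ + ∑ a, f (dot (g a) (unitVec σ)))| ≤ (∑ σ, |H σ|) + n * A := by
  refine Main.abs_cubeLog_le fun σ => (abs_add_le _ _).trans (add_le_add
    (Finset.single_le_sum (f := fun σ => |H σ|) (fun σ _ => abs_nonneg _) (Finset.mem_univ σ))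
    ((Finset.abs_sum_le_sum_abs _ _).trans ?_))
  refine (Finset.sum_le_sum fun a _ => hs.b0 _).trans_eq ?_
  simp

lemma baseLog_succ (hs : Smooth f A) (H : Cube N → ℝ) (n : ℕ) :
    Integrable (fun g => baseLog f (fun σ => H σ + f (dot g (unitVec σ))) n) (gam (Fin N)) ∧
    baseLog f H (n + 1) =
      ∫ g, baseLog f (fun σ => H σ + f (dot g (unitVec σ))) n ∂gam (Fin N) := by
  have hp := measurePreserving_piFinSuccAbove (fun _ : Fin (n + 1) => gam (Fin N)) 0
  set G : (Fin N → ℝ) × (Fin n → Fin N → ℝ) → ℝ := fun p => Main.cubeLog fun σ =>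
    H σ + f (dot p.1 (unitVec σ)) + ∑ a, f (dot (p.2 a) (unitVec σ))
  have hG : Measurable G := by
    have := continuous_of_smooth hs
    refine (Continuous.log (by unfold dot; fun_prop) fun p => ?_).measurable
    exact (div_pos (Main.sum_exp_pos _) (by positivity)).ne'
  have hGi : Integrable G ((gam (Fin N)).prod (Measure.pi fun _ : Fin n => gam (Fin N))) := by
    refine integrable_of_abs_le (K := (∑ σ, |H σ|) + (n + 1 : ℕ) * A) hG fun p => ?_
    have := abs_cubeLog_pat_le hs H (Fin.cons p.1 p.2 : Fin (n + 1) → Fin N → ℝ)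
    simpa [G, Fin.sum_univ_succ, add_assoc] using this
  refine ⟨hGi.integral_prod_left, ?_⟩
  rw [show (∫ g, baseLog f (fun σ => H σ + f (dot g (unitVec σ))) n ∂gam (Fin N)) =
    ∫ p, G p ∂(gam (Fin N)).prod (Measure.pi fun _ : Fin n => gam (Fin N)) from
      (integral_prod _ hGi).symm, ← hp.integral_comp' (g := G)]
  refine integral_congr_ae (Eventually.of_forall fun g => ?_)
  simp only [G, Fin.sum_univ_succ, add_assoc]
  rfl

lemma genNested_constant {r : ℕ} {m : Fin r → ℝ} (hm : ∀ i, 0 < m i) {C : ℝ} (hC : 0 ≤ C) :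
    genNested (Measure.dirac ()) m (fun _ => C) = C := by
  have h := P168.Upper.genNested_const_mul (Measure.dirac ()) hC m hm (fun _ => 1) fun _ => zero_le_one
  simpa [P168.Upper.genNested_one (Measure.dirac ()) m hm] using h

lemma slots_eq_binMean (hs : Smooth f A) {r : ℕ} {m : Fin r → ℝ} (hm : Exps m) (ε : ℝ) :
    ∀ (j : ℕ) (H : Cube N → ℝ),
      slots ε f (Measure.dirac ()) m j
          (fun (σ : Cube N) (_ : Fin r → Unit) => Real.exp (H σ) / 2 ^ N) =
        binMean ε j (baseLog f H)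
  | 0, H => by
    have h := genNested_constant (r := r) hm.pos (C := ∑ σ, Real.exp (H σ) / 2 ^ N)
      (Finset.sum_nonneg fun σ _ => by positivity)
    simp only [slots, Phi, h, binMean, baseLog]
    simp [Main.cubeLog, Finset.sum_div]
  | j + 1, H => by
    have e : ∀ g : Fin N → ℝ,
        (fun (σ : Cube N) (_ : Fin r → Unit) => Real.exp (H σ) / 2 ^ N * patU f g σ) =
          fun σ _ => Real.exp (H σ + f (dot g (unitVec σ))) / 2 ^ N := fun g => by
      funext σ η
      rw [patU, Real.exp_add]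
      ring
    simp only [slots, e, slots_eq_binMean hs hm ε j, binMean]
    rw [(binMean_integral ε j (fun (g : Fin N → ℝ) n =>
      baseLog f (fun σ => H σ + f (dot g (unitVec σ))) n) fun n => (baseLog_succ hs H n).1).2]
    simp only [← (baseLog_succ hs H _).2]

lemma abs_baseLog_succ_sub (hs : Smooth f A) (n : ℕ) :
    ∀ H : Cube N → ℝ, |baseLog f H (n + 1) - baseLog f H n| ≤ A := by
  induction n with
  | zero =>
    intro H
    have h0 : baseLog f H 0 = Main.cubeLog H := by simp [baseLog]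
    have hc := (baseLog_succ hs H 0).2
    have hb : ∀ g : Fin N → ℝ,
        |baseLog f (fun σ => H σ + f (dot g (unitVec σ))) 0 - Main.cubeLog H| ≤ A := fun g => by
      have e : baseLog f (fun σ => H σ + f (dot g (unitVec σ))) 0 =
          Main.cubeLog (fun σ => H σ + f (dot g (unitVec σ))) := by simp [baseLog]
      rw [e, Main.cubeLog_add]
      exact abs_log_tilt_le H (fun σ => f (dot g (unitVec σ))) fun σ => hs.b0 _
    rw [h0, hc, show Main.cubeLog H = ∫ _, Main.cubeLog H ∂gam (Fin N) by simp,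
      ← integral_sub (baseLog_succ hs H 0).1 (integrable_const _)]
    simpa using norm_integral_le_of_norm_le_const (μ := gam (Fin N)) (C := A)
      (Eventually.of_forall fun g => (Real.norm_eq_abs _).trans_le (hb g))
  | succ n ih =>
    intro H
    rw [(baseLog_succ hs H (n + 1)).2, (baseLog_succ hs H n).2,
      ← integral_sub (baseLog_succ hs H (n + 1)).1 (baseLog_succ hs H n).1]
    simpa using norm_integral_le_of_norm_le_const (μ := gam (Fin N)) (C := A)
      (Eventually.of_forall fun g => (Real.norm_eq_abs _).trans_le (ih _))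

/-- Slots at the start dominate the pressure. -/
lemma slots_init {r : ℕ} (hs : Smooth f A) {m : Fin r → ℝ} (hm : Exps m)
    {α : ℝ} (hα : 0 ≤ α) {N L : ℕ} (hN : 0 < N) (hL : 0 < L) (hε : α * N / L ≤ 1) :
    (N : ℝ) * meanPressure isingLaw α f N ≤
      slots (α * N / L) f (Measure.dirac ()) m L
        (fun (_ : Cube N) (_ : Fin r → Unit) => ((2 : ℝ) ^ N)⁻¹) +
      A * (Real.sqrt (α * N) + 1) := by
  have hA := smooth_nonneg hs
  set ε := α * N / L with hεdef
  set t := α * (N : ℝ) with ht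
  have ht0 : 0 ≤ t := mul_nonneg hα (Nat.cast_nonneg N)
  have hε0 : 0 ≤ ε := by positivity
  have hLε : (L : ℝ) * ε = t := by
    have : (L : ℝ) ≠ 0 := Nat.cast_ne_zero.2 hL.ne'
    rw [hεdef]; field_simp
  set M := ⌊t⌋₊
  set H₀ : Cube N → ℝ := fun _ => 0
  have e : (fun (_ : Cube N) (_ : Fin r → Unit) => ((2 : ℝ) ^ N)⁻¹) =
      fun σ _ => Real.exp (H₀ σ) / 2 ^ N := by simp [H₀]
  have hp : (N : ℝ) * meanPressure isingLaw α f N = baseLog f H₀ M := by
    rw [Main.meanPressure_eq hs, mul_div_cancel₀ _ (Nat.cast_ne_zero.2 hN.ne')]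
    have hmp : MeasurePreserving (fun g : ℕ → Fin N → ℝ => fun i : Fin M => g i)
        (Measure.infinitePi fun _ => gam (Fin N)) (Measure.pi fun _ => gam (Fin N)) :=
      measurePreserving_fst.comp (Main.mp_cut M 0)
    rw [baseLog, ← hmp.map_eq, integral_map hmp.measurable.aemeasurable
      (continuous_cubeLog_pat hs H₀ M).aestronglyMeasurable]
    refine integral_congr_ae (Eventually.of_forall fun g => ?_)
    simp only [H₀, zero_add]
    congr 1
    funext σ
    exact (Fin.sum_univ_eq_sum_range (fun a => f (dot (g a) (unitVec σ))) M).symm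
  have hlip : ∀ n : ℕ, baseLog f H₀ M - A * |(n : ℝ) - M| ≤ baseLog f H₀ n := fun n => by
    have h1 := fun k => abs_baseLog_succ_sub hs k H₀
    rcases le_total M n with h | h
    · obtain ⟨l, rfl⟩ := Nat.exists_eq_add_of_le h
      have := P168.Toolkit.abs_le_linear h1 M l
      push_cast
      rw [add_sub_cancel_left, abs_of_nonneg (Nat.cast_nonneg l)]
      linarith [(abs_le.1 this).1]
    · obtain ⟨l, hl⟩ := Nat.exists_eq_add_of_le h
      have := P168.Toolkit.abs_le_linear h1 n l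
      rw [hl, Nat.cast_add, sub_add_cancel_left, abs_neg, abs_of_nonneg (Nat.cast_nonneg l)]
      linarith [(abs_le.1 this).2]
  rw [e, slots_eq_binMean hs hm, hp]
  rcases ht0.eq_or_lt with h0 | hpos
  · have hM : M = 0 := by simp [M, ← h0]
    have hε00 : ε = 0 := by simp [hεdef, ← h0]
    have hb : ∀ (j : ℕ) (G : ℕ → ℝ), binMean (0 : ℝ) j G = G 0 := fun j G => by
      induction j with
      | zero => rfl
      | succ j ih => simp [binMean, ih]
    rw [hM, hε00, hb, ← h0, Real.sqrt_zero]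
    linarith
  set s := Real.sqrt t
  have hs0 : 0 < s := Real.sqrt_pos.2 hpos
  have hs2 : s ^ 2 = t := Real.sq_sqrt ht0
  have hfl : |t - M| ≤ 1 := abs_le.2
    ⟨by linarith [Nat.floor_le ht0], by linarith [Nat.lt_floor_add_one t]⟩
  have key : ∀ n : ℕ, -(A / (2 * s)) * ((n : ℝ) - t) ^ 2 +
      (baseLog f H₀ M - A * (s / 2 + 1)) ≤ baseLog f H₀ n := fun n => by
    refine le_trans ?_ (hlip n)
    have hx : |(n : ℝ) - t| ≤ ((n : ℝ) - t) ^ 2 / (2 * s) + s / 2 := by
      rw [div_add_div _ _ (by positivity) two_ne_zero, le_div_iff₀ (by positivity),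
        ← sq_abs ((n : ℝ) - t)]
      nlinarith [sq_nonneg (|(n : ℝ) - t| - s)]
    have h3 : |(n : ℝ) - M| ≤ ((n : ℝ) - t) ^ 2 / (2 * s) + s / 2 + 1 :=
      (abs_sub_le _ t _).trans (add_le_add hx hfl)
    have h4 := mul_le_mul_of_nonneg_left h3 hA
    have e4 : A * (((n : ℝ) - t) ^ 2 / (2 * s)) = A / (2 * s) * ((n : ℝ) - t) ^ 2 := by ring
    linarith
  have hmono := binMean_mono hε0 hε L key
  rw [binMean_affine, binMean_sq, hLε, sub_self, ← mul_assoc, hLε] at hmono
  have h5 : A / (2 * s) * (t * (1 - ε)) ≤ A * s / 2 := by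
    have e5 : A / (2 * s) * t = A * s / 2 := by rw [← hs2]; field_simp
    rw [← mul_assoc, e5]
    exact mul_le_of_le_one_right (by positivity) (by linarith)
  linarith

end Vale.Agent.P157.Parisi.Up
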