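import Vale.Agent.P157.Parisi.System
import Vale.Agent.P168.Upper.Product

/-! Second moments of linear forms in bounded independent variables. -/

noncomputable section

open MeasureTheory ProbabilityTheory
open scoped BigOperators

namespace Vale.Agent.P157.Parisi.Up

open Vale.Agent.P168.Upper (mp_precomp integral_mp)

variable {ι : Type} [Fintype ι] {β : Type} [MeasurableSpace β] {μ : Measure β}
  [IsProbabilityMeasure μ] {φ : β → ℝ} {M : ℝ}

lemma integrable_bdd {X : Type} [MeasurableSpace X] {π : Measure X} [IsFiniteMeasure π] {F : X → ℝ}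
    {C : ℝ} (hm : Measurable F) (hb : ∀ x, |F x| ≤ C) : Integrable F π :=
  Integrable.of_bound hm.aestronglyMeasurable C (Filter.Eventually.of_forall hb)

lemma integral_eval_mul (hφ : Measurable φ) (_hb : ∀ x, |φ x| ≤ M) (h0 : ∫ x, φ x ∂μ = 0)
    [DecidableEq ι] (i j : ι) :
    ∫ g : ι → β, φ (g i) * φ (g j) ∂(Measure.pi fun _ : ι => μ) =
      if i = j then ∫ x, φ x * φ x ∂μ else 0 := by
  split_ifs with h
  · subst h
    exact integral_mp (measurePreserving_eval (fun _ : ι => μ) i) (hφ.mul hφ)
  · let e : Fin 2 → ι := fun k => if k = 0 then i else j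
    have he : Function.Injective e := by
      intro a b hab
      fin_cases a <;> fin_cases b <;> simp_all [e, Ne.symm h]
    have h2 := integral_mp (mp_precomp μ he) (g := fun g : Fin 2 → β => φ (g 0) * φ (g 1))
      ((hφ.comp (measurable_pi_apply 0)).mul (hφ.comp (measurable_pi_apply 1)))
    simp only [e, if_true, Fin.one_eq_zero_iff, OfNat.ofNat_ne_one, if_false] at h2
    rw [h2]
    have h3 := integral_fintype_prod_eq_prod (μ := fun _ : Fin 2 => μ) (fun _ => φ)
    simp only [Fin.prod_univ_two, h0, mul_zero] at h3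
    exact h3

/-- `E (∑ a φ) (∑ b φ) = E φ² ∑ a b`. -/
theorem integral_lin_mul (hφ : Measurable φ) (hb : ∀ x, |φ x| ≤ M) (h0 : ∫ x, φ x ∂μ = 0)
    (a b : ι → ℝ) :
    ∫ g : ι → β, (∑ i, a i * φ (g i)) * (∑ i, b i * φ (g i)) ∂(Measure.pi fun _ : ι => μ) =
      (∫ x, φ x * φ x ∂μ) * ∑ i, a i * b i := by
  classical
  have hint : ∀ i j, Integrable (fun g : ι → β => a i * b j * (φ (g i) * φ (g j)))
      (Measure.pi fun _ : ι => μ) := fun i j =>
    (integrable_bdd (F := fun g : ι → β => φ (g i) * φ (g j)) (C := M * M)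
      ((hφ.comp (measurable_pi_apply i)).mul (hφ.comp (measurable_pi_apply j))) fun g => by
        rw [abs_mul]
        exact mul_le_mul (hb _) (hb _) (abs_nonneg _) ((abs_nonneg _).trans (hb (g i)))).const_mul _
  have e : ∀ g : ι → β, (∑ i, a i * φ (g i)) * (∑ i, b i * φ (g i)) =
      ∑ i, ∑ j, a i * b j * (φ (g i) * φ (g j)) := fun g => by
    rw [Finset.sum_mul_sum]
    exact Finset.sum_congr rfl fun i _ => Finset.sum_congr rfl fun j _ => by ring
  simp only [e]
  rw [integral_finsetSum _ fun i _ => integrable_finsetSum _ fun j _ => hint i j, Finset.mul_sum]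
  refine Finset.sum_congr rfl fun i _ => ?_
  rw [integral_finsetSum _ fun j _ => hint i j]
  simp only [integral_const_mul, integral_eval_mul hφ hb h0, mul_ite, mul_zero]
  rw [Finset.sum_ite_eq, if_pos (Finset.mem_univ i)]
  ring

/-- A linear form of mean zero variables has mean zero. -/
theorem integral_lin (hφ : Measurable φ) (hb : ∀ x, |φ x| ≤ M) (h0 : ∫ x, φ x ∂μ = 0) (a : ι → ℝ) :
    ∫ g : ι → β, ∑ i, a i * φ (g i) ∂(Measure.pi fun _ : ι => μ) = 0 := by
  rw [integral_finsetSum _ fun i _ =>
    (integrable_bdd (F := fun g : ι → β => φ (g i)) (C := M) (hφ.comp (measurable_pi_apply i))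
      fun g => hb _).const_mul _]
  refine Finset.sum_eq_zero fun i _ => ?_
  rw [integral_const_mul, integral_mp (measurePreserving_eval (fun _ : ι => μ) i) hφ, h0, mul_zero]

/-- Empirical means are close to the mean. -/
theorem integral_abs_avg_sub_le [Nonempty ι] (hφ : Measurable φ) (hb : ∀ x, |φ x| ≤ M) :
    ∫ g : ι → β, |(∑ i, φ (g i)) / Fintype.card ι - ∫ x, φ x ∂μ| ∂(Measure.pi fun _ : ι => μ) ≤
      (4 * (M * M) + 1) / (2 * Real.sqrt (Fintype.card ι)) := by
  obtain ⟨x₀⟩ := nonempty_of_isProbabilityMeasure μ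
  have hM : 0 ≤ M := (abs_nonneg _).trans (hb x₀)
  set c := ∫ x, φ x ∂μ
  set ψ : β → ℝ := fun x => φ x - c
  have hc : |c| ≤ M := by
    have := norm_integral_le_of_norm_le_const (μ := μ) (f := φ) (C := M)
      (Filter.Eventually.of_forall hb)
    simpa using this
  have hψm : Measurable ψ := hφ.sub_const c
  have hψb : ∀ x, |ψ x| ≤ 2 * M := fun x => (abs_sub _ _).trans (by linarith [hb x])
  have hψ0 : ∫ x, ψ x ∂μ = 0 := by
    simp only [ψ]
    rw [integral_sub (integrable_bdd hφ hb) (integrable_const _)]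
    simp [c]
  set n : ℝ := (Fintype.card ι : ℝ) with hn_def
  have hn : 0 < n := by simp [n, Fintype.card_pos]
  have hs : 0 < Real.sqrt n := Real.sqrt_pos.2 hn
  set T : (ι → β) → ℝ := fun g => ∑ i, (1 / n) * ψ (g i)
  have hT : ∀ g : ι → β, (∑ i, φ (g i)) / n - c = T g := fun g => by
    simp only [T, ψ, ← Finset.mul_sum, Finset.sum_sub_distrib, Finset.sum_const, Finset.card_univ,
      nsmul_eq_mul, ← hn_def]
    field_simp
  have hTm : Measurable T := Finset.measurable_sum _ fun i _ =>
    (hψm.comp (measurable_pi_apply i)).const_mul _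
  have hTb : ∀ g, |T g| ≤ 2 * M := fun g => by
    refine (Finset.abs_sum_le_sum_abs _ _).trans ?_
    calc ∑ i, |(1 / n) * ψ (g i)| ≤ ∑ _i : ι, (1 / n) * (2 * M) := Finset.sum_le_sum fun i _ => by
          rw [abs_mul, abs_of_pos (one_div_pos.2 hn)]
          exact mul_le_mul_of_nonneg_left (hψb _) (one_div_pos.2 hn).le
      _ = 2 * M := by
          rw [Finset.sum_const, Finset.card_univ, nsmul_eq_mul, ← hn_def]
          field_simp
  have hiT2 : Integrable (fun g => T g * T g) (Measure.pi fun _ : ι => μ) :=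
    integrable_bdd (C := (2 * M) * (2 * M)) (hTm.mul hTm) fun g => by
      rw [abs_mul]; exact mul_le_mul (hTb g) (hTb g) (abs_nonneg _) (by linarith)
  have h2 : ∫ g, T g * T g ∂(Measure.pi fun _ : ι => μ) ≤ 4 * (M * M) / n := by
    simp only [T]
    rw [integral_lin_mul hψm hψb hψ0]
    have hv : ∫ x, ψ x * ψ x ∂μ ≤ 4 * (M * M) := by
      refine (integral_mono (integrable_bdd (F := fun x => ψ x * ψ x) (C := (2 * M) * (2 * M))
        (hψm.mul hψm) fun x => by
        rw [abs_mul]; exact mul_le_mul (hψb x) (hψb x) (abs_nonneg _) (by linarith))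
        (integrable_const (4 * (M * M))) fun x => ?_).trans (by simp)
      nlinarith [abs_le.1 (hψb x)]
    rw [Finset.sum_const, Finset.card_univ, nsmul_eq_mul, ← hn_def]
    calc (∫ x, ψ x * ψ x ∂μ) * (n * (1 / n * (1 / n))) ≤ 4 * (M * M) * (n * (1 / n * (1 / n))) :=
          mul_le_mul_of_nonneg_right hv (by positivity)
      _ = _ := by field_simp
  calc ∫ g, |(∑ i, φ (g i)) / n - c| ∂(Measure.pi fun _ : ι => μ)
      = ∫ g, |T g| ∂(Measure.pi fun _ : ι => μ) := by simp only [hT]
    _ ≤ ∫ g, (Real.sqrt n / 2 * (T g * T g) + 1 / (2 * Real.sqrt n)) ∂(Measure.pi fun _ : ι => μ) := by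
        refine integral_mono (integrable_bdd hTm hTb).abs
          ((hiT2.const_mul _).add (integrable_const _)) fun g => ?_
        have h0 : 0 ≤ (Real.sqrt n * |T g| - 1) ^ 2 / (2 * Real.sqrt n) := by positivity
        have e : (Real.sqrt n * |T g| - 1) ^ 2 / (2 * Real.sqrt n) =
            Real.sqrt n / 2 * (T g * T g) + 1 / (2 * Real.sqrt n) - |T g| := by
          rw [← abs_mul_abs_self (T g)]
          field_simp
          ring
        linarith
    _ ≤ Real.sqrt n / 2 * (4 * (M * M) / n) + 1 / (2 * Real.sqrt n) := by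
        rw [integral_add (hiT2.const_mul _) (integrable_const _), integral_const_mul]
        simp only [integral_const, probReal_univ, smul_eq_mul, one_mul]
        gcongr
    _ = _ := by
        rw [eq_div_iff (by positivity)]
        have := Real.mul_self_sqrt hn.le
        field_simp
        linear_combination (4 * M ^ 2) * this

/-- The symmetric truncation at `a`. -/
def clipA (a x : ℝ) : ℝ := max (-a) (min a x)

lemma measurable_clipA (a : ℝ) : Measurable (clipA a) :=
  measurable_const.max (measurable_const.min measurable_id)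

lemma abs_clipA_le {a : ℝ} (ha : 0 ≤ a) (x : ℝ) : |clipA a x| ≤ a :=
  abs_le.2 ⟨le_max_left _ _, max_le (by linarith) (min_le_left _ _)⟩

lemma clipA_neg {a : ℝ} (ha : 0 ≤ a) (x : ℝ) : clipA a (-x) = -clipA a x := by
  unfold clipA
  rcases le_total a x with h | h <;> rcases le_total (-a) x with h' | h' <;>
    simp [min_def, max_def] <;> split_ifs <;> linarith

lemma abs_clipA_le_abs {a : ℝ} (ha : 0 ≤ a) (x : ℝ) : |clipA a x| ≤ |x| := by
  unfold clipA
  rw [abs_le]
  constructor
  · exact le_max_of_le_right (le_min (by linarith [abs_nonneg x]) (neg_abs_le x))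
  · exact max_le (by linarith [abs_nonneg x]) ((min_le_right _ _).trans (le_abs_self x))

end Vale.Agent.P157.Parisi.Up
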