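import Vale.Agent.P157.Parisi.Statements
import Vale.Agent.P157.Parisi.Upper.Moments
import Vale.Agent.P157.Parisi.Upper.Nodes
import Vale.Agent.P168.Cascade.MomentLimit

/-!
Tilted second moments of cascade averages: their values on the trees of two replicas.
-/

noncomputable section

open MeasureTheory ProbabilityTheory Filter
open scoped BigOperators Topology

namespace Vale.Agent.P157.Parisi.Up

open Vale.Agent.P168 (Shape shapeProb shapeMarks shapeRep shapeInit extProb padded CascTree cascLaw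
  cascSum cascFilter genNested)
open Vale.Agent.P168.Cascade
open Vale.Agent.P168.Upper (integral_mp)

variable {β : Type} [MeasurableSpace β] (ν : Measure β) [IsProbabilityMeasure ν] {r : ℕ}

/-- The tree of one replica. -/
def one (r : ℕ) : Shape r 1 := fun _ _ => Fin.last r

/-- The tree of two replicas meeting at depth `p`. -/
def sh (p : Fin (r + 1)) : Shape r 2 := Vale.Agent.P168.Cascade.attach (one r) p 0

lemma isTree_one (r : ℕ) : IsTree (one r) :=
  ⟨fun _ => rfl, fun _ _ => rfl, fun _ _ _ => by simp [one]⟩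

lemma isTree_sh (p : Fin (r + 1)) : IsTree (sh p) := (isTree_one r).attach

lemma sh_apply (p : Fin (r + 1)) : sh p 0 1 = p := by
  have h := attach_new' (one r) p 0 0
  have h' : min p (Fin.last r) = p := min_eq_left (Fin.le_last p)
  rw [show (Fin.last r) = one r 0 0 from rfl] at h'
  exact h.trans h'

omit [MeasurableSpace β] in
lemma marks_one (ω : Fin r → Fin 1 → β) (a : Fin 1) :
    shapeMarks (one r) ω a = fun i => ω i 0 :=
  funext fun i => congrArg (ω i) (Subsingleton.elim _ _)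

/-- The tilted moment of two replicas meeting at depth `p`. -/
def pairM (m : Fin r → ℝ) (Y g h : (Fin r → β) → ℝ) (p : Fin (r + 1)) : ℝ :=
  ∫ ω, integrand ν m Y ![g, h] (sh p) ω ∂tableLaw ν r 2

lemma pairM_smul (m : Fin r → ℝ) (Y g h : (Fin r → β) → ℝ) (c d : ℝ) (p : Fin (r + 1)) :
    pairM ν m Y (fun ω => c * g ω) (fun ω => d * h ω) p = c * d * pairM ν m Y g h p := by
  rw [pairM, pairM, ← integral_const_mul]
  refine integral_congr_ae (Eventually.of_forall fun ω => ?_)
  simp only [integrand, Fin.prod_univ_two, Matrix.cons_val_zero, Matrix.cons_val_one]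
  ring

omit [IsProbabilityMeasure ν] in
lemma logD_dir {C : ℝ} (c : ℝ) [IsProbabilityMeasure ν] : ∀ {r : ℕ} {m : Fin r → ℝ}, Exps m →
    ∀ {Y : (Fin r → β) → ℝ}, Bdd C Y → logD ν m Y (fun ω => c * Y ω) = c
  | 0, _, _, Y, hY => mul_div_cancel_right₀ c (hY.gt_zero _).ne'
  | r + 1, m, hm, Y, hY => by
    obtain ⟨_, hpos⟩ := weight_facts ν hm hY
    simp only [logD, logD_dir c hm.tail (hY.cons _)]
    rw [integral_mul_const, mul_div_cancel_left₀ c hpos.ne']

omit [IsProbabilityMeasure ν] in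
lemma condD_dir {C : ℝ} (c : ℝ) [IsProbabilityMeasure ν] : ∀ {r : ℕ} {m : Fin r → ℝ}, Exps m →
    ∀ {Y : (Fin r → β) → ℝ}, Bdd C Y → ∀ (p : ℕ) (ρ : Fin r → β),
      condD ν m Y (fun ω => c * Y ω) p ρ = c
  | 0, _, hm, _, hY, _, _ => logD_dir ν c hm hY
  | _ + 1, _, hm, _, hY, 0, _ => logD_dir ν c hm hY
  | r + 1, _, hm, _, hY, p + 1, ρ => condD_dir c hm.tail (hY.cons (ρ 0)) p (Fin.tail ρ)

lemma pairM_self {C : ℝ} {m : Fin r → ℝ} (hm : Exps m) {Y : (Fin r → β) → ℝ} (hY : Bdd C Y)
    (p : Fin (r + 1)) : pairM ν m Y Y Y p = 1 := by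
  have hC := hY.pos
  set g : (Fin r → β) → ℝ := fun ω => C⁻¹ * Y ω
  have hgb : ∀ ω, |g ω| ≤ 1 := fun ω => by
    simp only [g]
    rw [abs_mul, abs_of_pos (inv_pos.2 hC), abs_of_pos (hY.gt_zero ω), inv_mul_le_iff₀ hC, mul_one]
    exact (hY.mem ω).2
  have hgm : Measurable g := hY.meas.const_mul _
  have h1 := integral_attach ν (q := p) (a := (0 : Fin 1)) hm (isTree_one r) hY hgm hgb
    (g := fun _ => g) (fun _ => hgm) fun _ => hgb
  have h2 : (Fin.snoc (fun _ : Fin 1 => g) g : Fin 2 → (Fin r → β) → ℝ) = ![g, g] := by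
    funext a; fin_cases a <;> simp [Fin.snoc]
  rw [h2] at h1
  have h3 : pairM ν m Y g g p = C⁻¹ * C⁻¹ := by
    rw [pairM, sh, h1]
    simp only [g, condD_dir ν C⁻¹ hm hY, integral_mul_const]
    congr 1
    have h4 := tiltMoment_one ν hm hY (g := fun _ => g) (fun _ => hgm) fun _ => hgb
    rw [logD_dir ν C⁻¹ hm hY, tiltMoment] at h4
    have hv : ∀ v : Shape r 1, shapeProb m 1 v = if v = one r then 1 else 0 := by
      intro v
      have hiff : v = one r ↔ v (Fin.last 0) (Fin.last 0) = Fin.last r := by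
        refine ⟨fun h => by rw [h]; rfl, fun h => ?_⟩
        funext a b
        rw [Subsingleton.elim a (Fin.last 0), Subsingleton.elim b (Fin.last 0), h]
        rfl
      show shapeProb m 0 (shapeInit v) * extProb m v = _
      simp only [shapeProb, one_mul, extProb, hiff, if_true]
    simpa [hv, integrand, g] using h4
  rw [pairM_smul] at h3
  exact mul_left_cancel₀ (by positivity) (h3.trans (mul_one _).symm)

lemma shapeProb_one (m : Fin r → ℝ) (v : Shape r 1) :
    shapeProb m 1 v = if v = one r then 1 else 0 := by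
  have hiff : v = one r ↔ v (Fin.last 0) (Fin.last 0) = Fin.last r := by
    refine ⟨fun h => by rw [h]; rfl, fun h => ?_⟩
    funext a b
    rw [Subsingleton.elim a (Fin.last 0), Subsingleton.elim b (Fin.last 0), h]
    rfl
  show shapeProb m 0 (shapeInit v) * extProb m v = _
  simp only [shapeProb, one_mul, extProb, hiff, if_true]

lemma abs_pairM_le {C : ℝ} {m : Fin r → ℝ} (hm : Exps m) {Y g h : (Fin r → β) → ℝ} (hY : Bdd C Y)
    (hg : ∀ ω, |g ω| ≤ Y ω) (hh : ∀ ω, |h ω| ≤ Y ω)
    (p : Fin (r + 1)) : |pairM ν m Y g h p| ≤ 1 := by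
  rw [← pairM_self ν hm hY p]
  have hb : ∀ ω, |integrand ν m Y ![g, h] (sh p) ω| ≤ integrand ν m Y ![Y, Y] (sh p) ω := fun ω => by
    simp only [integrand, Fin.prod_univ_two, Matrix.cons_val_zero, Matrix.cons_val_one, abs_mul,
      Real.abs_exp]
    exact mul_le_mul_of_nonneg_left (mul_le_mul (hg _) (hh _) (abs_nonneg _) (hY.gt_zero _).le)
      (Real.exp_pos _).le
  have hi : Integrable (integrand ν m Y ![Y, Y] (sh p)) (tableLaw ν r 2) := by
    refine Integrable.of_bound (measurable_integrand ν m hY.meas (fun a => ?_) _).aestronglyMeasurable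
      (Real.exp ((2 * r + 1) * (2 : ℕ) * |Real.log C|) * (C * C)) (Eventually.of_forall fun ω => ?_)
    · fin_cases a <;> exact hY.meas
    · rw [Real.norm_eq_abs]
      simp only [integrand, Fin.prod_univ_two, Matrix.cons_val_zero, Matrix.cons_val_one, abs_mul,
        Real.abs_exp, abs_of_pos (hY.gt_zero _)]
      refine mul_le_mul (Real.exp_le_exp.2 ((le_abs_self _).trans ?_))
        (mul_le_mul (hY.mem _).2 (hY.mem _).2 (hY.gt_zero _).le hY.pos.le)
        (mul_nonneg (hY.gt_zero _).le (hY.gt_zero _).le) (Real.exp_pos _).le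
      exact_mod_cast abs_logW_le ν hm hY _ ω
  exact abs_integral_le_integral_abs.trans
    (integral_mono_of_nonneg (Eventually.of_forall fun _ => abs_nonneg _) hi
      (Eventually.of_forall hb))

omit [IsProbabilityMeasure ν] in
lemma weight_eq (m : Fin r → ℝ) (p : Fin (r + 1)) :
    padded m (p.val + 1) - padded m p.val = weight m p := by
  have h1 : ∀ p : Fin (r + 1), (Fin.snoc m 1 : Fin (r + 1) → ℝ) p = padded m (p.val + 1) := by
    intro p
    induction p using Fin.lastCases with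
    | last => simp [padded_top]
    | cast i => simp [padded_succ]
  have h2 : ∀ p : Fin (r + 1), (Fin.cons 0 m : Fin (r + 1) → ℝ) p = padded m p.val := by
    intro p
    induction p using Fin.cases with
    | zero => simp [padded_zero]
    | succ i => simp [padded_succ]
  rw [weight, h1, h2]

omit [IsProbabilityMeasure ν] in
lemma weight_nonneg {m : Fin r → ℝ} (hm : Exps m) (p : Fin (r + 1)) : 0 ≤ weight m p := by
  rw [weight, sub_nonneg]
  induction p using Fin.lastCases with
  | last =>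
    simp only [Fin.snoc_last]
    cases r with
    | zero => simp
    | succ r => rw [← Fin.succ_last, Fin.cons_succ]; exact (hm.lt_one _).le
  | cast i =>
    simp only [Fin.snoc_castSucc]
    cases r with
    | zero => exact i.elim0
    | succ r =>
      cases i using Fin.cases with
      | zero => simpa using (hm.pos 0).le
      | succ j =>
        rw [Fin.castSucc_succ, Fin.cons_succ]
        exact (hm.mono Fin.castSucc_lt_succ).le

omit [IsProbabilityMeasure ν] in
lemma sum_weight (m : Fin r → ℝ) : ∑ p : Fin (r + 1), weight m p = 1 := by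
  simp only [weight, Finset.sum_sub_distrib]
  rw [Fin.sum_univ_castSucc (fun p => (Fin.snoc m 1 : Fin (r + 1) → ℝ) p), Fin.sum_univ_succ
    (fun p => (Fin.cons 0 m : Fin (r + 1) → ℝ) p)]
  simp

lemma tiltMoment_two (m : Fin r → ℝ) (Y g h : (Fin r → β) → ℝ) :
    tiltMoment ν m Y ![g, h] = ∑ p : Fin (r + 1), weight m p * pairM ν m Y g h p := by
  rw [tiltMoment, ← Finset.sum_fiberwise Finset.univ (shapeInit (r := r) (n := 1)),
    Finset.sum_eq_single (one r)]
  · rw [Finset.sum_congr (g := fun v => extProb m v *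
        ∫ ω, Real.exp (logW ν m Y v ω) * ∏ a, ![g, h] a (shapeMarks v ω a) ∂tableLaw ν r 2) rfl
      fun v hv => by
        show shapeProb m 1 (shapeInit v) * extProb m v * _ = _
        rw [(Finset.mem_filter.1 hv).2, shapeProb_one, if_pos rfl, one_mul],
      (isTree_one r).sum_extend one_ne_zero]
    refine Finset.sum_congr rfl fun p _ => ?_
    have hreps : reps (one r) p.val = Finset.univ :=
      Finset.filter_true_of_mem fun a _ => Subsingleton.elim _ _
    rw [hreps, Fin.sum_univ_one]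
    have hk : kids (one r) p.val 0 = 1 := by
      refine le_antisymm ((Finset.card_image_le).trans ((Finset.card_le_univ _).trans_eq (by simp)))
        (Finset.card_pos.2 ?_)
      exact Finset.Nonempty.image ⟨0, (isTree_one r).self_mem _ _⟩ _
    simp only [coef, hk, Nat.cast_one, one_mul, div_one, weight_eq, pairM, sh]
    rfl
  · intro v _ hv
    refine Finset.sum_eq_zero fun v' hv' => ?_
    show shapeProb m 1 (shapeInit v') * extProb m v' * _ = _
    rw [(Finset.mem_filter.1 hv').2, shapeProb_one, if_neg hv, zero_mul, zero_mul]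
  · simp

omit [IsProbabilityMeasure ν] in
lemma abs_ratio_le' {C B : ℝ} {Y g : (Fin r → β) → ℝ} (hY : Bdd C Y) (hB : 0 ≤ B)
    (hg : ∀ ω, |g ω| ≤ B) (m : Fin r → ℝ) (n : Fin r → ℕ) {t : CascTree β r n}
    (ht : GoodTree r n t) : |ratio m n Y g t| ≤ C * B := by
  by_cases hn : ∀ i, 0 < n i
  · rcases hB.eq_or_lt with rfl | hB'
    · have : g = fun ω => 0 * Y ω := funext fun ω => by
        simpa using abs_nonpos_iff.1 (hg ω)
      rw [ratio, this, cascSum_smul]
      simp
    · have h1 := abs_ratio_le hY (g := fun ω => B⁻¹ * g ω) (fun ω => by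
        rw [abs_mul, abs_of_pos (inv_pos.2 hB'), inv_mul_le_iff₀ hB', mul_one]
        exact hg ω) m hn ht
      rw [ratio, cascSum_smul, mul_div_assoc, abs_mul, abs_of_pos (inv_pos.2 hB'),
        inv_mul_le_iff₀ hB', mul_comm B] at h1
      exact h1
  · obtain ⟨i, hi⟩ := not_forall.1 hn
    have : IsEmpty (Leaf r n) := ⟨fun l => hi (Fin.pos (l i))⟩
    rw [ratio, cascSum_eq_sum_leaves]
    simp [mul_nonneg hY.pos.le hB]

/-- The limit of the mean product of two ratios. -/
theorem tendsto_ratio_mul {C B : ℝ} {m : Fin r → ℝ} (hm : Exps m) {Y g h : (Fin r → β) → ℝ}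
    (hY : Bdd C Y) (hgm : Measurable g) (hhm : Measurable h) (hg : ∀ ω, |g ω| ≤ B)
    (hh : ∀ ω, |h ω| ≤ B) :
    Tendsto (fun n => ∫ t, ratio m n Y g t * ratio m n Y h t ∂cascLaw ν r n) (cascFilter r)
      (𝓝 (∑ p : Fin (r + 1), weight m p * pairM ν m Y g h p)) := by
  obtain ⟨ω₀⟩ : Nonempty (Fin r → β) := nonempty_of_isProbabilityMeasure (Measure.pi fun _ => ν)
  set B' := B + 1
  have hB : 0 < B' := by linarith [(abs_nonneg _).trans (hg ω₀)]
  have hsc : ∀ {g : (Fin r → β) → ℝ}, (∀ ω, |g ω| ≤ B) → ∀ ω, |B'⁻¹ * g ω| ≤ 1 := by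
    intro g hg ω
    rw [abs_mul, abs_of_pos (inv_pos.2 hB), inv_mul_le_iff₀ hB, mul_one]
    linarith [hg ω]
  have hY' : Bdd (max C 1) Y := ⟨lt_max_of_lt_right one_pos, hY.meas, fun ω =>
    ⟨(inv_anti₀ hY.pos (le_max_left _ _)).trans (hY.mem ω).1, (hY.mem ω).2.trans (le_max_left _ _)⟩⟩
  have hlim := integral_prod_ratio_tendsto ν 1 hm (le_max_right C 1) hY'
    (g := ![fun ω => B'⁻¹ * g ω, fun ω => B'⁻¹ * h ω])
    (fun a => by fin_cases a <;> first | exact hgm.const_mul _ | exact hhm.const_mul _)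
    (fun a => by fin_cases a <;> first | exact hsc hg | exact hsc hh)
  rw [tiltMoment_two] at hlim
  simp only [pairM_smul] at hlim
  have h2 := hlim.const_mul (B' * B')
  have e1 : ∀ (n : Fin r → ℕ) (g : (Fin r → β) → ℝ) (t : CascTree β r n),
      ratio m n Y (fun ω => B'⁻¹ * g ω) t = B'⁻¹ * ratio m n Y g t := fun n g t => by
    rw [ratio, ratio, cascSum_smul, mul_div_assoc]
  have e2 : B' * B' * (B'⁻¹ * B'⁻¹) = 1 := by field_simp
  have e3 : B' * B' * ∑ x, weight m x * (B'⁻¹ * B'⁻¹ * pairM ν m Y g h x) =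
      ∑ p, weight m p * pairM ν m Y g h p := by
    rw [Finset.mul_sum]
    refine Finset.sum_congr rfl fun p _ => ?_
    rw [show B' * B' * (weight m p * (B'⁻¹ * B'⁻¹ * pairM ν m Y g h p)) =
      B' * B' * (B'⁻¹ * B'⁻¹) * (weight m p * pairM ν m Y g h p) by ring, e2, one_mul]
  rw [e3] at h2
  refine h2.congr fun n => ?_
  rw [← integral_const_mul]
  refine integral_congr_ae (Eventually.of_forall fun t => ?_)
  beta_reduce
  rw [Fin.prod_univ_succ, Fin.prod_univ_one]
  simp only [Matrix.cons_val_zero, Matrix.cons_val_succ, e1]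
  rw [show B' * B' * (B'⁻¹ * ratio m n Y g t * (B'⁻¹ * ratio m n Y h t)) =
    B' * B' * (B'⁻¹ * B'⁻¹) * (ratio m n Y g t * ratio m n Y h t) by ring, e2, one_mul]

/-- Two replicas of a linear form of untilted marks. -/
lemma pairM_lin {φ : β → ℝ} {M : ℝ} (hφ : Measurable φ) (hb : ∀ x, |φ x| ≤ M)
    (h0 : ∫ x, φ x ∂ν = 0) {m : Fin r → ℝ} (hm : Exps m) (c : ℝ) (a : Fin r → ℝ)
    (p : Fin (r + 1)) :
    pairM ν m (fun _ => 1) (fun η => c + ∑ i, a i * φ (η i)) (fun η => c + ∑ i, a i * φ (η i)) p =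
      c * c + (∫ x, φ x * φ x ∂ν) * ∑ i : Fin r, if i.val < p.val then a i * a i else 0 := by
  classical
  set ℓ : (Fin r → β) → ℝ := fun η => c + ∑ i, a i * φ (η i) with hℓ
  have hlin_m : ∀ a : Fin r → ℝ, Measurable fun η : Fin r → β => ∑ i, a i * φ (η i) := fun a =>
    Finset.measurable_sum _ fun i _ => (hφ.comp (measurable_pi_apply i)).const_mul _
  have hlin_b : ∀ (a : Fin r → ℝ) (η : Fin r → β), |∑ i, a i * φ (η i)| ≤ ∑ i, |a i| * M :=
    fun a η => (Finset.abs_sum_le_sum_abs _ _).trans (Finset.sum_le_sum fun i _ => by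
      rw [abs_mul]; exact mul_le_mul_of_nonneg_left (hb _) (abs_nonneg _))
  have hℓm : Measurable ℓ := (hlin_m a).const_add c
  set K := |c| + ∑ i, |a i| * M
  have hℓb : ∀ η, |ℓ η| ≤ K := fun η =>
    (abs_add_le _ _).trans (add_le_add le_rfl (hlin_b a η))
  have hY : Bdd (1 : ℝ) (fun _ : Fin r → β => (1 : ℝ)) :=
    ⟨one_pos, measurable_const, fun _ => by simp⟩
  have hW : ∀ {k : ℕ} (v : Shape r k) (ω : Fin r → Fin k → β),
      logW ν m (fun _ => (1 : ℝ)) v ω = 0 := fun v ω => by
    have hc : ∀ (p : ℕ) (ρ : Fin r → β), cond ν m (fun _ => (1 : ℝ)) p ρ = 1 := fun p ρ => by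
      have := cond_mem ν hm hY p ρ
      rw [inv_one] at this
      linarith [this.1, this.2]
    simp [logW, hc]
  have hF : ∀ ω : Fin r → Fin 2 → β, integrand ν m (fun _ => (1 : ℝ)) ![ℓ, ℓ] (sh p) ω =
      ℓ (shapeMarks (sh p) ω 0) * ℓ (shapeMarks (sh p) ω 1) := fun ω => by
    simp [integrand, hW, Fin.prod_univ_two]
  have hFm : Measurable fun ω : Fin r → Fin 2 → β =>
      ℓ (shapeMarks (sh p) ω 0) * ℓ (shapeMarks (sh p) ω 1) :=
    (hℓm.comp (measurable_shapeMarks _ _)).mul (hℓm.comp (measurable_shapeMarks _ _))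
  have hK : 0 ≤ K := (abs_nonneg _).trans (hℓb (fun _ => (nonempty_of_isProbabilityMeasure ν).some))
  rw [pairM]
  simp only [hF]
  rw [integral_tab ν (k := 1) hFm (B := K * K) fun ω => by
    rw [abs_mul]; exact mul_le_mul (hℓb _) (hℓb _) (abs_nonneg _) hK]
  have hmk : ∀ (ω : Fin r → Fin 1 → β) (τ : Fin r → β),
      shapeMarks (sh p) (tab ω τ) 0 = (fun i => ω i 0) ∧
        shapeMarks (sh p) (tab ω τ) 1 = glue p.val (fun i => ω i 0) τ := fun ω τ => by
    refine ⟨?_, ?_⟩
    · exact (marks_attach_old (q := p) (a := 0) (isTree_one r) ω τ 0).trans (marks_one ω 0)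
    · refine (marks_attach_new (q := p) (a := 0) (isTree_one r) ω τ).trans ?_
      rw [marks_one]
  let a' : Fin r → ℝ := fun i => if i.val < p.val then a i else 0
  have hinner : ∀ ρ : Fin r → β, ∫ τ, ℓ (glue p.val ρ τ) ∂(Measure.pi fun _ => ν) =
      c + ∑ i, a' i * φ (ρ i) := by
    intro ρ
    have e : ∀ τ, ℓ (glue p.val ρ τ) =
        (c + ∑ i, a' i * φ (ρ i)) + ∑ i, (if i.val < p.val then 0 else a i) * φ (τ i) := by
      intro τ
      simp only [hℓ, glue, a', add_assoc, ← Finset.sum_add_distrib]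
      congr 1
      refine Finset.sum_congr rfl fun i _ => ?_
      split_ifs <;> ring
    simp only [e]
    rw [integral_add (integrable_const _) (integrable_bdd (hlin_m _) (hlin_b _)),
      integral_lin hφ hb h0]
    simp
  simp only [hmk, integral_const_mul, hinner]
  rw [integral_mp (f := fun (ω : Fin r → Fin 1 → β) i => ω i 0)
    (g := fun ρ => ℓ ρ * (c + ∑ i, a' i * φ (ρ i)))
    (measurePreserving_pi _ _ fun _ => measurePreserving_eval (fun _ : Fin 1 => ν) 0)
    (hℓm.mul ((hlin_m _).const_add c))]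
  have hi := fun a => integrable_bdd (π := Measure.pi fun _ : Fin r => ν) (hlin_m a) (hlin_b a)
  have hi2 : Integrable (fun ρ => (∑ i, a i * φ (ρ i)) * ∑ i, a' i * φ (ρ i))
      (Measure.pi fun _ : Fin r => ν) :=
    integrable_bdd (F := fun ρ : Fin r → β => (∑ i, a i * φ (ρ i)) * ∑ i, a' i * φ (ρ i))
      (C := (∑ i, |a i| * M) * ∑ i, |a' i| * M) ((hlin_m a).mul (hlin_m a')) fun ρ => by
      rw [abs_mul]
      exact mul_le_mul (hlin_b _ _) (hlin_b _ _) (abs_nonneg _)
        ((abs_nonneg _).trans (hlin_b a ρ))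
  have e2 : ∀ ρ : Fin r → β, ℓ ρ * (c + ∑ i, a' i * φ (ρ i)) = (c * c + c * ∑ i, a i * φ (ρ i)) +
      (c * ∑ i, a' i * φ (ρ i) + (∑ i, a i * φ (ρ i)) * ∑ i, a' i * φ (ρ i)) := fun ρ => by
    simp only [hℓ]; ring
  simp only [e2]
  rw [integral_add (f := fun ρ : Fin r → β => c * c + c * ∑ i, a i * φ (ρ i))
      (g := fun ρ => c * ∑ i, a' i * φ (ρ i) + (∑ i, a i * φ (ρ i)) * ∑ i, a' i * φ (ρ i))
      ((integrable_const _).add ((hi a).const_mul c)) (((hi a').const_mul c).add hi2),
    integral_add (f := fun _ : Fin r → β => c * c) (integrable_const _) ((hi a).const_mul c),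
    integral_add (f := fun ρ : Fin r → β => c * ∑ i, a' i * φ (ρ i)) ((hi a').const_mul c) hi2,
    integral_lin_mul hφ hb h0]
  simp only [integral_const_mul c (fun ρ : Fin r → β => ∑ i, a i * φ (ρ i)),
    integral_const_mul c (fun ρ : Fin r → β => ∑ i, a' i * φ (ρ i)), integral_lin hφ hb h0]
  simp [a', mul_ite]

end Vale.Agent.P157.Parisi.Up
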