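import Vale.Agent.P157.Parisi.Upper.SumSq
import Vale.Agent.P168.Upper.Nested

/-!
Weights on configurations and paths: their free energy and their overlap moments; measurability of
pair moments in a parameter.
-/

noncomputable section

open MeasureTheory ProbabilityTheory Filter
open scoped BigOperators Topology

namespace Vale.Agent.P157.Parisi.Up

open Vale.Agent.P168 (Shape shapeMarks CascTree cascLaw cascSum cascMean genNested)
open Vale.Agent.P168.Cascade

variable {β γ : Type} [MeasurableSpace β] [MeasurableSpace γ] {r N : ℕ}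

/-- The free energy of weights. -/
def Phi (ν : Measure β) (m : Fin r → ℝ) (w : Cube N → (Fin r → β) → ℝ) : ℝ :=
  Real.log (genNested ν m fun η => ∑ σ, w σ η)

/-- Bounded positive weights. -/
def WBdd (C : ℝ) (w : Cube N → (Fin r → β) → ℝ) : Prop := ∀ σ, Bdd C (w σ)

/-- Weights times independent factors. -/
def tens (w : Cube N → (Fin r → β) → ℝ) (Z : Cube N → (Fin r → γ) → ℝ) :
    Cube N → (Fin r → β × γ) → ℝ :=
  fun σ η => (w σ fun i => (η i).1) * Z σ fun i => (η i).2

/-- The unnormalised magnetisation. -/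
def mag (w : Cube N → (Fin r → β) → ℝ) (i : Fin N) (η : Fin r → β) : ℝ := ∑ σ, w σ η * sv σ i

/-- The overlap moment at depth `p`. -/
def bVal (ν : Measure β) (m : Fin r → ℝ) (w : Cube N → (Fin r → β) → ℝ) (p : Fin (r + 1)) : ℝ :=
  1 / (N : ℝ) * ∑ i, pairM ν m (fun η => ∑ σ, w σ η) (mag w i) (mag w i) p

lemma abs_sv_eq (σ : Cube N) (i : Fin N) : |sv σ i| = 1 := by unfold sv; split <;> norm_num

lemma bdd_mono {C C' : ℝ} (h : C ≤ C') {Y : (Fin r → β) → ℝ} (hY : Bdd C Y) : Bdd C' Y :=
  ⟨hY.pos.trans_le h, hY.meas, fun ω => ⟨(inv_anti₀ hY.pos h).trans (hY.mem ω).1,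
    (hY.mem ω).2.trans h⟩⟩

lemma bdd_sum {C : ℝ} {w : Cube N → (Fin r → β) → ℝ} (hw : WBdd C w) :
    Bdd (Fintype.card (Cube N) * C) fun η => ∑ σ, w σ η := by
  have hc : (1 : ℝ) ≤ Fintype.card (Cube N) := by exact_mod_cast Fintype.card_pos
  have hC := (hw default).pos
  refine ⟨by positivity, Finset.measurable_sum _ fun σ _ => (hw σ).meas, fun η => ⟨?_, ?_⟩⟩
  · calc (Fintype.card (Cube N) * C)⁻¹ ≤ C⁻¹ := inv_anti₀ hC (le_mul_of_one_le_left hC.le hc)
      _ ≤ w default η := ((hw default).mem η).1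
      _ ≤ _ := Finset.single_le_sum (fun σ _ => ((hw σ).gt_zero η).le) (Finset.mem_univ default)
  · exact (Finset.sum_le_sum fun σ _ => ((hw σ).mem η).2).trans_eq (by simp)

lemma measurable_mag {C : ℝ} {w : Cube N → (Fin r → β) → ℝ} (hw : WBdd C w) (i : Fin N) :
    Measurable (mag w i) :=
  Finset.measurable_sum _ fun σ _ => (hw σ).meas.mul_const _

lemma abs_mag_le {C : ℝ} {w : Cube N → (Fin r → β) → ℝ} (hw : WBdd C w) (i : Fin N)
    (η : Fin r → β) : |mag w i η| ≤ ∑ σ, w σ η := by
  refine (Finset.abs_sum_le_sum_abs _ _).trans_eq (Finset.sum_congr rfl fun σ _ => ?_)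
  rw [abs_mul, abs_sv_eq, mul_one, abs_of_pos ((hw σ).gt_zero η)]

lemma abs_bVal_le {C : ℝ} (ν : Measure β) [IsProbabilityMeasure ν] {m : Fin r → ℝ} (hm : Exps m)
    {w : Cube N → (Fin r → β) → ℝ} (hw : WBdd C w) (p : Fin (r + 1)) : |bVal ν m w p| ≤ 1 := by
  rcases Nat.eq_zero_or_pos N with h | h
  · subst h; simp [bVal]
  have hN : (0 : ℝ) < N := by exact_mod_cast h
  rw [bVal, abs_mul, abs_of_nonneg (by positivity : (0 : ℝ) ≤ 1 / N), one_div_mul_eq_div,
    div_le_one hN]
  refine (Finset.abs_sum_le_sum_abs _ _).trans ((Finset.sum_le_sum fun i _ =>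
    abs_pairM_le ν hm (bdd_sum hw) (abs_mag_le hw i) (abs_mag_le hw i) p).trans_eq (by simp))

lemma sum_tens_const (w : Cube N → (Fin r → β) → ℝ) (Z : (Fin r → γ) → ℝ) (η : Fin r → β × γ) :
    ∑ σ, tens w (fun _ => Z) σ η = (∑ σ, w σ fun i => (η i).1) * Z fun i => (η i).2 :=
  (Finset.sum_mul ..).symm

/-- Pair moments depend measurably on parameters. -/
lemma measurable_pairM (μ : Measure γ) [IsProbabilityMeasure μ] (m : Fin r → ℝ) {D : Type}
    [MeasurableSpace D] {Y g h : D → (Fin r → γ) → ℝ} (hY : Measurable (Function.uncurry Y))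
    (hg : Measurable (Function.uncurry g)) (hh : Measurable (Function.uncurry h))
    (p : Fin (r + 1)) : Measurable fun d => pairM μ m (Y d) (g d) (h d) p := by
  have hmk : ∀ a, Measurable fun z : D × (Fin r → Fin 2 → γ) =>
      (z.1, shapeMarks (sh p) z.2 a) := fun a =>
    measurable_fst.prodMk ((measurable_shapeMarks _ a).comp measurable_snd)
  have hc : ∀ i a, Measurable fun z : D × (Fin r → Fin 2 → γ) =>
      cond μ m (Y z.1) i (shapeMarks (sh p) z.2 a) := fun i a =>
    measurable_cond μ m i (Y := fun z : D × (Fin r → Fin 2 → γ) => Y z.1)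
      (hY.comp ((measurable_fst.comp measurable_fst).prodMk measurable_snd))
      ((measurable_shapeMarks _ a).comp measurable_snd)
  have hW : Measurable fun z : D × (Fin r → Fin 2 → γ) => logW μ m (Y z.1) (sh p) z.2 :=
    (Finset.measurable_sum _ fun i _ => Finset.measurable_sum _ fun a _ =>
      ((hc _ a).log.sub (hc _ a).log).const_mul _).sub
    (Finset.measurable_sum _ fun a _ => (hY.comp (hmk a)).log)
  have hI : Measurable fun z : D × (Fin r → Fin 2 → γ) =>
      integrand μ m (Y z.1) ![g z.1, h z.1] (sh p) z.2 := by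
    simp only [integrand, Fin.prod_univ_two, Matrix.cons_val_zero, Matrix.cons_val_one]
    exact hW.exp.mul ((hg.comp (hmk 0)).mul (hh.comp (hmk 1)))
  exact (hI.stronglyMeasurable.integral_prod_right' (ν := tableLaw μ r 2)).measurable

variable {ν : Measure β} [IsProbabilityMeasure ν]

omit [MeasurableSpace β] in
lemma abs_log_cascMean_le [MeasurableSpace β] {C : ℝ} {Y : (Fin r → β) → ℝ} (hY : Bdd C Y)
    (m : Fin r → ℝ) (n : Fin r → ℕ) {t : CascTree β r n} (ht : GoodTree r n t) :
    |Real.log (cascMean m n Y t)| ≤ |Real.log C| := by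
  by_cases hn : ∀ i, 0 < n i
  · have h1 := cascSum_one_pos m hn ht
    have hlo := (cascSum_pos hY m hn ht).1
    have hhi := cascSum_mono (m := m) (Y' := fun _ => C * 1)
      (fun ω => by simpa using (hY.mem ω).2) ht
    rw [cascSum_smul m n (fun _ => 1)] at hhi
    exact abs_log_le hY.pos ((le_div_iff₀ h1).2 hlo) ((div_le_iff₀ h1).2 hhi)
  · obtain ⟨i, hi⟩ := not_forall.1 hn
    have : IsEmpty (Leaf r n) := ⟨fun l => hi (Fin.pos (l i))⟩
    rw [cascMean, cascSum_eq_sum_leaves]
    simp

lemma measurable_cascSum_param {D : Type} [MeasurableSpace D] (m : Fin r → ℝ) (n : Fin r → ℕ)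
    {Y : D → (Fin r → β) → ℝ} (hY : Measurable (Function.uncurry Y)) :
    Measurable fun z : D × CascTree β r n => cascSum r m n (Y z.1) z.2 := by
  simp only [cascSum_eq_sum_leaves]
  exact Finset.measurable_sum _ fun l _ => ((measurable_leafW r m n l).comp measurable_snd).mul
    (hY.comp (measurable_fst.prodMk ((measurable_leafMarks r n l).comp measurable_snd)))

/-- The mean logarithm of a cascade average, integrated over a parameter, in the limit. -/
lemma tendsto_integral_logMean {D : Type} [MeasurableSpace D] (μ : Measure D)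
    [IsProbabilityMeasure μ] {m : Fin r → ℝ} (hm : Exps m) {C : ℝ}
    {Y : D → (Fin r → β) → ℝ} (hY : Measurable (Function.uncurry Y)) (hb : ∀ d, Bdd C (Y d)) :
    Tendsto (fun n => ∫ d, ∫ t, Real.log (cascMean m n (Y d) t) ∂cascLaw ν r n ∂μ)
      (Vale.Agent.P168.cascFilter r) (𝓝 (∫ d, Real.log (genNested ν m (Y d)) ∂μ)) := by
  refine Vale.Agent.P168.Upper.tendsto_integral_cascFilter μ _ _ |Real.log C| (fun n => ?_) ?_
    (fun n d => ?_) (fun d => ?_) fun d =>
      cascadeLog β ν r m hm.pos hm.lt_one hm.mono _ C (hb d).pos (hb d).meas (hb d).mem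
  · exact (((measurable_cascSum_param m n hY).div (measurable_cascSum_param m n
      (Y := fun _ _ => (1 : ℝ)) measurable_const)).log.stronglyMeasurable.integral_prod_right'
        (ν := cascLaw ν r n)).measurable
  · exact (Vale.Agent.P168.Upper.measurable_genNested ν m Y hY).log
  · have := norm_integral_le_of_norm_le_const (μ := cascLaw ν r n)
      (f := fun t => Real.log (cascMean m n (Y d) t)) (C := |Real.log C|)
      ((ae_good ν r n).mono fun t ht => abs_log_cascMean_le (hb d) m n ht)
    simpa using this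
  · have h := genNested_mem ν (hb d).pos hm (hb d).meas (hb d).mem
    exact abs_log_le (hb d).pos h.1 h.2

end Vale.Agent.P157.Parisi.Up
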