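import Vale.Agent.P157.Parisi.System
import Vale.Agent.P157.Interp
import Vale.Agent.P168.Upper.Product

/-!
The chord inequality of block concavity between the configuration vectors and unit vectors in
other coordinates, in derivative form.
-/

noncomputable section

open MeasureTheory ProbabilityTheory Filter
open scoped BigOperators ENNReal NNReal Topology

namespace Vale.Agent.P157.Parisi.Up

open Vale.Agent.P168.Upper (mp_precomp integral_mp)

/-! ### Finitely supported measures -/

/-- The measure with weights `p`. -/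
def atoms {X : Type} [Fintype X] {E : Type} [MeasurableSpace E] (p : X → ℝ) (y : X → E) :
    Measure E :=
  ∑ x, ENNReal.ofReal (p x) • Measure.dirac (y x)

variable {X : Type} [Fintype X] {E : Type} [MeasurableSpace E] {p : X → ℝ}

lemma isProb_atoms (hp : ∀ x, 0 ≤ p x) (hp1 : ∑ x, p x = 1) (y : X → E) :
    IsProbabilityMeasure (atoms p y) := by
  constructor
  simp [atoms, ← ENNReal.ofReal_sum_of_nonneg (fun x _ => hp x), hp1]

lemma integral_atoms (hp : ∀ x, 0 ≤ p x) (y : X → E) {φ : E → ℝ} (hφ : StronglyMeasurable φ) :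
    ∫ e, φ e ∂atoms p y = ∑ x, p x * φ (y x) := by
  have hi : ∀ x ∈ (Finset.univ : Finset X),
      Integrable φ (ENNReal.ofReal (p x) • Measure.dirac (y x)) := fun x _ =>
    (integrable_dirac' hφ (by simp)).smul_measure ENNReal.ofReal_ne_top
  rw [atoms, integral_finsetSum_measure hi]
  refine Finset.sum_congr rfl fun x _ => ?_
  rw [integral_smul_measure, integral_dirac' _ _ hφ, ENNReal.toReal_ofReal (hp x), smul_eq_mul]

/-- The log-weight of atoms. -/
def logSum {I : Type} [Fintype I] (p : X → ℝ) (f : ℝ → ℝ) (v : X → I → ℝ) (g : I → ℝ) : ℝ :=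
  Real.log (∑ x, p x * Real.exp (f (dot g (v x))))

/-- Its expectation. -/
def meanLog {I : Type} [Fintype I] (p : X → ℝ) (f : ℝ → ℝ) (v : X → I → ℝ) : ℝ :=
  ∫ g, logSum p f v g ∂gam I

section bounds

variable {f : ℝ → ℝ} {A : ℝ}

lemma sum_exp_mem (hp : ∀ x, 0 ≤ p x) (hp1 : ∑ x, p x = 1) {F : X → ℝ} (hF : ∀ x, |F x| ≤ A) :
    Real.exp (-A) ≤ ∑ x, p x * Real.exp (F x) ∧ ∑ x, p x * Real.exp (F x) ≤ Real.exp A := by
  constructor
  · calc Real.exp (-A) = ∑ x, p x * Real.exp (-A) := by rw [← Finset.sum_mul, hp1, one_mul]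
      _ ≤ _ := Finset.sum_le_sum fun x _ =>
        mul_le_mul_of_nonneg_left (Real.exp_le_exp.2 (abs_le.1 (hF x)).1) (hp x)
  · calc _ ≤ ∑ x, p x * Real.exp A := Finset.sum_le_sum fun x _ =>
          mul_le_mul_of_nonneg_left (Real.exp_le_exp.2 (abs_le.1 (hF x)).2) (hp x)
      _ = Real.exp A := by rw [← Finset.sum_mul, hp1, one_mul]

lemma abs_log_sum_exp_le (hp : ∀ x, 0 ≤ p x) (hp1 : ∑ x, p x = 1) {F : X → ℝ}
    (hF : ∀ x, |F x| ≤ A) : |Real.log (∑ x, p x * Real.exp (F x))| ≤ A := by
  obtain ⟨h1, h2⟩ := sum_exp_mem hp hp1 hF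
  have hpos := (Real.exp_pos _).trans_le h1
  exact abs_le.2 ⟨(Real.le_log_iff_exp_le hpos).2 h1, (Real.log_le_iff_le_exp hpos).2 h2⟩

variable {I : Type} [Fintype I]

lemma measurable_logSum (hf : Measurable f) (v : X → I → ℝ) :
    Measurable (logSum p f v) :=
  Real.measurable_log.comp (Finset.measurable_sum _ fun x _ =>
    (hf.comp (measurable_dot.comp (measurable_id.prodMk measurable_const))).exp.const_mul _)

lemma continuous_dot_right (g : I → ℝ) : Continuous fun v : I → ℝ => dot g v := by
  unfold dot; fun_prop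

lemma tendsto_meanLog (hp : ∀ x, 0 ≤ p x) (hp1 : ∑ x, p x = 1) (hf : Continuous f)
    (hb : ∀ z, |f z| ≤ A) {ι : Type} {l : Filter ι} [l.IsCountablyGenerated]
    {v : ι → X → I → ℝ} {v₀ : X → I → ℝ} (hv : Tendsto v l (𝓝 v₀)) :
    Tendsto (fun j => meanLog p f (v j)) l (𝓝 (meanLog p f v₀)) := by
  refine tendsto_integral_filter_of_dominated_convergence (fun _ => A)
    (Eventually.of_forall fun j => (measurable_logSum hf.measurable _).aestronglyMeasurable)
    (Eventually.of_forall fun j => Eventually.of_forall fun g => ?_) (integrable_const _)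
    (Eventually.of_forall fun g => ?_)
  · rw [Real.norm_eq_abs]
    exact abs_log_sum_exp_le hp hp1 fun x => hb _
  · have hc : ∀ x, Tendsto (fun j => dot g (v j x)) l (𝓝 (dot g (v₀ x))) := fun x =>
      ((continuous_dot_right g).tendsto _).comp (tendsto_pi_nhds.1 hv x)
    exact ((tendsto_finsetSum _ fun x _ =>
      (((Real.continuous_exp.comp hf).tendsto _).comp (hc x)).const_mul _).log
        ((Real.exp_pos _).trans_le (sum_exp_mem hp hp1 fun x => hb _).1).ne')

/-- Concentrating a Gaussian vector on the coordinates of an injection. -/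
lemma integral_gam_precomp {J : Type} [Fintype J] {e : J → I} (he : Function.Injective e)
    {G : (J → ℝ) → ℝ} (hG : Measurable G) :
    ∫ g, G (fun j => g (e j)) ∂gam I = ∫ g, G g ∂gam J :=
  integral_mp (mp_precomp (gaussianReal 0 1) he) hG

lemma dot_extend {J : Type} [Fintype J] {e : J → I} (he : Function.Injective e) (g : I → ℝ)
    {v : I → ℝ} (hv : ∀ i, i ∉ Set.range e → v i = 0) :
    dot g v = dot (fun j => g (e j)) (fun j => v (e j)) := by
  unfold dot
  exact (Fintype.sum_of_injective e he _ _ (fun i hi => by rw [hv i hi, mul_zero])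
    fun j => rfl).symm

end bounds

/-! ### The weight `exp f` -/

variable {f : ℝ → ℝ} {A : ℝ}

/-- The derivative of `exp f`. -/
def dExp (f : ℝ → ℝ) (z : ℝ) : ℝ := deriv f z * Real.exp (f z)

lemma smooth_nonneg (hs : Smooth f A) : 0 ≤ A := (abs_nonneg _).trans (hs.b0 0)

lemma continuous_of_smooth (hs : Smooth f A) : Continuous f := hs.d0.continuous

lemma continuous_dExp (hs : Smooth f A) : Continuous (dExp f) :=
  hs.d1.continuous.mul (Real.continuous_exp.comp hs.d0.continuous)

lemma abs_dExp_le (hs : Smooth f A) (z : ℝ) : |dExp f z| ≤ A * Real.exp A := by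
  rw [dExp, abs_mul, Real.abs_exp]
  exact mul_le_mul (hs.b1 z) (Real.exp_le_exp.2 (le_of_abs_le (hs.b0 z))) (Real.exp_pos _).le
    (smooth_nonneg hs)

/-- `exp f` as a smooth weight. -/
def expWeight (hs : Smooth f A) : SmoothWeight where
  U z := Real.exp (f z)
  U1 := dExp f
  U2 z := (deriv (deriv f) z + deriv f z * deriv f z) * Real.exp (f z)
  U3 z := (deriv (deriv (deriv f)) z + 3 * (deriv f z * deriv (deriv f) z) +
    deriv f z * deriv f z * deriv f z) * Real.exp (f z)
  a := Real.exp (-A)
  A := (1 + A + 4 * (A * A) + A * A * A) * Real.exp A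
  apos := Real.exp_pos _
  lower z := Real.exp_le_exp.2 (abs_le.1 (hs.b0 z)).1
  d1 z := by
    simpa [dExp, mul_comm] using (hs.d0 z).hasDerivAt.exp
  d2 z := by
    have h := (hs.d1 z).hasDerivAt.mul (hs.d0 z).hasDerivAt.exp
    refine h.congr_deriv ?_
    ring
  d3 z := by
    have h1 := (hs.d2 z).hasDerivAt.add ((hs.d1 z).hasDerivAt.mul (hs.d1 z).hasDerivAt)
    have h := h1.mul (hs.d0 z).hasDerivAt.exp
    refine h.congr_deriv ?_
    simp only [Pi.add_apply, Pi.mul_apply]
    ring
  b0 z := by
    have hA := smooth_nonneg hs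
    rw [Real.abs_exp]
    calc Real.exp (f z) ≤ 1 * Real.exp A := by
          rw [one_mul]; exact Real.exp_le_exp.2 (le_of_abs_le (hs.b0 z))
      _ ≤ _ := mul_le_mul_of_nonneg_right (by nlinarith [mul_nonneg (mul_nonneg hA hA) hA])
          (Real.exp_pos _).le
  b1 z := by
    have hA := smooth_nonneg hs
    exact (abs_dExp_le hs z).trans (mul_le_mul_of_nonneg_right
      (by nlinarith [mul_nonneg (mul_nonneg hA hA) hA]) (Real.exp_pos _).le)
  b2 z := by
    have hA := smooth_nonneg hs
    rw [abs_mul, Real.abs_exp]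
    refine mul_le_mul ?_ (Real.exp_le_exp.2 (le_of_abs_le (hs.b0 z))) (Real.exp_pos _).le
      (by positivity)
    refine (abs_add_le _ _).trans ?_
    rw [abs_mul]
    nlinarith [hs.b2 z, mul_le_mul (hs.b1 z) (hs.b1 z) (abs_nonneg _) hA,
      mul_nonneg (mul_nonneg hA hA) hA]
  b3 z := by
    have hA := smooth_nonneg hs
    rw [abs_mul, Real.abs_exp]
    refine mul_le_mul ?_ (Real.exp_le_exp.2 (le_of_abs_le (hs.b0 z))) (Real.exp_pos _).le
      (by positivity)
    refine (abs_add_three _ _ _).trans ?_
    rw [abs_mul, abs_mul, abs_mul, abs_mul, abs_of_pos (show (0 : ℝ) < 3 by norm_num)]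
    have h11 := mul_le_mul (hs.b1 z) (hs.b1 z) (abs_nonneg _) hA
    nlinarith [hs.b3 z, mul_le_mul (hs.b1 z) (hs.b2 z) (abs_nonneg _) hA,
      mul_le_mul h11 (hs.b1 z) (abs_nonneg _) (mul_nonneg hA hA)]

/-! ### The chord inequality -/

variable {N : ℕ} {Q : Type} [Fintype Q]

/-- The two-replica derivative expression. -/
def chordDeriv (p : X → ℝ) (f : ℝ → ℝ) (σ : X → Cube N) (w : X → Q → ℝ) (g : Q → ℝ) : ℝ :=
  (∑ x, ∑ x', p x * (p x' * ((dot (w x) (w x') - overlap (σ x) (σ x')) *
      (dExp f (dot g (w x)) * dExp f (dot g (w x')))))) /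
    (∑ x, p x * Real.exp (f (dot g (w x)))) ^ 2

lemma sv_mul_self (σ : Cube N) (i : Fin N) : sv σ i * sv σ i = 1 := by
  unfold sv; split <;> norm_num

lemma sv_ne_zero (σ : Cube N) (i : Fin N) : sv σ i ≠ 0 := by
  unfold sv; split <;> norm_num

lemma dot_unitVec (hN : 0 < N) (σ τ : Cube N) : dot (unitVec σ) (unitVec τ) = overlap σ τ := by
  have h : (0 : ℝ) < N := by exact_mod_cast hN
  have hs := Real.mul_self_sqrt h.le
  unfold dot unitVec overlap
  rw [Finset.sum_div]
  refine Finset.sum_congr rfl fun i _ => ?_
  rw [div_mul_div_comm, hs]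

lemma overlap_self (hN : 0 < N) (σ : Cube N) : overlap σ σ = 1 := by
  have h : (N : ℝ) ≠ 0 := by exact_mod_cast hN.ne'
  simp [overlap, sv_mul_self, h]

/-- Block concavity gives the one-sided derivative bound. -/
theorem chord (hcv : BlockConcave f) (hs : Smooth f A) (hN : 0 < N) [Nonempty Q]
    (hp : ∀ x, 0 ≤ p x) (hp1 : ∑ x, p x = 1) (σ : X → Cube N) (w : X → Q → ℝ)
    (hw : ∀ x, ∑ c, w x c ^ 2 = 1) :
    meanLog p f (fun x => unitVec (σ x)) - meanLog p f w ≤
      1 / 2 * ∫ g, chordDeriv p f σ w g ∂gam Q := by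
  classical
  let : MeasurableSpace X := ⊤
  have : MeasurableSingletonClass X := ⟨fun _ => trivial⟩
  have hfc := continuous_of_smooth hs
  let sz : Bool → ℕ := fun b => if b then N else Fintype.card Q
  let eT : Fin N → BI sz := fun j => ⟨true, j⟩
  let eF : Q → BI sz := fun c => ⟨false, Fintype.equivFin Q c⟩
  have heT : Function.Injective eT := fun a b h => by simpa [eT] using h
  have heF : Function.Injective eF := fun a b h => by simpa [eF] using h
  let vR : X → BI sz → ℝ := fun x i =>
    match i with
    | ⟨true, j⟩ => unitVec (σ x) j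
    | ⟨false, _⟩ => 0
  let vQ : X → BI sz → ℝ := fun x i =>
    match i with
    | ⟨true, _⟩ => 0
    | ⟨false, j⟩ => w x ((Fintype.equivFin Q).symm j)
  have hrT : ∀ i : BI sz, i ∉ Set.range eT → ∃ j, i = ⟨false, j⟩ := by
    rintro ⟨b, j⟩ h
    cases b
    · exact ⟨j, rfl⟩
    · exact absurd ⟨j, rfl⟩ h
  have hrF : ∀ i : BI sz, i ∉ Set.range eF → ∃ j, i = ⟨true, j⟩ := by
    rintro ⟨b, j⟩ h
    cases b
    · exact absurd ⟨(Fintype.equivFin Q).symm j, by simp [eF]⟩ h
    · exact ⟨j, rfl⟩
  have hdotT : ∀ (u : BI sz → ℝ) x, dot u (vR x) = dot (fun j => u (eT j)) (unitVec (σ x)) :=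
    fun u x => dot_extend heT u fun i hi => by obtain ⟨j, rfl⟩ := hrT i hi; rfl
  have hdotF : ∀ (u : BI sz → ℝ) x, dot u (vQ x) = dot (fun c => u (eF c)) (w x) := fun u x => by
    have h := dot_extend (v := vQ x) heF u fun i hi => by obtain ⟨j, rfl⟩ := hrF i hi; rfl
    rw [h]
    simp [eF, vQ]
  have hRR : ∀ x x', dot (vR x) (vR x') = overlap (σ x) (σ x') := fun x x' => by
    rw [hdotT, ← dot_unitVec hN]
  have hQQ : ∀ x x', dot (vQ x) (vQ x') = dot (w x) (w x') := fun x x' => by
    rw [hdotF]; simp [eF, vQ]
  have hRQ : ∀ x x', dot (vR x) (vQ x') = 0 := fun x x' => by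
    rw [hdotF]
    exact Finset.sum_eq_zero fun c _ => by simp [eF, vR]
  -- the perturbed configurations
  let wη : ℝ → X → Q → ℝ := fun η x c => if w x c = 0 then η else w x c
  let y : ℝ → X → BI sz → ℝ := fun η x i =>
    match i with
    | ⟨true, j⟩ => sv (σ x) j
    | ⟨false, j⟩ => wη η x ((Fintype.equivFin Q).symm j)
  let vη : ℝ → X → BI sz → ℝ := fun η x => featb sz false (y η x)
  have hblkT : ∀ η x j, dir (blk sz true (y η x)) j = unitVec (σ x) j := fun η x j => by
    have h1 : ∑ i : Fin (sz true), blk sz true (y η x) i ^ 2 = (N : ℝ) := by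
      simp [blk, y, sq, sv_mul_self]; rfl
    simp only [dir, nrm, h1]
    rfl
  have hfT : ∀ η x, featb sz true (y η x) = vR x := fun η x => by
    funext ⟨b, j⟩
    cases b
    · simp [featb, feat, vR]
    · simp [featb, feat, vR, hblkT]
  have hmix : ∀ (t η : ℝ) x,
      feat sz (fun b => Real.sqrt (if b then t else 1 - t)) (y η x) =
        fun i => Real.sqrt t * vR x i + Real.sqrt (1 - t) * vη η x i := fun t η x => by
    funext ⟨b, j⟩
    cases b
    · simp [feat, featb, vR, vη]
    · simp [feat, featb, vη, vR, hblkT]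
  have hlim : Tendsto vη (𝓝[≠] 0) (𝓝 vQ) := by
    refine tendsto_pi_nhds.2 fun x => tendsto_pi_nhds.2 fun i => ?_
    obtain ⟨b, j⟩ := i
    cases b
    · have hc : ∀ c, Tendsto (fun η => wη η x c) (𝓝[≠] 0) (𝓝 (w x c)) := fun c => by
        by_cases h : w x c = 0
        · simp only [wη, h, if_true]
          exact tendsto_nhdsWithin_of_tendsto_nhds tendsto_id
        · simp only [wη, h, if_false]
          exact tendsto_const_nhds
      have hn : Tendsto (fun η => nrm (blk sz false (y η x))) (𝓝[≠] 0) (𝓝 1) := by
        have h1 : Tendsto (fun η => ∑ i : Fin (sz false), blk sz false (y η x) i ^ 2) (𝓝[≠] 0)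
            (𝓝 (∑ i : Fin (sz false), (w x ((Fintype.equivFin Q).symm i)) ^ 2)) :=
          tendsto_finsetSum _ fun i _ => (hc _).pow 2
        have e : ∑ i : Fin (sz false), (w x ((Fintype.equivFin Q).symm i)) ^ 2 = 1 :=
          ((Fintype.equivFin Q).symm.sum_comp fun c => w x c ^ 2).trans (hw x)
        rw [e] at h1
        simpa [nrm] using h1.sqrt
      simpa [vη, featb, feat, dir, vQ, Pi.div_def, blk, y] using (hc ((Fintype.equivFin Q).symm j)).div hn one_ne_zero
    · simp [vη, featb, feat, vQ]
  -- block concavity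
  have hblock : ∀ t ∈ Set.Ioo (0 : ℝ) 1,
      t * meanLog p f vR + (1 - t) * meanLog p f vQ ≤
        meanLog p f fun x i => Real.sqrt t * vR x i + Real.sqrt (1 - t) * vQ x i := by
    intro t ht
    have hη : ∀ η ≠ (0 : ℝ), t * meanLog p f vR + (1 - t) * meanLog p f (vη η) ≤
        meanLog p f fun x i => Real.sqrt t * vR x i + Real.sqrt (1 - t) * vη η x i := by
      intro η hη
      have := isProb_atoms hp hp1 (y η)
      have hne : ∀ᵐ z ∂atoms p (y η), ∀ i, z i ≠ 0 := by
        rw [atoms, ae_finsetSum_measure_iff]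
        intro x _
        refine Measure.ae_smul_measure ((ae_dirac_iff ?_).2 fun i => ?_) _
        · rw [Set.ofPred_forall]
          exact MeasurableSet.iInter fun i =>
            (measurableSet_eq_fun (measurable_pi_apply i) measurable_const).compl
        · obtain ⟨b, j⟩ := i
          cases b
          · by_cases h : w x ((Fintype.equivFin Q).symm j) = 0 <;> simp [y, wη, h, hη]
          · exact sv_ne_zero _ _
      have h := hcv Bool sz (fun b => if b then t else 1 - t)
        (fun b => by cases b <;> simp <;> linarith [ht.1, ht.2])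
        (by rw [Fintype.sum_bool]; simp)
        (fun b _ => by cases b <;> simp [sz, hN, Fintype.card_pos]) (atoms p (y η)) inferInstance hne
      have hlint : ∀ {V : (BI sz → ℝ) → BI sz → ℝ}, Measurable V →
          ∫ g, lint (atoms p (y η)) (term f V g) ∂gam (BI sz) =
            meanLog p f fun x => V (y η x) := fun {V} hV => by
        refine integral_congr_ae (Eventually.of_forall fun g => ?_)
        simp only [lint, logSum, term]
        rw [integral_atoms hp (y η) (φ := fun z => Real.exp (f (dot g (V z))))]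
        exact ((Real.continuous_exp.comp hfc).measurable.comp (measurable_dot.comp
          (measurable_const.prodMk hV))).stronglyMeasurable
      have hm : ∀ b, Measurable (featb sz b) := fun b => measurable_feat _
      rw [Fintype.sum_bool, hlint (hm true), hlint (hm false), hlint (measurable_feat _)] at h
      simp only [if_true, Bool.false_eq_true, if_false] at h
      have e1 : (fun x => featb sz true (y η x)) = vR := funext fun x => hfT η x
      rw [e1] at h
      simpa only [hmix] using h
    refine le_of_tendsto_of_tendsto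
      (((tendsto_meanLog hp hp1 hfc hs.b0 hlim).const_mul (1 - t)).const_add _)
      (tendsto_meanLog hp hp1 hfc hs.b0 ?_)
      (eventually_nhdsWithin_of_forall fun η hη' => hη η hη')
    exact tendsto_pi_nhds.2 fun x => tendsto_pi_nhds.2 fun i =>
      ((tendsto_pi_nhds.1 (tendsto_pi_nhds.1 hlim x) i).const_mul _).const_add _
  -- the path between the two features
  let V : ℝ → X → BI sz → ℝ := fun s x i => Real.sqrt s * vR x i + Real.sqrt (1 - s) * vQ x i
  let W := expWeight hs
  let F : ℝ → ℝ := fun s => meanLog p f (V s)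
  let G : ℝ → (BI sz → ℝ) → ℝ := fun s g =>
    (∑ x, ∑ x', p x * (p x' * ((dot (w x) (w x') - overlap (σ x) (σ x')) *
      (dExp f (dot g (V s x)) * dExp f (dot g (V s x')))))) /
    (∑ x, p x * Real.exp (f (dot g (V s x)))) ^ 2
  have hπ := isProb_atoms hp hp1 (id : X → X)
  have hder : ∀ s ∈ Set.Ioo (0 : ℝ) 1, HasDerivAt F (1 / 2 * ∫ g, G s g ∂gam (BI sz)) s := by
    intro s hs'
    let e : ℝ → X → BI sz → ℝ := fun r x i =>
      1 / (2 * Real.sqrt r) * vR x i + (-1 / (2 * Real.sqrt (1 - r))) * vQ x i
    let lo := s / 2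
    let hi := (1 + s) / 2
    have hlo : 0 < lo := by simp only [lo]; linarith [hs'.1]
    have hhi : hi < 1 := by simp only [hi]; linarith [hs'.2]
    let M : ℝ := ∑ x, ∑ i, (|vR x i| + |vQ x i|)
    have hM : ∀ x i, |vR x i| + |vQ x i| ≤ M := fun x i =>
      le_trans (Finset.single_le_sum (f := fun i => |vR x i| + |vQ x i|)
        (fun i _ => by positivity) (Finset.mem_univ i))
        (Finset.single_le_sum (f := fun x => ∑ i, (|vR x i| + |vQ x i|))
          (fun x _ => by positivity) (Finset.mem_univ x))
    have hM0 : 0 ≤ M := Finset.sum_nonneg fun x _ => Finset.sum_nonneg fun i _ => by positivity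
    let C₁ : ℝ := 1 + 1 / (2 * Real.sqrt lo) + 1 / (2 * Real.sqrt (1 - hi))
    have hC₁ : 0 ≤ C₁ := by positivity
    have hcomb : ∀ (a b : ℝ) x i, |a| ≤ C₁ → |b| ≤ C₁ →
        |a * vR x i + b * vQ x i| ≤ C₁ * M := fun a b x i ha hb => by
      refine (abs_add_le _ _).trans ?_
      rw [abs_mul, abs_mul]
      nlinarith [mul_le_mul_of_nonneg_right ha (abs_nonneg (vR x i)),
        mul_le_mul_of_nonneg_right hb (abs_nonneg (vQ x i)),
        mul_le_mul_of_nonneg_left (hM x i) hC₁]
    let P : Vale.Agent.P157.Path (ι := BI sz) (atoms p (id : X → X)) :=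
      { J := Set.Ioo lo hi
        openJ := isOpen_Ioo
        v := V
        e := e
        C := C₁ * M
        Cnonneg := mul_nonneg hC₁ hM0
        vmeas := fun r => measurable_of_countable _
        emeas := fun r => measurable_of_countable _
        vb := fun r hr x i => hcomb _ _ x i
          (by
            rw [abs_of_nonneg (Real.sqrt_nonneg _)]
            have : Real.sqrt r ≤ 1 := Real.sqrt_le_one.2 (by linarith [hr.2])
            have : 0 ≤ 1 / (2 * Real.sqrt lo) + 1 / (2 * Real.sqrt (1 - hi)) := by positivity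
            simp only [C₁]; linarith)
          (by
            rw [abs_of_nonneg (Real.sqrt_nonneg _)]
            have : Real.sqrt (1 - r) ≤ 1 := Real.sqrt_le_one.2 (by linarith [hr.1])
            have : 0 ≤ 1 / (2 * Real.sqrt lo) + 1 / (2 * Real.sqrt (1 - hi)) := by positivity
            simp only [C₁]; linarith)
        eb := fun r hr x i => hcomb _ _ x i
          (by
            rw [abs_of_nonneg (by positivity)]
            have h1 : Real.sqrt lo ≤ Real.sqrt r := Real.sqrt_le_sqrt hr.1.le
            have h2 : 1 / (2 * Real.sqrt r) ≤ 1 / (2 * Real.sqrt lo) :=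
              one_div_le_one_div_of_le (by positivity) (by linarith)
            have : 0 ≤ 1 / (2 * Real.sqrt (1 - hi)) := by positivity
            simp only [C₁]; linarith)
          (by
            rw [neg_div, abs_neg, abs_of_nonneg (by positivity)]
            have hh : 0 < 1 - hi := by linarith
            have h1 : Real.sqrt (1 - hi) ≤ Real.sqrt (1 - r) :=
              Real.sqrt_le_sqrt (by linarith [hr.2])
            have h2 : 1 / (2 * Real.sqrt (1 - r)) ≤ 1 / (2 * Real.sqrt (1 - hi)) :=
              one_div_le_one_div_of_le (by positivity) (by linarith)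
            have : 0 ≤ 1 / (2 * Real.sqrt lo) := by positivity
            simp only [C₁]; linarith)
        deriv := fun r hr x i => by
          have hr0 : r ≠ 0 := by linarith [hr.1]
          have hr1 : 1 - r ≠ 0 := by linarith [hr.2]
          exact ((Real.hasDerivAt_sqrt hr0).mul_const (vR x i)).add
            ((((hasDerivAt_id r).const_sub 1).sqrt hr1).mul_const (vQ x i))
        K := fun x x' => overlap (σ x) (σ x') - dot (w x) (w x')
        kmeas := measurable_of_countable _
        keq := fun r hr x x' => by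
          have hr0 : (0 : ℝ) < Real.sqrt r := Real.sqrt_pos.2 (by linarith [hr.1])
          have hr1 : (0 : ℝ) < Real.sqrt (1 - r) := Real.sqrt_pos.2 (by linarith [hr.2])
          have hlin : ∀ (a b c d : ℝ) (x x' : X),
              dot (fun i => a * vR x i + b * vQ x i) (fun i => c * vR x' i + d * vQ x' i) =
                a * c * overlap (σ x) (σ x') + b * d * dot (w x) (w x') := by
            intro a b c d x x'
            have e : dot (fun i => a * vR x i + b * vQ x i) (fun i => c * vR x' i + d * vQ x' i) =
                a * c * dot (vR x) (vR x') + a * d * dot (vR x) (vQ x') +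
                  b * c * dot (vR x') (vQ x) + b * d * dot (vQ x) (vQ x') := by
              simp only [dot, Finset.mul_sum, ← Finset.sum_add_distrib]
              exact Finset.sum_congr rfl fun i _ => by ring
            rw [e, hRR, hRQ, hRQ, hQQ]
            ring
          simp only [V, e, hlin]
          field_simp
          ring
        orth := fun r hr => Eventually.of_forall fun x => by
          have hr0 : (0 : ℝ) < Real.sqrt r := Real.sqrt_pos.2 (by linarith [hr.1])
          have hr1 : (0 : ℝ) < Real.sqrt (1 - r) := Real.sqrt_pos.2 (by linarith [hr.2])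
          have e' : dot (e r x) (V r x) =
              1 / (2 * Real.sqrt r) * Real.sqrt r * dot (vR x) (vR x) +
              (1 / (2 * Real.sqrt r) * Real.sqrt (1 - r) +
                (-1 / (2 * Real.sqrt (1 - r))) * Real.sqrt r) * dot (vR x) (vQ x) +
              (-1 / (2 * Real.sqrt (1 - r))) * Real.sqrt (1 - r) * dot (vQ x) (vQ x) := by
            simp only [dot, V, e, Finset.mul_sum, ← Finset.sum_add_distrib]
            exact Finset.sum_congr rfl fun i _ => by ring
          have hwx : dot (w x) (w x) = 1 := by simp only [dot, ← sq]; exact hw x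
          rw [e', hRR, hRQ, hQQ, overlap_self hN, hwx]
          field_simp
          ring }
    have hd := P.hasDerivAt_m W (s := s) ⟨by simp only [lo]; linarith [hs'.1],
      by simp only [hi]; linarith [hs'.2]⟩
    have eM : P.m W = F := by
      funext r
      refine integral_congr_ae (Eventually.of_forall fun g => ?_)
      simp only [Vale.Agent.P157.Path.Z, logSum]
      rw [integral_atoms hp id (measurable_of_countable _).stronglyMeasurable]
      rfl
    rw [eM] at hd
    refine hd.congr_deriv ?_
    have eQ : P.Q W s = -∫ g, G s g ∂gam (BI sz) := by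
      rw [← integral_neg]
      refine integral_congr_ae (Eventually.of_forall fun g => ?_)
      have eR : P.R W s g = -∑ x, ∑ x', p x * (p x' * ((dot (w x) (w x') -
          overlap (σ x) (σ x')) * (dExp f (dot g (V s x)) * dExp f (dot g (V s x'))))) := by
        rw [Vale.Agent.P157.Path.R, integral_prod _ Integrable.of_finite,
          integral_atoms hp id (measurable_of_countable _).stronglyMeasurable,
          ← Finset.sum_neg_distrib]
        refine Finset.sum_congr rfl fun x _ => ?_
        rw [integral_atoms hp id (measurable_of_countable _).stronglyMeasurable, Finset.mul_sum,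
          ← Finset.sum_neg_distrib]
        refine Finset.sum_congr rfl fun x' _ => ?_
        simp only [P, W, expWeight, Vale.Agent.P157.Path.z, id]
        ring
      have eZ : P.Z W s g = ∑ x, p x * Real.exp (f (dot g (V s x))) := by
        rw [Vale.Agent.P157.Path.Z,
          integral_atoms hp id (measurable_of_countable _).stronglyMeasurable]
        rfl
      simp only [eR, eZ, G, neg_div]
    rw [eQ]
    ring
  -- continuity at `0`
  have hVc : ∀ x i, Continuous fun s => V s x i := fun x i => by
    simp only [V]; fun_prop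
  have hVt : Tendsto V (𝓝 0) (𝓝 (V 0)) :=
    tendsto_pi_nhds.2 fun x => tendsto_pi_nhds.2 fun i => (hVc x i).tendsto 0
  have hF0 : Continuous F := continuous_iff_continuousAt.2 fun s => tendsto_meanLog hp hp1 hfc hs.b0
    (tendsto_pi_nhds.2 fun x => tendsto_pi_nhds.2 fun i => (hVc x i).tendsto s)
  have hV0 : V 0 = vQ := by funext x i; simp [V]
  let C₂ : ℝ := (∑ x, ∑ x', p x * (p x' * (|dot (w x) (w x') - overlap (σ x) (σ x')| *
    (A * Real.exp A * (A * Real.exp A))))) / Real.exp (-A) ^ 2
  have hGm : ∀ s, Measurable (G s) := fun s => by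
    have hd : ∀ x, Measurable fun g : BI sz → ℝ => dot g (V s x) := fun x =>
      measurable_dot.comp (measurable_id.prodMk measurable_const)
    exact (Finset.measurable_sum _ fun x _ => Finset.measurable_sum _ fun x' _ =>
      (((((continuous_dExp hs).measurable.comp (hd x)).mul
        ((continuous_dExp hs).measurable.comp (hd x'))).const_mul _).const_mul _).const_mul _).div
      ((Finset.measurable_sum _ fun x _ =>
        ((Real.continuous_exp.comp hfc).measurable.comp (hd x)).const_mul _).pow_const 2)
  have hGb : ∀ s g, |G s g| ≤ C₂ := fun s g => by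
    obtain ⟨h1, -⟩ := sum_exp_mem hp hp1 (F := fun x => f (dot g (V s x))) fun x => hs.b0 _
    have hpos := (Real.exp_pos _).trans_le h1
    simp only [G, C₂, abs_div, abs_of_pos (pow_pos hpos 2)]
    refine div_le_div₀ (Finset.sum_nonneg fun x _ => Finset.sum_nonneg fun x' _ => mul_nonneg (hp x)
      (mul_nonneg (hp x') (mul_nonneg (abs_nonneg _) (mul_self_nonneg _)))) ?_ (by positivity)
      (pow_le_pow_left₀ (Real.exp_pos _).le h1 2)
    refine (Finset.abs_sum_le_sum_abs _ _).trans (Finset.sum_le_sum fun x _ => ?_)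
    refine (Finset.abs_sum_le_sum_abs _ _).trans (Finset.sum_le_sum fun x' _ => ?_)
    rw [abs_mul, abs_mul, abs_mul, abs_mul, abs_of_nonneg (hp x), abs_of_nonneg (hp x')]
    have := mul_le_mul (abs_dExp_le hs (dot g (V s x))) (abs_dExp_le hs (dot g (V s x')))
      (abs_nonneg _) (by have := smooth_nonneg hs; positivity)
    gcongr
    · exact hp x
    · exact hp x'
  have hGlim : Tendsto (fun s => ∫ g, G s g ∂gam (BI sz)) (𝓝 0) (𝓝 (∫ g, G 0 g ∂gam (BI sz))) := by
    refine tendsto_integral_filter_of_dominated_convergence (fun _ => C₂)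
      (Eventually.of_forall fun s => (hGm s).aestronglyMeasurable)
      (Eventually.of_forall fun s => Eventually.of_forall fun g => by simpa using hGb s g)
      (integrable_const _) (Eventually.of_forall fun g => ?_)
    have hc : ∀ x, Tendsto (fun s => dot g (V s x)) (𝓝 0) (𝓝 (dot g (V 0 x))) := fun x =>
      ((continuous_dot_right g).tendsto _).comp (tendsto_pi_nhds.1 hVt x)
    exact (tendsto_finsetSum _ fun x _ => tendsto_finsetSum _ fun x' _ =>
      ((((((continuous_dExp hs).tendsto _).comp (hc x)).mul
        (((continuous_dExp hs).tendsto _).comp (hc x'))).const_mul _).const_mul _).const_mul _).div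
      ((tendsto_finsetSum _ fun x _ =>
        (((Real.continuous_exp.comp hfc).tendsto _).comp (hc x)).const_mul _).pow 2)
      (pow_ne_zero 2 ((Real.exp_pos _).trans_le
        (sum_exp_mem hp hp1 (F := fun x => f (dot g (V 0 x))) fun x => hs.b0 _).1).ne')
  have hmain : meanLog p f vR - meanLog p f vQ ≤ 1 / 2 * ∫ g, G 0 g ∂gam (BI sz) := by
    refine le_of_forall_pos_le_add fun ε hε => ?_
    obtain ⟨d, hd, hdd⟩ := Metric.tendsto_nhds_nhds.1 (hGlim.const_mul (1 / 2)) ε hε
    let t := min (d / 2) (1 / 2)
    have ht0 : 0 < t := lt_min (by linarith) (by norm_num)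
    have ht1 : t < 1 := lt_of_le_of_lt (min_le_right _ _) (by norm_num)
    obtain ⟨c, hc, hslope⟩ := exists_hasDerivAt_eq_slope F
      (fun s => 1 / 2 * ∫ g, G s g ∂gam (BI sz)) ht0 hF0.continuousOn
      (fun s hs' => hder s ⟨hs'.1, hs'.2.trans ht1⟩)
    have hb : t * meanLog p f vR + (1 - t) * meanLog p f vQ ≤ F t := hblock t ⟨ht0, ht1⟩
    have hF0' : F 0 = meanLog p f vQ := by simp only [F, hV0]
    have h1 : meanLog p f vR - meanLog p f vQ ≤ (F t - F 0) / (t - 0) := by
      rw [sub_zero, le_div_iff₀ ht0, hF0']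
      nlinarith
    have hcd : dist c 0 < d := by
      rw [Real.dist_0_eq_abs, abs_of_pos hc.1]
      linarith [hc.2, min_le_left (d / 2) (1 / 2)]
    have h2 := hdd hcd
    rw [Real.dist_eq] at h2
    linarith [(abs_lt.1 h2).2]
  -- back to the original coordinates
  have eR : meanLog p f vR = meanLog p f fun x => unitVec (σ x) := by
    simp only [meanLog, logSum, hdotT]
    exact integral_gam_precomp heT (measurable_logSum hfc.measurable fun x => unitVec (σ x))
  have eQ : meanLog p f vQ = meanLog p f w := by
    simp only [meanLog, logSum, hdotF]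
    exact integral_gam_precomp heF (measurable_logSum hfc.measurable w)
  have eG : ∫ g, G 0 g ∂gam (BI sz) = ∫ g, chordDeriv p f σ w g ∂gam Q := by
    have : ∀ g, G 0 g = chordDeriv p f σ w fun c => g (eF c) := fun g => by
      simp only [G, chordDeriv, hV0, hdotF]
    simp only [this]
    have hd : ∀ x, Measurable fun g : Q → ℝ => dot g (w x) := fun x =>
      measurable_dot.comp (measurable_id.prodMk measurable_const)
    exact integral_gam_precomp heF
      ((Finset.measurable_sum _ fun x _ => Finset.measurable_sum _ fun x' _ =>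
        (((((continuous_dExp hs).measurable.comp (hd x)).mul
          ((continuous_dExp hs).measurable.comp (hd x'))).const_mul _).const_mul _).const_mul _).div
        ((Finset.measurable_sum _ fun x _ =>
          ((Real.continuous_exp.comp hfc).measurable.comp (hd x)).const_mul _).pow_const 2))
  linarith

end Vale.Agent.P157.Parisi.Up
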