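import Vale.Agent.P157.Parisi.Upper.Weights
import Vale.Agent.P157.Parisi.Upper.Chord

/-!
A small random field in the coordinates of the cascade, to second order.
-/

noncomputable section

open MeasureTheory ProbabilityTheory Filter
open scoped BigOperators Topology

namespace Vale.Agent.P157.Parisi.Up

open Vale.Agent.P168 (CascTree cascLaw cascSum cascMean cascFilter genNested)
open Vale.Agent.P168.Cascade
open Vale.Agent.P168.Upper (integral_mp mp_uncurry tendsto_integral_cascFilter cascFilter_neBot)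

variable {r N : ℕ}

/-- The total length of the leaf vectors. -/
def fieldLen (ρ : Fin (r + 1) → ℝ) : ℝ := Real.sqrt (ρ 0) + ∑ p, Real.sqrt (inc ρ p)

lemma fieldLen_nonneg (ρ : Fin (r + 1) → ℝ) : 0 ≤ fieldLen ρ := by unfold fieldLen; positivity

/-- The field of a configuration at a leaf. -/
def fieldX (δ a : ℝ) (ρ : Fin (r + 1) → ℝ) (e : Fin N → ℝ) (σ : Cube N)
    (η : Fin r → Fin N → ℝ) : ℝ :=
  Real.sqrt δ * ∑ i, sv σ i * pathField ρ (clipA a (e i)) fun p => clipA a (η p i)

/-- The weight of the field. -/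
def fieldZ (δ a : ℝ) (ρ : Fin (r + 1) → ℝ) (e : Fin N → ℝ) (σ : Cube N)
    (η : Fin r → Fin N → ℝ) : ℝ :=
  Real.exp (fieldX δ a ρ e σ η)

lemma abs_fieldX_le {δ a : ℝ} (ha : 0 ≤ a) (ρ : Fin (r + 1) → ℝ) (e : Fin N → ℝ) (σ : Cube N)
    (η : Fin r → Fin N → ℝ) :
    |fieldX δ a ρ e σ η| ≤ Real.sqrt δ * (N * (fieldLen ρ * a)) := by
  rw [fieldX, abs_mul, abs_of_nonneg (Real.sqrt_nonneg δ)]
  refine mul_le_mul_of_nonneg_left ((Finset.abs_sum_le_sum_abs _ _).trans
    ((Finset.sum_le_sum fun i _ => ?_).trans_eq (by simp : ∑ _i : Fin N, fieldLen ρ * a = _)))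
    (Real.sqrt_nonneg δ)
  rw [abs_mul, abs_sv_eq, one_mul]
  exact abs_pathField_le ρ (abs_clipA_le ha _) fun p => abs_clipA_le ha _

lemma measurable_fieldZ (δ a : ℝ) (ρ : Fin (r + 1) → ℝ) (σ : Cube N) :
    Measurable fun z : (Fin N → ℝ) × (Fin r → Fin N → ℝ) => fieldZ δ a ρ z.1 σ z.2 := by
  refine ((Finset.measurable_sum _ fun i _ => ?_).const_mul _).exp
  refine ((measurable_pathField ρ).comp
    (f := fun z : (Fin N → ℝ) × (Fin r → Fin N → ℝ) =>
      (clipA a (z.1 i), fun p => clipA a (z.2 p i))) (Measurable.prodMk ?_ ?_)).const_mul _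
  · exact (measurable_clipA a).comp ((measurable_pi_apply i).comp measurable_fst)
  · exact measurable_pi_lambda _ fun p =>
      (measurable_clipA a).comp ((measurable_pi_apply i).comp
        ((measurable_pi_apply p).comp measurable_snd))

/-- The second order lower bound of a log-average exponential. -/
lemma second_order {X : Type} [Fintype X] {p : X → ℝ} (hp : ∀ x, 0 ≤ p x) (hp1 : ∑ x, p x = 1)
    {F : X → ℝ} {M : ℝ} (hF : ∀ x, |F x| ≤ M) (hM : M ≤ 1 / 10) :
    (∑ x, p x * F x) + 1 / 2 * (∑ x, p x * (F x * F x)) -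
        1 / 2 * ((∑ x, p x * F x) * ∑ x, p x * F x) - 20 * M ^ 3 ≤
      Real.log (∑ x, p x * Real.exp (F x)) := by
  obtain ⟨x₀⟩ : Nonempty X := by
    by_contra h
    rw [not_nonempty_iff] at h
    simp at hp1
  have hM0 : 0 ≤ M := (abs_nonneg _).trans (hF x₀)
  set S1 := ∑ x, p x * F x
  set S2 := ∑ x, p x * (F x * F x)
  have h1 : |S1| ≤ M := by
    refine (Finset.abs_sum_le_sum_abs _ _).trans ?_
    calc ∑ x, |p x * F x| ≤ ∑ x, p x * M := Finset.sum_le_sum fun x _ => by
          rw [abs_mul, abs_of_nonneg (hp x)]; exact mul_le_mul_of_nonneg_left (hF x) (hp x)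
      _ = M := by rw [← Finset.sum_mul, hp1, one_mul]
  have h20 : 0 ≤ S2 := Finset.sum_nonneg fun x _ => mul_nonneg (hp x) (mul_self_nonneg _)
  have h2 : S2 ≤ M * M := by
    calc S2 ≤ ∑ x, p x * (M * M) := Finset.sum_le_sum fun x _ => by
          refine mul_le_mul_of_nonneg_left ?_ (hp x)
          rw [← abs_mul_abs_self (F x)]
          exact mul_le_mul (hF x) (hF x) (abs_nonneg _) hM0
      _ = M * M := by rw [← Finset.sum_mul, hp1, one_mul]
  have hexp : ∀ x, 1 + F x + 1 / 2 * (F x * F x) - M ^ 3 ≤ Real.exp (F x) := fun x => by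
    have hb := Real.exp_bound (x := F x) ((hF x).trans (by linarith)) (n := 3) (by norm_num)
    simp only [Finset.sum_range_succ, Finset.sum_range_zero, Nat.factorial] at hb
    norm_num at hb
    have h3 : |F x| ^ 3 ≤ M ^ 3 := pow_le_pow_left₀ (abs_nonneg _) (hF x) 3
    nlinarith [(abs_le.1 hb).1, abs_nonneg (F x), pow_nonneg (abs_nonneg (F x)) 3]
  set S := S1 + 1 / 2 * S2 - M ^ 3 with hS
  have hsum : 1 + S ≤ ∑ x, p x * Real.exp (F x) := by
    refine le_trans (le_of_eq ?_) (Finset.sum_le_sum fun x _ => mul_le_mul_of_nonneg_left (hexp x) (hp x))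
    have e : ∀ x, p x * (1 + F x + 1 / 2 * (F x * F x) - M ^ 3) =
        p x + p x * F x + 1 / 2 * (p x * (F x * F x)) - p x * M ^ 3 := fun x => by ring
    simp only [e, Finset.sum_sub_distrib, Finset.sum_add_distrib, ← Finset.mul_sum,
      ← Finset.sum_mul, hp1, S, S1, S2]
    ring
  have hM3 : 0 ≤ M ^ 3 := by positivity
  have hMM : M * M ≤ M / 10 := by nlinarith
  have hM3' : M ^ 3 ≤ M * M / 10 := by nlinarith
  obtain ⟨h1a, h1b⟩ := abs_le.1 h1
  have hSb : |S| ≤ 2 * M := by rw [hS, abs_le]; constructor <;> linarith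
  have hlog := Real.abs_log_sub_add_sum_range_le (x := -S)
    (by rw [abs_neg]; linarith) 2
  simp only [Finset.sum_range_succ, Finset.sum_range_zero, sub_neg_eq_add] at hlog
  norm_num at hlog
  have hR : |S| ^ 3 / (1 - |S|) ≤ 10 * M ^ 3 := by
    rw [div_le_iff₀ (by linarith)]
    have : |S| ^ 3 ≤ (2 * M) ^ 3 := pow_le_pow_left₀ (abs_nonneg _) hSb 3
    nlinarith [mul_le_mul_of_nonneg_left hSb hM3]
  have hmono := Real.log_le_log (by linarith [(abs_le.1 hSb).1]) hsum
  have hD : |1 / 2 * S2 - M ^ 3| ≤ M * M := by rw [abs_le]; constructor <;> linarith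
  have hsq : S * S ≤ S1 * S1 + 3 * M ^ 3 := by
    have e : S * S = S1 * S1 + 2 * (S1 * (1 / 2 * S2 - M ^ 3)) +
        (1 / 2 * S2 - M ^ 3) * (1 / 2 * S2 - M ^ 3) := by rw [hS]; ring
    have a : S1 * (1 / 2 * S2 - M ^ 3) ≤ M ^ 3 := by
      refine (le_abs_self _).trans ?_
      rw [abs_mul]
      exact (mul_le_mul h1 hD (abs_nonneg _) hM0).trans_eq (by ring)
    have b : (1 / 2 * S2 - M ^ 3) * (1 / 2 * S2 - M ^ 3) ≤ M ^ 3 := by
      rw [← abs_mul_abs_self (1 / 2 * S2 - M ^ 3)]
      refine (mul_le_mul hD hD (abs_nonneg _) (by positivity)).trans ?_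
      nlinarith
    linarith
  have hl : S - S * S / 2 - 10 * M ^ 3 ≤ Real.log (1 + S) := by
    obtain ⟨hl1, _⟩ := abs_le.1 (hlog.trans hR)
    nlinarith
  linarith

variable {β : Type} [MeasurableSpace β]

/-- The field on a finite tree. -/
lemma field_tree {m : Fin r → ℝ} {ρ : Fin (r + 1) → ℝ} (hρ : Monotone ρ) (hρ0 : 0 ≤ ρ 0)
    {δ a C : ℝ} (hδ : 0 ≤ δ) (ha : 0 ≤ a) {w : Cube N → (Fin r → β) → ℝ} (hw : WBdd C w)
    (hM : Real.sqrt δ * (N * (fieldLen ρ * a)) ≤ 1 / 10) {n : Fin r → ℕ} (hn : ∀ i, 0 < n i)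
    {t : CascTree β r n} (ht : GoodTree r n t) :
    Real.log (cascMean m n (fun η => ∑ σ, w σ η) t) +
        svar a * δ / 2 * (N * ρ (Fin.last r) -
          ∑ i, ∑ c, comp m n ρ (fun η => ∑ σ, w σ η) (mag w i) t c ^ 2) -
        20 * (Real.sqrt δ * (N * (fieldLen ρ * a))) ^ 3 ≤
      ∫ γ, Real.log (cascMean m n
        (fun η : Fin r → β × (Fin N → ℝ) => ∑ σ, tens w (fieldZ δ a ρ (γ none)) σ η)
        (att r n (t, fun c => γ (some c))))
        ∂(Measure.pi fun _ : Option (Node r n) => gam (Fin N)) := by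
  classical
  set M := Real.sqrt δ * (N * (fieldLen ρ * a))
  set W : (Fin r → β) → ℝ := fun η => ∑ σ, w σ η
  set S := cascSum r m n W t with hS_def
  have hS : 0 < S := (cascSum_pos (bdd_sum hw) m hn ht).2
  have hS1 := cascSum_one_pos m hn ht
  let p : Cube N × Leaf r n → ℝ := fun x =>
    leafW r m n t x.2 * w x.1 (leafMarks r n t x.2) / S
  have hp : ∀ x, 0 ≤ p x := fun x =>
    div_nonneg (mul_nonneg (leafW_pos _ _ _ _ _ ht).le ((hw x.1).gt_zero _).le) hS.le
  have hsum : ∀ F : Cube N → Leaf r n → ℝ,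
      ∑ x, p x * F x.1 x.2 = (∑ l, leafW r m n t l *
        ∑ σ, w σ (leafMarks r n t l) * F σ l) / S := fun F => by
    rw [Fintype.sum_prod_type_right, Finset.sum_div]
    refine Finset.sum_congr rfl fun l _ => ?_
    rw [Finset.mul_sum, Finset.sum_div]
    exact Finset.sum_congr rfl fun σ _ => by simp only [p]; ring
  have hp1 : ∑ x, p x = 1 := by
    have := hsum fun _ _ => 1
    simp only [mul_one] at this
    rw [this, ← cascSum_eq_sum_leaves r m n W t, ← hS_def, div_self hS.ne']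
  set π := Measure.pi fun _ : Option (Node r n) => gam (Fin N)
  set φ : ℝ → ℝ := clipA a
  have hφm : Measurable φ := measurable_clipA a
  have hφb : ∀ x, |φ x| ≤ a := abs_clipA_le ha
  have hφ0 : ∫ x, φ x ∂gaussianReal 0 1 = 0 := integral_clipA ha
  let F : (Option (Node r n) → Fin N → ℝ) → Cube N × Leaf r n → ℝ := fun γ x =>
    fieldX δ a ρ (γ none) x.1 fun i => γ (some (node n x.2 i))
  have hFb : ∀ γ x, |F γ x| ≤ M := fun γ x => abs_fieldX_le ha ρ _ _ _
  -- the field as a linear form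
  let coef : Cube N → Leaf r n → Option (Node r n) × Fin N → ℝ := fun σ l z =>
    Real.sqrt δ * (sv σ z.2 * leafVec n ρ l z.1)
  have hlin : ∀ γ x, F γ x = ∑ z, coef x.1 x.2 z * φ (γ z.1 z.2) := fun γ x => by
    simp only [F, fieldX, coef, Fintype.sum_prod_type_right, Finset.mul_sum]
    refine Finset.sum_congr rfl fun i _ => ?_
    rw [← dot_leafVec n ρ x.2 (fun c => φ (γ c i)), dot, Finset.mul_sum, Finset.mul_sum]
    exact Finset.sum_congr rfl fun c _ => by ring
  let A : Option (Node r n) × Fin N → ℝ := fun z =>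
    Real.sqrt δ * comp m n ρ W (mag w z.2) t z.1
  have hA : ∀ γ, ∑ x, p x * F γ x = ∑ z, A z * φ (γ z.1 z.2) := fun γ => by
    simp only [hlin, Finset.mul_sum]
    rw [Finset.sum_comm]
    refine Finset.sum_congr rfl fun z _ => ?_
    simp only [← mul_assoc, ← Finset.sum_mul]
    congr 1
    rw [hsum fun σ l => coef σ l z]
    simp only [A, comp, coef, mag, Finset.mul_sum, Finset.sum_mul, ← mul_div_assoc]
    congr 1
    exact Finset.sum_congr rfl fun l _ => Finset.sum_congr rfl fun σ _ => by ring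
  have huncurry := mp_uncurry (ι := Option (Node r n)) (κ := Fin N) (gaussianReal 0 1)
  have hFm : ∀ x, Measurable fun γ => F γ x := fun x => by
    simp only [hlin]
    exact Finset.measurable_sum _ fun z _ =>
      (hφm.comp ((measurable_pi_apply z.2).comp (measurable_pi_apply z.1))).const_mul _
  have e1 : ∫ γ, ∑ x, p x * F γ x ∂π = 0 := by
    simp only [hA]
    exact (integral_mp huncurry (g := fun g => ∑ z, A z * φ (g z))
      (Finset.measurable_sum _ fun z _ => (hφm.comp (measurable_pi_apply z)).const_mul _)).trans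
      (integral_lin hφm hφb hφ0 A)
  have elin : ∀ c : Option (Node r n) × Fin N → ℝ,
      ∫ γ, (∑ z, c z * φ (γ z.1 z.2)) * (∑ z, c z * φ (γ z.1 z.2)) ∂π =
        svar a * ∑ z, c z * c z := fun c => by
    refine (integral_mp huncurry (g := fun g => (∑ z, c z * φ (g z)) * ∑ z, c z * φ (g z))
      ?_).trans (integral_lin_mul hφm hφb hφ0 c c)
    have hm' : Measurable fun g : Option (Node r n) × Fin N → ℝ => ∑ z, c z * φ (g z) :=
      Finset.measurable_sum _ fun z _ => (hφm.comp (measurable_pi_apply z)).const_mul _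
    exact hm'.mul hm'
  have hsqb : ∀ γ x, |F γ x * F γ x| ≤ M * M := fun γ x => by
    rw [abs_mul]; exact mul_le_mul (hFb γ x) (hFb γ x) (abs_nonneg _) ((abs_nonneg _).trans (hFb γ x))
  have e2 : ∫ γ, ∑ x, p x * (F γ x * F γ x) ∂π = svar a * δ * (N * ρ (Fin.last r)) := by
    rw [integral_finsetSum _ fun x _ =>
      (integrable_bdd (F := fun γ => F γ x * F γ x) ((hFm x).mul (hFm x))
        fun γ => hsqb γ x).const_mul _]
    have : ∀ x, ∫ γ, p x * (F γ x * F γ x) ∂π = p x * (svar a * δ * (N * ρ (Fin.last r))) := by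
      intro x
      rw [integral_const_mul]
      simp only [hlin, elin]
      congr 1
      rw [mul_assoc (svar a)]
      congr 1
      simp only [coef, Fintype.sum_prod_type_right]
      have : ∀ (i : Fin N) c, Real.sqrt δ * (sv x.1 i * leafVec n ρ x.2 c) *
          (Real.sqrt δ * (sv x.1 i * leafVec n ρ x.2 c)) = δ * leafVec n ρ x.2 c ^ 2 := fun i c => by
        rw [show Real.sqrt δ * (sv x.1 i * leafVec n ρ x.2 c) *
          (Real.sqrt δ * (sv x.1 i * leafVec n ρ x.2 c)) = (Real.sqrt δ * Real.sqrt δ) *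
            (|sv x.1 i| * |sv x.1 i|) * leafVec n ρ x.2 c ^ 2 by rw [abs_mul_abs_self]; ring,
          Real.mul_self_sqrt hδ, abs_sv_eq]
        ring
      simp only [this, ← Finset.mul_sum, sum_leafVec_sq n hρ hρ0 x.2, Finset.sum_const,
        Finset.card_univ, Fintype.card_fin, nsmul_eq_mul]
    simp only [this, ← Finset.sum_mul, hp1, one_mul]
  have e3 : ∫ γ, (∑ x, p x * F γ x) * ∑ x, p x * F γ x ∂π =
      svar a * δ * ∑ i, ∑ c, comp m n ρ W (mag w i) t c ^ 2 := by
    simp only [hA]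
    rw [elin A]
    simp only [A, Fintype.sum_prod_type_right]
    rw [mul_assoc]
    refine congrArg _ ?_
    rw [Finset.mul_sum]
    refine Finset.sum_congr rfl fun i _ => ?_
    rw [Finset.mul_sum]
    refine Finset.sum_congr rfl fun c _ => ?_
    rw [show ∀ x : ℝ, Real.sqrt δ * x * (Real.sqrt δ * x) = Real.sqrt δ * Real.sqrt δ * x ^ 2 from
      fun x => by ring, Real.mul_self_sqrt hδ]
  -- pointwise
  have hL : ∀ γ, Real.log (cascMean m n
      (fun η : Fin r → β × (Fin N → ℝ) => ∑ σ, tens w (fieldZ δ a ρ (γ none)) σ η)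
      (att r n (t, fun c => γ (some c)))) =
      Real.log (cascMean m n W t) + Real.log (∑ x, p x * Real.exp (F γ x)) := fun γ => by
    have h1 : cascSum r m n (fun _ : Fin r → β × (Fin N → ℝ) => (1 : ℝ))
        (att r n (t, fun c => γ (some c))) = cascSum r m n (fun _ => 1) t :=
      cascSum_att_fst m n (fun _ => 1) _
    have h2 : ∑ x, p x * Real.exp (F γ x) = cascSum r m n
        (fun η : Fin r → β × (Fin N → ℝ) => ∑ σ, tens w (fieldZ δ a ρ (γ none)) σ η)
        (att r n (t, fun c => γ (some c))) / S := by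
      rw [hsum fun σ l => Real.exp (F γ (σ, l)), cascSum_att]
      rfl
    have hpos := (Real.exp_pos _).trans_le (sum_exp_mem hp hp1 (hFb γ)).1
    rw [h2] at hpos ⊢
    rw [cascMean, cascMean, h1, Real.log_div ((div_pos_iff_of_pos_right hS).1 hpos).ne' hS1.ne',
      Real.log_div ((div_pos_iff_of_pos_right hS).1 hpos).ne' hS.ne',
      Real.log_div hS.ne' hS1.ne']
    ring
  simp only [hL]
  have hi1 : Integrable (fun γ => ∑ x, p x * F γ x) π :=
    integrable_finsetSum _ fun x _ => (integrable_bdd (hFm x) fun γ => hFb γ x).const_mul _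
  have hi2 : Integrable (fun γ => ∑ x, p x * (F γ x * F γ x)) π :=
    integrable_finsetSum _ fun x _ => (integrable_bdd ((hFm x).mul (hFm x))
      fun γ => hsqb γ x).const_mul _
  have hS1m : Measurable fun γ => ∑ x, p x * F γ x :=
    Finset.measurable_sum _ fun x _ => (hFm x).const_mul _
  have hS1b : ∀ γ, |∑ x, p x * F γ x| ≤ M := fun γ => by
    refine (Finset.abs_sum_le_sum_abs _ _).trans ?_
    calc ∑ x, |p x * F γ x| ≤ ∑ x, p x * M := Finset.sum_le_sum fun x _ => by
          rw [abs_mul, abs_of_nonneg (hp x)]; exact mul_le_mul_of_nonneg_left (hFb γ x) (hp x)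
      _ = M := by rw [← Finset.sum_mul, hp1, one_mul]
  have hi3 : Integrable (fun γ => (∑ x, p x * F γ x) * ∑ x, p x * F γ x) π :=
    integrable_bdd (C := M * M) (hS1m.mul hS1m) fun γ => by
      rw [abs_mul]
      exact mul_le_mul (hS1b γ) (hS1b γ) (abs_nonneg _) ((abs_nonneg _).trans (hS1b γ))
  have hi4 : Integrable (fun γ => Real.log (∑ x, p x * Real.exp (F γ x))) π :=
    integrable_bdd (Finset.measurable_sum _ fun x _ => (hFm x).exp.const_mul _).log
      fun γ => abs_log_sum_exp_le hp hp1 (hFb γ)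
  have hlow := integral_mono (μ := π)
    (f := fun γ => (∑ x, p x * F γ x) + 1 / 2 * (∑ x, p x * (F γ x * F γ x)) -
        1 / 2 * ((∑ x, p x * F γ x) * ∑ x, p x * F γ x) - 20 * M ^ 3)
    (((hi1.add (hi2.const_mul _)).sub (hi3.const_mul _)).sub (integrable_const _)) hi4
    fun γ => second_order hp hp1 (hFb γ) hM
  rw [integral_sub (f := fun γ => (∑ x, p x * F γ x) + 1 / 2 * (∑ x, p x * (F γ x * F γ x)) -
      1 / 2 * ((∑ x, p x * F γ x) * ∑ x, p x * F γ x))
      ((hi1.add (hi2.const_mul _)).sub (hi3.const_mul _)) (integrable_const _),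
    integral_sub (f := fun γ => (∑ x, p x * F γ x) + 1 / 2 * (∑ x, p x * (F γ x * F γ x)))
      (hi1.add (hi2.const_mul _)) (hi3.const_mul _),
    integral_add hi1 (hi2.const_mul _), integral_const_mul, integral_const_mul, e1, e2, e3] at hlow
  rw [integral_add (integrable_const _) hi4]
  simp only [integral_const, probReal_univ, one_smul] at hlow ⊢
  linarith

variable (ν : Measure β) [IsProbabilityMeasure ν]

omit [IsProbabilityMeasure ν]

/-- The weights with a field, summed. -/
def fieldY (δ a : ℝ) (ρ : Fin (r + 1) → ℝ) (w : Cube N → (Fin r → β) → ℝ) (e : Fin N → ℝ)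
    (η : Fin r → β × (Fin N → ℝ)) : ℝ :=
  ∑ σ, tens w (fieldZ δ a ρ e) σ η

lemma measurable_fieldY {C : ℝ} (δ a : ℝ) (ρ : Fin (r + 1) → ℝ) {w : Cube N → (Fin r → β) → ℝ}
    (hw : WBdd C w) : Measurable (Function.uncurry (fieldY δ a ρ w)) := by
  have h1 : Measurable fun z : (Fin N → ℝ) × (Fin r → β × (Fin N → ℝ)) => fun i => (z.2 i).1 :=
    measurable_pi_lambda _ fun i => ((measurable_pi_apply i).comp measurable_snd).fst
  have h2 : Measurable fun z : (Fin N → ℝ) × (Fin r → β × (Fin N → ℝ)) =>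
      (z.1, fun i => (z.2 i).2) :=
    measurable_fst.prodMk (measurable_pi_lambda _ fun i =>
      ((measurable_pi_apply i).comp measurable_snd).snd)
  have e : Function.uncurry (fieldY δ a ρ w) =
      fun z : (Fin N → ℝ) × (Fin r → β × (Fin N → ℝ)) =>
        ∑ σ, (w σ fun i => (z.2 i).1) * fieldZ δ a ρ z.1 σ fun i => (z.2 i).2 := rfl
  rw [e]
  refine Finset.measurable_sum _ fun σ _ => Measurable.mul ?_ ?_
  · exact (hw σ).meas.comp h1
  · exact Measurable.comp
      (g := fun q : (Fin N → ℝ) × (Fin r → Fin N → ℝ) => fieldZ δ a ρ q.1 σ q.2)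
      (f := fun z : (Fin N → ℝ) × (Fin r → β × (Fin N → ℝ)) => (z.1, fun i => (z.2 i).2))
      (measurable_fieldZ δ a ρ σ) h2

lemma bdd_fieldY {C δ a : ℝ} (ha : 0 ≤ a) (ρ : Fin (r + 1) → ℝ)
    {w : Cube N → (Fin r → β) → ℝ} (hw : WBdd C w) (e : Fin N → ℝ) :
    Bdd (Fintype.card (Cube N) * C * Real.exp (Real.sqrt δ * (N * (fieldLen ρ * a))))
      (fieldY δ a ρ w e) := by
  have hW := bdd_sum hw
  refine ⟨mul_pos hW.pos (Real.exp_pos _), (measurable_fieldY δ a ρ hw).of_uncurry_left,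
    fun η => ⟨?_, ?_⟩⟩
  · rw [mul_inv, ← Real.exp_neg]
    refine (mul_le_mul_of_nonneg_right (hW.mem fun i => (η i).1).1 (Real.exp_pos _).le).trans ?_
    simp only [fieldY, Finset.sum_mul]
    exact Finset.sum_le_sum fun σ _ => mul_le_mul_of_nonneg_left
      (Real.exp_le_exp.2 (abs_le.1 (abs_fieldX_le ha ρ e σ _)).1) ((hw σ).gt_zero _).le
  · refine le_trans ?_ (mul_le_mul_of_nonneg_right (hW.mem fun i => (η i).1).2 (Real.exp_pos _).le)
    simp only [fieldY, Finset.sum_mul]
    exact Finset.sum_le_sum fun σ _ => mul_le_mul_of_nonneg_left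
      (Real.exp_le_exp.2 (abs_le.1 (abs_fieldX_le ha ρ e σ _)).2) ((hw σ).gt_zero _).le

lemma measurable_comp' {C : ℝ} {m : Fin r → ℝ} {n : Fin r → ℕ} (ρ : Fin (r + 1) → ℝ)
    {W g : (Fin r → β) → ℝ} (hW : Bdd C W) (hg : Measurable g) (c : Option (Node r n)) :
    Measurable fun t => comp m n ρ W g t c :=
  (Finset.measurable_sum _ fun l _ => (measurable_leafW _ m n l).mul
    ((hg.comp (measurable_leafMarks _ n l)).mul_const _)).div (measurable_cascSum m n hW.meas)

variable [IsProbabilityMeasure ν]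

lemma integrable_sumSq {C : ℝ} {m : Fin r → ℝ} {n : Fin r → ℕ} (hn : ∀ i, 0 < n i)
    (ρ : Fin (r + 1) → ℝ) {W g : (Fin r → β) → ℝ} (hW : Bdd C W) (hg : Measurable g)
    (hb : ∀ η, |g η| ≤ C) :
    Integrable (fun t => ∑ c, comp m n ρ W g t c ^ 2) (cascLaw ν r n) := by
  refine Integrable.of_bound (Measurable.aestronglyMeasurable
    (Finset.measurable_sum _ fun c _ => (measurable_comp' ρ hW hg c).pow_const 2))
    (∑ _c : Option (Node r n), (C * (C * fieldLen ρ)) ^ 2) ((ae_good ν r n).mono fun t ht => ?_)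
  rw [Real.norm_eq_abs, abs_of_nonneg (Finset.sum_nonneg fun c _ => sq_nonneg _)]
  refine Finset.sum_le_sum fun c _ => ?_
  rw [← sq_abs]
  refine pow_le_pow_left₀ (abs_nonneg _) ?_ 2
  have hu : ∀ l, |leafVec n ρ l c| ≤ fieldLen ρ := fun l => by
    unfold fieldLen
    cases c with
    | none =>
      simp only [leafVec, abs_of_nonneg (Real.sqrt_nonneg _)]
      exact le_add_of_nonneg_right (Finset.sum_nonneg fun p _ => Real.sqrt_nonneg _)
    | some c =>
      simp only [leafVec]
      refine le_add_of_nonneg_of_le (Real.sqrt_nonneg _)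
        ((Finset.abs_sum_le_sum_abs _ _).trans (Finset.sum_le_sum fun p _ => ?_))
      split_ifs
      · exact le_of_eq (abs_of_nonneg (Real.sqrt_nonneg _))
      · rw [abs_zero]; exact Real.sqrt_nonneg _
  have hB := mul_nonneg hW.pos.le (fieldLen_nonneg ρ)
  have hb' := abs_ratio_le' hW hB (g := fun _ => C * fieldLen ρ)
    (fun _ => le_of_eq (abs_of_nonneg hB)) m n ht
  refine le_trans ?_ ((le_abs_self _).trans hb')
  rw [comp, ratio, abs_div, abs_of_pos (cascSum_pos hW m hn ht).2]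
  refine div_le_div_of_nonneg_right ((Finset.abs_sum_le_sum_abs _ _).trans ?_)
    (cascSum_pos hW m hn ht).2.le
  rw [cascSum_eq_sum_leaves]
  refine Finset.sum_le_sum fun l _ => ?_
  rw [abs_mul, abs_mul, abs_of_pos (leafW_pos r m n t l ht)]
  exact mul_le_mul_of_nonneg_left (mul_le_mul (hb _) (hu l) (abs_nonneg _) hW.pos.le)
    (leafW_pos r m n t l ht).le

lemma field_fin {m : Fin r → ℝ} {ρ : Fin (r + 1) → ℝ} (hρ : Monotone ρ) (hρ0 : 0 ≤ ρ 0)
    {δ a C : ℝ} (hδ : 0 ≤ δ) (ha : 0 ≤ a) {w : Cube N → (Fin r → β) → ℝ} (hw : WBdd C w)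
    (hM : Real.sqrt δ * (N * (fieldLen ρ * a)) ≤ 1 / 10) {n : Fin r → ℕ} (hn : ∀ i, 0 < n i) :
    ∫ t, Real.log (cascMean m n (fun η => ∑ σ, w σ η) t) ∂cascLaw ν r n + svar a * δ / 2 *
        (N * ρ (Fin.last r) -
          ∑ i, ∫ t, ∑ c, comp m n ρ (fun η => ∑ σ, w σ η) (mag w i) t c ^ 2 ∂cascLaw ν r n) -
        20 * (Real.sqrt δ * (N * (fieldLen ρ * a))) ^ 3 ≤
      ∫ e, ∫ t, Real.log (cascMean m n (fieldY δ a ρ w e) t) ∂cascLaw (ν.prod (gam (Fin N))) r n
        ∂gam (Fin N) := by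
  set M := Real.sqrt δ * (N * (fieldLen ρ * a))
  set W : (Fin r → β) → ℝ := fun η => ∑ σ, w σ η
  have hW : Bdd (Fintype.card (Cube N) * C) W := bdd_sum hw
  set H : (Fin N → ℝ) × CascTree (β × (Fin N → ℝ)) r n → ℝ := fun z =>
    Real.log (cascMean m n (fieldY δ a ρ w z.1) z.2)
  have hHm : Measurable H :=
    ((measurable_cascSum_param m n (measurable_fieldY δ a ρ hw)).div (measurable_cascSum_param m n
      (Y := fun _ _ => (1 : ℝ)) measurable_const)).log
  have hH : Integrable H ((gam (Fin N)).prod (cascLaw (ν.prod (gam (Fin N))) r n)) := by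
    refine Integrable.of_bound hHm.aestronglyMeasurable
      |Real.log (Fintype.card (Cube N) * C * Real.exp M)| ?_
    filter_upwards [Measure.quasiMeasurePreserving_snd.ae
      (ae_good (ν.prod (gam (Fin N))) r n)] with z hz
    exact abs_log_cascMean_le (bdd_fieldY ha ρ hw z.1) m n hz
  have hmp := mp_rootAtt ν (gam (Fin N)) r n
  have hcomp : Integrable (fun z : CascTree β r n × (Option (Node r n) → Fin N → ℝ) =>
      H (z.2 none, att r n (z.1, fun c => z.2 (some c))))
      ((cascLaw ν r n).prod (Measure.pi fun _ => gam (Fin N))) :=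
    hmp.integrable_comp_of_integrable hH
  have hiW : Integrable (fun t => Real.log (cascMean m n W t)) (cascLaw ν r n) :=
    Integrable.of_bound ((measurable_cascSum m n hW.meas).div
      (measurable_cascSum m n measurable_const)).log.aestronglyMeasurable
      |Real.log (Fintype.card (Cube N) * C)|
      ((ae_good ν r n).mono fun t ht => abs_log_cascMean_le hW m n ht)
  have hiC : ∀ i, Integrable (fun t => ∑ c, comp m n ρ W (mag w i) t c ^ 2) (cascLaw ν r n) :=
    fun i => integrable_sumSq ν hn ρ hW (measurable_mag hw i)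
      fun η => (abs_mag_le hw i η).trans (hW.mem η).2
  rw [← integral_prod H hH, ← integral_mp hmp hHm, integral_prod _ hcomp,
    ← integral_finsetSum _ fun i _ => hiC i]
  have hiS := integrable_finsetSum Finset.univ fun i (_ : i ∈ Finset.univ) => hiC i
  have hsub : Integrable (fun t => svar a * δ / 2 * (N * ρ (Fin.last r) -
      ∑ i, ∑ c, comp m n ρ W (mag w i) t c ^ 2)) (cascLaw ν r n) :=
    ((integrable_const _).sub hiS).const_mul _
  have := integral_mono_ae (μ := cascLaw ν r n)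
    (f := fun t => Real.log (cascMean m n W t) + svar a * δ / 2 * (N * ρ (Fin.last r) -
      ∑ i, ∑ c, comp m n ρ W (mag w i) t c ^ 2) - 20 * M ^ 3)
    ((hiW.add hsub).sub (integrable_const _)) hcomp.integral_prod_left
    ((ae_good ν r n).mono fun t ht => field_tree hρ hρ0 hδ ha hw hM hn ht)
  rw [integral_sub (f := fun t => Real.log (cascMean m n W t) + svar a * δ / 2 *
      (N * ρ (Fin.last r) - ∑ i, ∑ c, comp m n ρ W (mag w i) t c ^ 2))
      (hiW.add hsub) (integrable_const _), integral_add hiW hsub, integral_const_mul,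
    integral_sub (integrable_const _) hiS] at this
  simp only [integral_const, probReal_univ, one_smul] at this
  exact this

/-- Inserting a small field. -/
theorem fieldStep (hT : TiltFactorStmt) {m : Fin r → ℝ} (hm : Exps m) {ρ : Fin (r + 1) → ℝ}
    (hρ : Monotone ρ) (hρ0 : 0 ≤ ρ 0) {δ a C : ℝ} (hδ : 0 ≤ δ) (ha : 0 ≤ a)
    {w : Cube N → (Fin r → β) → ℝ} (hw : WBdd C w)
    (hM : Real.sqrt δ * (N * (fieldLen ρ * a)) ≤ 1 / 10) :
    Phi ν m w + svar a * δ / 2 * (N * (ρ (Fin.last r) -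
          ∑ p : Fin (r + 1), weight m p * (ρ p * bVal ν m w p))) -
        20 * (Real.sqrt δ * (N * (fieldLen ρ * a))) ^ 3 ≤
      ∫ e, Phi (ν.prod (gam (Fin N))) m (tens w (fieldZ δ a ρ e)) ∂gam (Fin N) := by
  set M := Real.sqrt δ * (N * (fieldLen ρ * a))
  set W : (Fin r → β) → ℝ := fun η => ∑ σ, w σ η
  have hW : Bdd (Fintype.card (Cube N) * C) W := bdd_sum hw
  have limR := tendsto_integral_logMean (ν := ν.prod (gam (Fin N))) (gam (Fin N)) hm
    (measurable_fieldY δ a ρ hw) (bdd_fieldY ha ρ hw)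
  have limW := cascadeLog β ν r m hm.pos hm.lt_one hm.mono W _ hW.pos hW.meas hW.mem
  have limS := tendsto_finsetSum Finset.univ fun i (_ : i ∈ Finset.univ) =>
    tendsto_sumSq hT ν hm hρ hρ0 hW (measurable_mag hw i) hW.pos.le
      fun η => (abs_mag_le hw i η).trans (hW.mem η).2
  have eS : ∑ i, ∑ p : Fin (r + 1), weight m p * (ρ p * pairM ν m W (mag w i) (mag w i) p) =
      N * ∑ p : Fin (r + 1), weight m p * (ρ p * bVal ν m w p) := by
    rw [Finset.sum_comm, Finset.mul_sum]
    refine Finset.sum_congr rfl fun p _ => ?_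
    rw [← Finset.mul_sum, ← Finset.mul_sum, bVal]
    rcases Nat.eq_zero_or_pos N with h | h
    · subst h; simp
    · have : (0 : ℝ) < N := by exact_mod_cast h
      field_simp
      rfl
  rw [eS] at limS
  have limL := ((limW.add ((limS.const_sub ((N : ℝ) * ρ (Fin.last r))).const_mul
    (svar a * δ / 2))).sub_const (20 * M ^ 3))
  rw [← mul_sub] at limL
  have := cascFilter_neBot r
  exact le_of_tendsto_of_tendsto limL limR
    ((eventually_pos r).mono fun n hn => field_fin ν hρ hρ0 hδ ha hw hM hn)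

end Vale.Agent.P157.Parisi.Up
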