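import Vale.Agent.P157.Parisi.Upper.Swap
import Vale.Agent.P157.Parisi.Upper.Field

/-!
Exchanging all patterns for fields, slot by slot.
-/

noncomputable section

open MeasureTheory ProbabilityTheory Filter
open scoped BigOperators Topology

namespace Vale.Agent.P157.Parisi.Up

open Vale.Agent.P168 (genNested)
open Vale.Agent.P168.Cascade
open Vale.Agent.P168.Upper (integral_mp measurable_genNested genNested_map genNested_prod)

variable {r N : ℕ}

/-- Weights depending measurably on a parameter. -/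
def MeasW {P β : Type} [MeasurableSpace P] [MeasurableSpace β]
    (W : P → Cube N → (Fin r → β) → ℝ) : Prop :=
  ∀ σ, Measurable fun z : P × (Fin r → β) => W z.1 σ z.2

section basic

variable {β : Type} [MeasurableSpace β]

lemma measurable_Phi (ν : Measure β) [IsProbabilityMeasure ν] (m : Fin r → ℝ) {P : Type}
    [MeasurableSpace P] {W : P → Cube N → (Fin r → β) → ℝ} (hW : MeasW W) :
    Measurable fun p => Phi ν m (W p) :=
  (measurable_genNested ν m (fun p η => ∑ σ, W p σ η)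
    (Finset.measurable_sum _ fun σ _ => hW σ)).log

lemma abs_Phi_le' (ν : Measure β) [IsProbabilityMeasure ν] {m : Fin r → ℝ} (hm : Exps m) {C : ℝ}
    {w : Cube N → (Fin r → β) → ℝ} (hw : WBdd C w) :
    |Phi ν m w| ≤ |Real.log (Fintype.card (Cube N) * C)| := by
  have hW := bdd_sum hw
  have h := genNested_mem ν hW.pos hm hW.meas hW.mem
  exact abs_log_le hW.pos h.1 h.2

lemma wbdd_patU {f : ℝ → ℝ} {A C : ℝ} (hs : Smooth f A) {w : Cube N → (Fin r → β) → ℝ}
    (hw : WBdd C w) (g : Fin N → ℝ) :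
    WBdd (C * Real.exp A) fun σ η => w σ η * patU f g σ := fun σ =>
  ⟨mul_pos (hw σ).pos (Real.exp_pos _), (hw σ).meas.mul_const _, fun η => ⟨by
    rw [mul_inv, ← Real.exp_neg]
    exact mul_le_mul ((hw σ).mem η).1 (Real.exp_le_exp.2 (abs_le.1 (hs.b0 _)).1) (Real.exp_pos _).le
      ((hw σ).gt_zero η).le,
    mul_le_mul ((hw σ).mem η).2 (Real.exp_le_exp.2 (abs_le.1 (hs.b0 _)).2) (Real.exp_pos _).le
      (hw σ).pos.le⟩⟩

/-- The bound on one field. -/
def fieldM (δ a : ℝ) (N : ℕ) (ρ : Fin (r + 1) → ℝ) : ℝ := Real.sqrt δ * (N * (fieldLen ρ * a))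

lemma wbdd_field {C δ a : ℝ} (ha : 0 ≤ a) (ρ : Fin (r + 1) → ℝ) {w : Cube N → (Fin r → β) → ℝ}
    (hw : WBdd C w) (e : Fin N → ℝ) :
    WBdd (C * Real.exp (fieldM δ a N ρ)) (tens w (fieldZ δ a ρ e)) := fun σ => by
  refine ⟨mul_pos (hw σ).pos (Real.exp_pos _), ?_, fun η => ⟨?_, ?_⟩⟩
  · refine Measurable.mul ((hw σ).meas.comp (measurable_pi_lambda _ fun i =>
      (measurable_pi_apply i).fst)) ?_
    exact Measurable.comp (g := fun q : (Fin N → ℝ) × (Fin r → Fin N → ℝ) => fieldZ δ a ρ q.1 σ q.2)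
      (f := fun η : Fin r → β × (Fin N → ℝ) => (e, fun i => (η i).2))
      (measurable_fieldZ δ a ρ σ)
      (measurable_const.prodMk (measurable_pi_lambda _ fun i => (measurable_pi_apply i).snd))
  · rw [mul_inv, ← Real.exp_neg]
    exact mul_le_mul ((hw σ).mem _).1
      (Real.exp_le_exp.2 (abs_le.1 (abs_fieldX_le ha ρ e σ _)).1) (Real.exp_pos _).le
      ((hw σ).gt_zero _).le
  · exact mul_le_mul ((hw σ).mem _).2
      (Real.exp_le_exp.2 (abs_le.1 (abs_fieldX_le ha ρ e σ _)).2) (Real.exp_pos _).le (hw σ).pos.le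

lemma measW_patU {f : ℝ → ℝ} {A : ℝ} (hs : Smooth f A) {P : Type} [MeasurableSpace P]
    {W : P → Cube N → (Fin r → β) → ℝ} (hW : MeasW W) :
    MeasW fun (z : P × (Fin N → ℝ)) σ η => W z.1 σ η * patU f z.2 σ := fun σ => by
  refine Measurable.mul ?_ (((continuous_of_smooth hs).measurable.comp (measurable_dot.comp
    ((measurable_snd.comp measurable_fst).prodMk measurable_const))).exp)
  exact Measurable.comp (g := fun q : P × (Fin r → β) => W q.1 σ q.2)
    (f := fun z : (P × (Fin N → ℝ)) × (Fin r → β) => (z.1.1, z.2)) (hW σ)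
    ((measurable_fst.comp measurable_fst).prodMk measurable_snd)

lemma measW_field (δ a : ℝ) (ρ : Fin (r + 1) → ℝ) {P : Type} [MeasurableSpace P]
    {W : P → Cube N → (Fin r → β) → ℝ} (hW : MeasW W) :
    MeasW fun (z : P × (Fin N → ℝ)) => tens (W z.1) (fieldZ δ a ρ z.2) := fun σ => by
  refine Measurable.mul ?_ ?_
  · exact Measurable.comp (g := fun q : P × (Fin r → β) => W q.1 σ q.2)
      (f := fun z : (P × (Fin N → ℝ)) × (Fin r → β × (Fin N → ℝ)) =>
        (z.1.1, fun i => (z.2 i).1)) (hW σ)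
      ((measurable_fst.comp measurable_fst).prodMk
        (measurable_pi_lambda _ fun i => ((measurable_pi_apply i).comp measurable_snd).fst))
  · exact Measurable.comp
      (g := fun q : (Fin N → ℝ) × (Fin r → Fin N → ℝ) => fieldZ δ a ρ q.1 σ q.2)
      (f := fun z : (P × (Fin N → ℝ)) × (Fin r → β × (Fin N → ℝ)) =>
        (z.1.2, fun i => (z.2 i).2)) (measurable_fieldZ δ a ρ σ)
      ((measurable_snd.comp measurable_fst).prodMk
        (measurable_pi_lambda _ fun i => ((measurable_pi_apply i).comp measurable_snd).snd))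

lemma measW_const {C : ℝ} {w : Cube N → (Fin r → β) → ℝ} (hw : WBdd C w) {P : Type}
    [MeasurableSpace P] : MeasW fun _ : P => w := fun σ => (hw σ).meas.comp measurable_snd

end basic

/-- The free energy after inserting `j` fields. -/
def fields (δ a : ℝ) (m : Fin r → ℝ) (ρ : Fin (r + 1) → ℝ) :
    (j : ℕ) → (β : Type) → [MeasurableSpace β] → Measure β → (Cube N → (Fin r → β) → ℝ) → ℝ
  | 0, _, _, ν, w => Phi ν m w
  | j + 1, β, _, ν, w => ∫ e, fields δ a m ρ j (β × (Fin N → ℝ)) (ν.prod (gam (Fin N)))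
      (tens w (fieldZ δ a ρ e)) ∂gam (Fin N)

/-- The free energy with `j` slots, each carrying a pattern with probability `ε`. -/
def slots {β : Type} [MeasurableSpace β] (ε : ℝ) (f : ℝ → ℝ) (ν : Measure β) (m : Fin r → ℝ) :
    ℕ → (Cube N → (Fin r → β) → ℝ) → ℝ
  | 0, w => Phi ν m w
  | j + 1, w => ε * (∫ g, slots ε f ν m j (fun σ η => w σ η * patU f g σ) ∂gam (Fin N)) +
      (1 - ε) * slots ε f ν m j w

lemma measurable_fields (δ a : ℝ) (m : Fin r → ℝ) (ρ : Fin (r + 1) → ℝ) :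
    ∀ (j : ℕ) (β : Type) [MeasurableSpace β] (ν : Measure β) [IsProbabilityMeasure ν]
      (P : Type) [MeasurableSpace P] (W : P → Cube N → (Fin r → β) → ℝ), MeasW W →
      Measurable fun p => fields δ a m ρ j β ν (W p)
  | 0, _, _, ν, _, _, _, _, hW => measurable_Phi ν m hW
  | j + 1, β, _, ν, _, P, _, W, hW =>
    ((measurable_fields δ a m ρ j (β × (Fin N → ℝ)) (ν.prod (gam (Fin N))) (P × (Fin N → ℝ))
      (fun z => tens (W z.1) (fieldZ δ a ρ z.2))
      (measW_field δ a ρ hW)).stronglyMeasurable.integral_prod_right' (ν := gam (Fin N))).measurable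

lemma abs_fields_le {δ a : ℝ} (ha : 0 ≤ a) {m : Fin r → ℝ} (hm : Exps m) (ρ : Fin (r + 1) → ℝ) :
    ∀ (j : ℕ) (β : Type) [MeasurableSpace β] (ν : Measure β) [IsProbabilityMeasure ν] (C : ℝ)
      (w : Cube N → (Fin r → β) → ℝ), WBdd C w → |fields δ a m ρ j β ν w| ≤
        |Real.log (Fintype.card (Cube N) * (C * Real.exp (fieldM δ a N ρ) ^ j))|
  | 0, _, _, ν, _, C, w, hw => by simpa [fields] using abs_Phi_le' ν hm hw
  | j + 1, β, _, ν, _, C, w, hw => by
    have h := norm_integral_le_of_norm_le_const (μ := gam (Fin N))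
      (f := fun e => fields δ a m ρ j (β × (Fin N → ℝ)) (ν.prod (gam (Fin N)))
        (tens w (fieldZ δ a ρ e)))
      (C := |Real.log (Fintype.card (Cube N) *
        (C * Real.exp (fieldM δ a N ρ) * Real.exp (fieldM δ a N ρ) ^ j))|)
      (Eventually.of_forall fun e =>
        abs_fields_le ha hm ρ j _ (ν.prod (gam (Fin N))) _ _ (wbdd_field ha ρ hw e))
    rw [pow_succ', ← mul_assoc C]
    simpa [fields] using h

lemma measurable_slots {f : ℝ → ℝ} {A : ℝ} (hs : Smooth f A) {β : Type} [MeasurableSpace β]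
    (ν : Measure β) [IsProbabilityMeasure ν] (ε : ℝ) (m : Fin r → ℝ) :
    ∀ (j : ℕ) {P : Type} [MeasurableSpace P] (W : P → Cube N → (Fin r → β) → ℝ), MeasW W →
      Measurable fun p => slots ε f ν m j (W p)
  | 0, _, _, _, hW => measurable_Phi ν m hW
  | j + 1, P, _, W, hW =>
    (((measurable_slots hs ν ε m j (fun (z : P × (Fin N → ℝ)) σ η => W z.1 σ η * patU f z.2 σ)
      (measW_patU hs hW)).stronglyMeasurable.integral_prod_right'
        (ν := gam (Fin N))).measurable.const_mul ε).add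
      ((measurable_slots hs ν ε m j W hW).const_mul (1 - ε))

lemma exists_slots_bound {f : ℝ → ℝ} {A : ℝ} (hs : Smooth f A) {m : Fin r → ℝ} (hm : Exps m)
    {β : Type} [MeasurableSpace β] (ν : Measure β) [IsProbabilityMeasure ν] (ε : ℝ) :
    ∀ (j : ℕ) (C : ℝ), ∃ K, ∀ w : Cube N → (Fin r → β) → ℝ, WBdd C w → |slots ε f ν m j w| ≤ K
  | 0, C => ⟨_, fun w hw => abs_Phi_le' ν hm hw⟩
  | j + 1, C => by
    obtain ⟨K₁, h₁⟩ := exists_slots_bound hs hm ν ε j (C * Real.exp A)
    obtain ⟨K₀, h₀⟩ := exists_slots_bound hs hm ν ε j C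
    refine ⟨|ε| * K₁ + |1 - ε| * K₀, fun w hw => ?_⟩
    simp only [slots]
    refine (abs_add_le _ _).trans (add_le_add ?_ ?_)
    · rw [abs_mul]
      refine mul_le_mul_of_nonneg_left ?_ (abs_nonneg _)
      have := norm_integral_le_of_norm_le_const (μ := gam (Fin N))
        (f := fun g => slots ε f ν m j fun σ η => w σ η * patU f g σ) (C := K₁)
        (Eventually.of_forall fun g => h₁ _ (wbdd_patU hs hw g))
      simpa using this
    · rw [abs_mul]
      exact mul_le_mul_of_nonneg_left (h₀ w hw) (abs_nonneg _)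

variable {ξ : Path} {f : ℝ → ℝ} {A : ℝ}

lemma measW_field_const {β : Type} [MeasurableSpace β] (δ a : ℝ) (ρ : Fin (r + 1) → ℝ) {C : ℝ}
    {w : Cube N → (Fin r → β) → ℝ} (hw : WBdd C w) :
    MeasW fun e => tens w (fieldZ δ a ρ e) := fun σ =>
  ((measW_field δ a ρ (measW_const hw (P := Unit))) σ).comp
    (((measurable_const (a := ())).prodMk measurable_fst).prodMk measurable_snd)

lemma measW_patU_const {f : ℝ → ℝ} {A : ℝ} (hs : Smooth f A) {β : Type} [MeasurableSpace β] {C : ℝ}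
    {w : Cube N → (Fin r → β) → ℝ} (hw : WBdd C w) :
    MeasW fun g σ η => w σ η * patU f g σ := fun σ =>
  ((measW_patU hs (measW_const hw (P := Unit))) σ).comp
    (((measurable_const (a := ())).prodMk measurable_fst).prodMk measurable_snd)

lemma integrable_fields {β : Type} [MeasurableSpace β] (ν : Measure β) [IsProbabilityMeasure ν]
    {δ a : ℝ} (ha : 0 ≤ a) {m : Fin r → ℝ} (hm : Exps m) (ρ : Fin (r + 1) → ℝ) (j : ℕ) {P : Type}
    [MeasurableSpace P] (μ : Measure P) [IsFiniteMeasure μ]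
    {W : P → Cube N → (Fin r → β) → ℝ} (hW : MeasW W) {C : ℝ} (hb : ∀ p, WBdd C (W p)) :
    Integrable (fun p => fields δ a m ρ j β ν (W p)) μ :=
  integrable_bdd (measurable_fields δ a m ρ j β ν P W hW)
    fun p => abs_fields_le ha hm ρ j β ν C (W p) (hb p)

/-- Mixing a pattern in under one more field. -/
lemma fields_succ_mix {f : ℝ → ℝ} {A : ℝ} (hs : Smooth f A) {β : Type} [MeasurableSpace β]
    (ν : Measure β) [IsProbabilityMeasure ν] {δ a : ℝ} (ha : 0 ≤ a) {m : Fin r → ℝ} (hm : Exps m)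
    (ρ : Fin (r + 1) → ℝ) (ε : ℝ) (j : ℕ) {C : ℝ} {w : Cube N → (Fin r → β) → ℝ} (hw : WBdd C w) :
    (ε * (∫ g, fields δ a m ρ (j + 1) β ν (fun σ η => w σ η * patU f g σ) ∂gam (Fin N)) +
        (1 - ε) * fields δ a m ρ (j + 1) β ν w =
      ∫ e, (ε * (∫ g, fields δ a m ρ j (β × (Fin N → ℝ)) (ν.prod (gam (Fin N)))
            (fun σ η => tens w (fieldZ δ a ρ e) σ η * patU f g σ) ∂gam (Fin N)) +
          (1 - ε) * fields δ a m ρ j (β × (Fin N → ℝ)) (ν.prod (gam (Fin N)))
            (tens w (fieldZ δ a ρ e))) ∂gam (Fin N)) ∧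
    Integrable (fun e => ε * (∫ g, fields δ a m ρ j (β × (Fin N → ℝ)) (ν.prod (gam (Fin N)))
            (fun σ η => tens w (fieldZ δ a ρ e) σ η * patU f g σ) ∂gam (Fin N)) +
          (1 - ε) * fields δ a m ρ j (β × (Fin N → ℝ)) (ν.prod (gam (Fin N)))
            (tens w (fieldZ δ a ρ e))) (gam (Fin N)) := by
  set ν' := ν.prod (gam (Fin N))
  have hWe := measW_field_const δ a ρ hw
  have hi : Integrable (fun z : (Fin N → ℝ) × (Fin N → ℝ) => fields δ a m ρ j (β × (Fin N → ℝ)) ν'
      fun σ η => tens w (fieldZ δ a ρ z.1) σ η * patU f z.2 σ)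
      ((gam (Fin N)).prod (gam (Fin N))) :=
    integrable_fields ν' ha hm ρ j _ (measW_patU hs hWe)
      fun z => wbdd_patU hs (wbdd_field ha ρ hw z.1) z.2
  have hi' : Integrable (fun e => ∫ g, fields δ a m ρ j (β × (Fin N → ℝ)) ν'
      (fun σ η => tens w (fieldZ δ a ρ e) σ η * patU f g σ) ∂gam (Fin N)) (gam (Fin N)) :=
    hi.integral_prod_left
  have hH : Integrable (fun e => fields δ a m ρ j (β × (Fin N → ℝ)) ν' (tens w (fieldZ δ a ρ e)))
      (gam (Fin N)) := integrable_fields ν' ha hm ρ j _ hWe (wbdd_field ha ρ hw)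
  refine ⟨?_, (hi'.const_mul ε).add (hH.const_mul (1 - ε))⟩
  have e1 : ∀ g e, tens (fun σ η => w σ η * patU f g σ) (fieldZ δ a ρ e) =
      fun σ η => tens w (fieldZ δ a ρ e) σ η * patU f g σ := fun g e => by
    funext σ η
    simp only [tens]
    ring
  have e2 : ∀ g, fields δ a m ρ (j + 1) β ν (fun σ η => w σ η * patU f g σ) =
      ∫ e, fields δ a m ρ j (β × (Fin N → ℝ)) ν'
        (fun σ η => tens w (fieldZ δ a ρ e) σ η * patU f g σ) ∂gam (Fin N) := fun g => by
    simp only [fields, e1, ν']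
  have e3 : fields δ a m ρ (j + 1) β ν w =
      ∫ e, fields δ a m ρ j (β × (Fin N → ℝ)) ν' (tens w (fieldZ δ a ρ e)) ∂gam (Fin N) := rfl
  simp only [e2]
  rw [e3, ← integral_integral_swap hi, ← integral_const_mul, ← integral_const_mul,
    ← integral_add (hi'.const_mul ε) (hH.const_mul (1 - ε))]

/-- The value of a fresh pattern. -/
lemma integral_Phi_pat (hB : BridgeStmt) (hs : Smooth f A) {β : Type} [MeasurableSpace β]
    (ν : Measure β) [IsProbabilityMeasure ν] (hm : Exps ξ.m) {C : ℝ}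
    {w : Cube N → (Fin ξ.r → β) → ℝ} (hw : WBdd C w) :
    ∫ g₀, Phi (ν.prod (gam (Fin 1))) ξ.m (tens w fun _ => leafY ξ f g₀) ∂gam (Fin 1) =
      Phi ν ξ.m w + patValue f ξ.m ξ.q := by
  set δ := 1 - ξ.q (Fin.last ξ.r)
  set φ := ξ.top f with hφ
  have hφb : ∀ x, |φ x| ≤ A := fun x => by
    obtain ⟨h1, h2⟩ := avgExp_mem hs δ x
    have hpos := (Real.exp_pos _).trans_le h1
    exact abs_le.2 ⟨(Real.le_log_iff_exp_le hpos).2 h1, (Real.log_le_iff_le_exp hpos).2 h2⟩
  have hφc : Continuous φ := by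
    have hc : Continuous fun x => avgExp f δ x :=
      continuous_of_dominated
        (fun x => ((Real.continuous_exp.comp ((continuous_of_smooth hs).comp
          (by fun_prop : Continuous fun η => x + Real.sqrt δ * η))).aestronglyMeasurable))
        (fun x => Eventually.of_forall fun η => by
          rw [Real.norm_eq_abs, Real.abs_exp]; exact Real.exp_le_exp.2 (le_of_abs_le (hs.b0 _)))
        (integrable_const (Real.exp A))
        (Eventually.of_forall fun η => Real.continuous_exp.comp ((continuous_of_smooth hs).comp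
          (by fun_prop)))
    exact hc.log fun x => ((Real.exp_pos _).trans_le (avgExp_mem hs δ x).1).ne'
  let V : ℝ → ℝ := fun g => level ξ.m ξ.q φ 0 (Real.sqrt (ξ.q 0) * g)
  have hY : Measurable fun z : ℝ × (Fin ξ.r → ℝ) => Real.exp (φ (pathField ξ.q z.1 z.2)) :=
    (hφc.measurable.comp (measurable_pathField ξ.q)).exp
  have hgauss : ∀ g₀ : Fin 1 → ℝ, genNested (gam (Fin 1)) ξ.m (leafY ξ f g₀) =
      Real.exp (V (g₀ 0)) := fun g₀ => by
    have e := genNested_map (gam (Fin 1)) (gaussianReal 0 1)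
      (measurePreserving_eval (fun _ : Fin 1 => gaussianReal 0 1) 0) ξ.m
      (fun η => Real.exp (φ (pathField ξ.q (g₀ 0) η)))
      (hY.comp (measurable_const.prodMk measurable_id))
    have h := (hB ξ.r ξ.m ξ.q ξ.isPath φ φ A hφc hφc hφb hφb (g₀ 0) fun _ => 0).1
    rw [← h, ← e]
    congr 1
    funext ω
    simp only [leafY, Fin.prod_univ_one, hφ, Function.eval]
  have hVm : Measurable V := by
    have h1 := (measurable_genNested (gaussianReal 0 1) ξ.m
      (fun g η => Real.exp (φ (pathField ξ.q g η))) hY).log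
    have : (fun g => Real.log (genNested (gaussianReal 0 1) ξ.m
        fun η => Real.exp (φ (pathField ξ.q g η)))) = V := funext fun g => by
      rw [(hB ξ.r ξ.m ξ.q ξ.isPath φ φ A hφc hφc hφb hφb g fun _ => 0).1, Real.log_exp]
    rwa [this] at h1
  have hVb : ∀ g₀ : Fin 1 → ℝ, |V (g₀ 0)| ≤ |Real.log (Real.exp A)| := fun g₀ => by
    have h := genNested_mem (gam (Fin 1)) (Real.exp_pos A) hm (bdd_leafY hs g₀).meas
      (bdd_leafY hs g₀).mem
    rw [hgauss g₀] at h
    simpa using abs_log_le (Real.exp_pos A) h.1 h.2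
  have hW := bdd_sum hw
  have e : ∀ g₀, Phi (ν.prod (gam (Fin 1))) ξ.m (tens w fun _ => leafY ξ f g₀) =
      Phi ν ξ.m w + V (g₀ 0) := fun g₀ => by
    simp only [Phi, sum_tens_const]
    rw [genNested_prod ν (gam (Fin 1)) ξ.m (fun η => ∑ σ, w σ η) (leafY ξ f g₀)
      (fun η => (hW.gt_zero η).le) (fun η => ((bdd_leafY hs g₀).gt_zero η).le), hgauss,
      Real.log_mul ((inv_pos.2 hW.pos).trans_le (genNested_mem ν hW.pos hm hW.meas hW.mem).1).ne'
        (Real.exp_pos _).ne', Real.log_exp]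
  simp only [e]
  rw [integral_add (integrable_const _)
    (integrable_bdd (F := fun g₀ : Fin 1 → ℝ => V (g₀ 0)) (hVm.comp (measurable_pi_apply 0)) hVb),
    integral_const, probReal_univ, one_smul,
    integral_mp (measurePreserving_eval (fun _ : Fin 1 => gaussianReal 0 1) 0) hVm]
  rfl

/-- The cost of one slot. -/
def stepC (ξ : Path) (f : ℝ → ℝ) (A α a : ℝ) (L N : ℕ) : ℝ :=
  α * N / L * patValue f ξ.m ξ.q +
    α * N / L / 2 * (∑ p : Fin (ξ.r + 1), weight ξ.m p * (slope f ξ.m ξ.q p * ξ.q p) -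
      slope f ξ.m ξ.q (Fin.last ξ.r)) +
    α * N / L * (1 - svar a) * A ^ 2 +
    20 * fieldM (1 / (L : ℝ)) a N (fun p => α * slope f ξ.m ξ.q p) ^ 3

/-- The hypotheses on the parameters. -/
structure Params (ξ : Path) (f : ℝ → ℝ) (A α a : ℝ) (L N : ℕ) : Prop where
  smooth : Smooth f A
  concave : BlockConcave f
  posα : 0 < α
  nonneg : 0 ≤ a
  posL : 0 < L
  posN : 0 < N
  prob : α * N / L ≤ 1
  small : fieldM (1 / (L : ℝ)) a N (fun p => α * slope f ξ.m ξ.q p) ≤ 1 / 10

variable {α a : ℝ} {L : ℕ} (hT : TiltFactorStmt) (hTS : TreeShapeStmt) (hSl : SlopeStmt)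
  (hB : BridgeStmt) (h : Params ξ f A α a L N)

include hT hTS hSl hB h

/-- One slot. -/
lemma step_zero (hm : Exps ξ.m) {β : Type} [MeasurableSpace β] (ν : Measure β)
    [IsProbabilityMeasure ν] {C : ℝ} {w : Cube N → (Fin ξ.r → β) → ℝ} (hw : WBdd C w) :
    α * N / L * (∫ g, Phi ν ξ.m (fun σ η => w σ η * patU f g σ) ∂gam (Fin N)) +
        (1 - α * N / L) * Phi ν ξ.m w ≤
      stepC ξ f A α a L N + ∫ e, Phi (ν.prod (gam (Fin N))) ξ.m
        (tens w (fieldZ (1 / (L : ℝ)) a (fun p => α * slope f ξ.m ξ.q p) e)) ∂gam (Fin N) := by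
  obtain ⟨hmono, hsl⟩ := hSl f A h.smooth ξ
  have hL : (0 : ℝ) < L := by exact_mod_cast h.posL
  set ε := α * N / L with hε
  have hε0 : 0 ≤ ε := by have := h.posα; positivity
  set c : Fin (ξ.r + 1) → ℝ := fun p => slope f ξ.m ξ.q p
  set b : Fin (ξ.r + 1) → ℝ := bVal ν ξ.m w
  have T1 := swapStep ν hT hTS hSl h.smooth h.concave h.posN hm hw
  rw [integral_Phi_pat hB h.smooth ν hm hw] at T1
  have T2 := fieldStep ν hT hm (ρ := fun p => α * c p)
    (fun p q hpq => mul_le_mul_of_nonneg_left (hmono hpq) h.posα.le)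
    (mul_nonneg h.posα.le (hsl 0).1) (δ := 1 / (L : ℝ)) (by positivity) h.nonneg hw h.small
  set D := ∑ p : Fin (ξ.r + 1), weight ξ.m p * (c p * ξ.q p)
  set E := ∑ p : Fin (ξ.r + 1), weight ξ.m p * (c p * b p)
  have e1 : ∑ p : Fin (ξ.r + 1), weight ξ.m p * (c p * (ξ.q p - b p)) = D - E := by
    simp only [D, E, ← Finset.sum_sub_distrib]
    exact Finset.sum_congr rfl fun p _ => by ring
  have e2 : svar a * (1 / (L : ℝ)) / 2 * (N * (α * c (Fin.last ξ.r) -
      ∑ p : Fin (ξ.r + 1), weight ξ.m p * (α * c p * b p))) =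
      ε * svar a / 2 * (c (Fin.last ξ.r) - E) := by
    have : ∑ p : Fin (ξ.r + 1), weight ξ.m p * (α * c p * b p) = α * E := by
      simp only [E, Finset.mul_sum]
      exact Finset.sum_congr rfl fun p _ => by ring
    rw [this, hε]
    ring
  simp only [c, b] at e1 e2
  rw [e1] at T1
  rw [e2] at T2
  have hA2 : ∀ p, c p ≤ A ^ 2 := fun p => (hsl p).2.2.1.trans (hsl p).2.2.2
  have hE : -E ≤ A ^ 2 := by
    calc -E = ∑ p : Fin (ξ.r + 1), weight ξ.m p * (c p * -b p) := by
          simp only [E, mul_neg, Finset.sum_neg_distrib]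
      _ ≤ ∑ p : Fin (ξ.r + 1), weight ξ.m p * A ^ 2 := Finset.sum_le_sum fun p _ => by
          refine mul_le_mul_of_nonneg_left ?_ (weight_nonneg hm p)
          calc c p * -b p ≤ c p * 1 := mul_le_mul_of_nonneg_left
                ((neg_le_abs _).trans (abs_bVal_le ν hm hw p)) (hsl p).1
            _ ≤ A ^ 2 := by rw [mul_one]; exact hA2 p
      _ = A ^ 2 := by rw [← Finset.sum_mul, sum_weight, one_mul]
  have hs1 := svar_le_one h.nonneg
  have hrem : ε * (1 - svar a) / 2 * (c (Fin.last ξ.r) - E) ≤ ε * (1 - svar a) * A ^ 2 := by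
    have h0 : 0 ≤ ε * (1 - svar a) := mul_nonneg hε0 (by linarith)
    have := hA2 (Fin.last ξ.r)
    nlinarith
  have T1' := mul_le_mul_of_nonneg_left T1 hε0
  simp only [stepC, ← hε]
  simp only [D, E, c, b] at *
  simp only [fieldM] at *
  nlinarith

/-- One slot in front of `j` fields. -/
lemma step_fields (hm : Exps ξ.m) : ∀ (j : ℕ) (β : Type) [MeasurableSpace β] (ν : Measure β)
    [IsProbabilityMeasure ν] (C : ℝ) (w : Cube N → (Fin ξ.r → β) → ℝ), WBdd C w →
    α * N / L * (∫ g, fields (1 / (L : ℝ)) a ξ.m (fun p => α * slope f ξ.m ξ.q p) j β ν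
        (fun σ η => w σ η * patU f g σ) ∂gam (Fin N)) +
        (1 - α * N / L) *
          fields (1 / (L : ℝ)) a ξ.m (fun p => α * slope f ξ.m ξ.q p) j β ν w ≤
      stepC ξ f A α a L N +
        fields (1 / (L : ℝ)) a ξ.m (fun p => α * slope f ξ.m ξ.q p) (j + 1) β ν w
  | 0, β, _, ν, _, C, w, hw => step_zero hT hTS hSl hB h hm ν hw
  | j + 1, β, _, ν, _, C, w, hw => by
    obtain ⟨e, hi⟩ := fields_succ_mix h.smooth ν h.nonneg hm
      (fun p => α * slope f ξ.m ξ.q p) (α * N / L) j (δ := 1 / (L : ℝ)) hw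
    rw [e]
    have hKi := integrable_fields (ν.prod (gam (Fin N))) (δ := 1 / (L : ℝ)) h.nonneg hm
      (fun p => α * slope f ξ.m ξ.q p) (j + 1) (gam (Fin N))
      (measW_field_const (1 / (L : ℝ)) a (fun p => α * slope f ξ.m ξ.q p) hw)
      (wbdd_field h.nonneg _ hw)
    have hci : Integrable (fun _ : Fin N → ℝ => stepC ξ f A α a L N) (gam (Fin N)) :=
      integrable_const _
    refine (integral_mono hi (hci.add hKi) fun x =>
      step_fields hm j _ _ _ _ (wbdd_field h.nonneg _ hw x)).trans_eq ?_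
    simp only [Pi.add_apply]
    rw [integral_add hci hKi, integral_const, probReal_univ, one_smul]
    rfl

/-- All slots. -/
lemma slots_le (hm : Exps ξ.m) {β : Type} [MeasurableSpace β] (ν : Measure β)
    [IsProbabilityMeasure ν] : ∀ (j : ℕ) (C : ℝ) (w : Cube N → (Fin ξ.r → β) → ℝ), WBdd C w →
    slots (α * N / L) f ν ξ.m j w ≤ j * stepC ξ f A α a L N +
      fields (1 / (L : ℝ)) a ξ.m (fun p => α * slope f ξ.m ξ.q p) j β ν w
  | 0, C, w, _ => by simp [slots, fields]
  | j + 1, C, w, hw => by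
    set δ := 1 / (L : ℝ)
    set ρ := fun p => α * slope f ξ.m ξ.q p
    set ε := α * N / L
    have hε0 : 0 ≤ ε := by have := h.posα; positivity
    have hε1 : 0 ≤ 1 - ε := sub_nonneg.2 h.prob
    have hFi : Integrable (fun g => fields δ a ξ.m ρ j β ν fun σ η => w σ η * patU f g σ)
        (gam (Fin N)) := by
      exact integrable_fields ν h.nonneg hm ρ j _ (measW_patU_const h.smooth hw)
        (wbdd_patU h.smooth hw)
    have hSi : Integrable (fun g => slots ε f ν ξ.m j fun σ η => w σ η * patU f g σ)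
        (gam (Fin N)) := by
      obtain ⟨K, hK⟩ := exists_slots_bound h.smooth hm ν ε j (C * Real.exp A)
      exact integrable_bdd (measurable_slots h.smooth ν ε ξ.m j (P := Fin N → ℝ) _
        (measW_patU_const h.smooth hw)) fun g => hK _ (wbdd_patU h.smooth hw g)
    have hci : Integrable (fun _ : Fin N → ℝ => (j : ℝ) * stepC ξ f A α a L N) (gam (Fin N)) :=
      integrable_const _
    have h1 : ∫ g, slots ε f ν ξ.m j (fun σ η => w σ η * patU f g σ) ∂gam (Fin N) ≤
        j * stepC ξ f A α a L N +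
          ∫ g, fields δ a ξ.m ρ j β ν (fun σ η => w σ η * patU f g σ) ∂gam (Fin N) := by
      refine (integral_mono hSi (hci.add hFi) fun g =>
        slots_le hm ν j _ _ (wbdd_patU h.smooth hw g)).trans_eq ?_
      simp only [Pi.add_apply]
      rw [integral_add hci hFi, integral_const, probReal_univ, one_smul]
    have h2 := slots_le hm ν j C w hw
    have h3 := step_fields hT hTS hSl hB h hm j β ν C w hw
    simp only [slots]
    push_cast
    nlinarith [mul_le_mul_of_nonneg_left h1 hε0, mul_le_mul_of_nonneg_left h2 hε1]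

end Vale.Agent.P157.Parisi.Up
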