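import Vale.Agent.P157.Parisi.Upper.Weights
import Vale.Agent.P157.Parisi.Upper.Copies

/-!
One pattern exchanged for a fresh pattern in the cascade.
-/

noncomputable section

open MeasureTheory ProbabilityTheory Filter
open scoped BigOperators Topology

namespace Vale.Agent.P157.Parisi.Up

open Vale.Agent.P168 (Shape shapeMarks CascTree cascLaw cascSum cascMean cascFilter genNested)
open Vale.Agent.P168.Cascade
open Vale.Agent.P168.Upper (integral_mp mp_pi tendsto_integral_cascFilter cascFilter_neBot)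

variable {ξ : Path} {f : ℝ → ℝ} {A : ℝ} {β : Type}

/-- The derivative weight of a fresh pattern at a leaf. -/
def patD (ξ : Path) (f : ℝ → ℝ) (g₀ : Fin 1 → ℝ) (η : Fin ξ.r → Fin 1 → ℝ) : ℝ :=
  avgDExp f (1 - ξ.q (Fin.last ξ.r)) (pathField ξ.q (g₀ 0) fun p => η p 0)

lemma leafY_eq (hs : Smooth f A) (g₀ : Fin 1 → ℝ) (η : Fin ξ.r → Fin 1 → ℝ) :
    leafY ξ f g₀ η = avgExp f (1 - ξ.q (Fin.last ξ.r)) (pathField ξ.q (g₀ 0) fun p => η p 0) := by
  simp only [leafY, Fin.prod_univ_one, Path.top]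
  exact exp_topMean hs _ _

lemma measurable_field1 : Measurable fun z : (Fin 1 → ℝ) × (Fin ξ.r → Fin 1 → ℝ) =>
    pathField ξ.q (z.1 0) fun p => z.2 p 0 :=
  (measurable_pathField ξ.q).comp (f := fun z : (Fin 1 → ℝ) × (Fin ξ.r → Fin 1 → ℝ) =>
      (z.1 0, fun p => z.2 p 0)) (((measurable_pi_apply 0).comp measurable_fst).prodMk
    (measurable_pi_lambda _ fun p =>
      (measurable_pi_apply 0).comp ((measurable_pi_apply p).comp measurable_snd)))

lemma measurable_leafY (hs : Smooth f A) :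
    Measurable (Function.uncurry (leafY ξ f (k := 1))) := by
  have : Function.uncurry (leafY ξ f (k := 1)) = fun z =>
      avgExp f (1 - ξ.q (Fin.last ξ.r)) (pathField ξ.q (z.1 0) fun p => z.2 p 0) :=
    funext fun z => leafY_eq hs z.1 z.2
  rw [this]
  exact (measurable_avgExp hs _).comp measurable_field1

lemma measurable_patD (hs : Smooth f A) : Measurable (Function.uncurry (patD ξ f)) :=
  (measurable_avgDExp hs _).comp measurable_field1

lemma bdd_leafY (hs : Smooth f A) (g₀ : Fin 1 → ℝ) : Bdd (Real.exp A) (leafY ξ f g₀) :=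
  ⟨Real.exp_pos _, (measurable_leafY hs).comp (measurable_const.prodMk measurable_id), fun η => by
    rw [leafY_eq hs, ← Real.exp_neg]
    exact avgExp_mem hs _ _⟩

lemma bar_mul (hs : Smooth f A) (δ x : ℝ) :
    avgExp f δ x * bar f δ (deriv f) x = avgDExp f δ x := by
  rw [bar]
  change avgExp f δ x * (_ / avgExp f δ x) = _
  rw [mul_div_cancel₀ _ ((Real.exp_pos _).trans_le (avgExp_mem hs δ x).1).ne', avgDExp]
  exact integral_congr_ae (Eventually.of_forall fun η => mul_comm _ _)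

/-- The pair moments of a fresh pattern are the conjugate path. -/
lemma integral_pairM_pat (hTS : TreeShapeStmt) (hSl : SlopeStmt) (hs : Smooth f A)
    (p : Fin (ξ.r + 1)) :
    ∫ g₀, pairM (gam (Fin 1)) ξ.m (leafY ξ f g₀) (patD ξ f g₀) (patD ξ f g₀) p ∂gam (Fin 1) =
      slope f ξ.m ξ.q p := by
  set o : Fin 1 → Obs 2 := fun _ => ⟨0, 1, deriv f, deriv f⟩
  have hgood : ∀ j, (o j).Good := fun _ =>
    ⟨hs.d1.continuous, hs.d1.continuous, A, fun z => ⟨hs.b1 z, hs.b1 z⟩⟩
  have h := hTS f A hs ξ 1 2 o hgood (sh p) (isTree_sh p)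
  have hval : ∏ j, (o j).val ξ f (sh p) = slope f ξ.m ξ.q p := by
    simp only [o, Fin.prod_univ_one, Obs.val, Fin.zero_ne_one, if_false, sh_apply]
    exact ((hSl f A hs ξ).2 p).2.1.symm
  rw [← hval, ← h]
  refine integral_congr_ae (Eventually.of_forall fun g₀ => ?_)
  refine integral_congr_ae (Eventually.of_forall fun ω => ?_)
  simp only [integrand, Fin.prod_univ_two, Fin.prod_univ_one, Matrix.cons_val_zero,
    Matrix.cons_val_one, o, Obs.barAt, Fin.zero_ne_one, one_ne_zero, if_false, if_true, patD,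
    leafY_eq hs, bar_mul hs]

variable [MeasurableSpace β] {ν : Measure β} [IsProbabilityMeasure ν]

/-- Sums of squared components are bounded. -/
lemma sum_comp_sq_le {C B : ℝ} {r : ℕ} {m : Fin r → ℝ} {n : Fin r → ℕ} {q : Fin (r + 1) → ℝ}
    (hq : Monotone q) (h0 : 0 ≤ q 0) (h1 : q (Fin.last r) ≤ 1) {Y g : (Fin r → β) → ℝ}
    (hY : Bdd C Y) (hB : 0 ≤ B) (hg : ∀ ω, |g ω| ≤ B) {t : CascTree β r n}
    (ht : GoodTree r n t) : ∑ c, comp m n q Y g t c ^ 2 ≤ (C * B) * (C * B) := by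
  set S := cascSum r m n Y t
  set a : Leaf r n → ℝ := fun l => leafW r m n t l * g (leafMarks r n t l)
  have hb := abs_ratio_le' hY hB (g := fun _ => B) (fun _ => le_of_eq (abs_of_nonneg hB)) m n ht
  have ha : ∑ l, |a l| ≤ cascSum r m n (fun _ => B) t := by
    rw [cascSum_eq_sum_leaves]
    refine Finset.sum_le_sum fun l _ => ?_
    simp only [a, abs_mul, abs_of_pos (leafW_pos r m n t l ht)]
    exact mul_le_mul_of_nonneg_left (hg _) (leafW_pos r m n t l ht).le
  have hcs : ∀ c, (∑ l, a l * leafVec n q l c) ^ 2 ≤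
      (∑ l, |a l|) * ∑ l, |a l| * leafVec n q l c ^ 2 := fun c =>
    Finset.sum_sq_le_sum_mul_sum_of_sq_eq_mul _ (fun l _ => abs_nonneg _)
      (fun l _ => mul_nonneg (abs_nonneg _) (sq_nonneg _)) fun l _ => by
        rw [mul_pow, ← sq_abs (a l)]; ring
  have hsum : ∑ c, (∑ l, a l * leafVec n q l c) ^ 2 ≤ (∑ l, |a l|) * ∑ l, |a l| := by
    refine (Finset.sum_le_sum fun c _ => hcs c).trans ?_
    rw [← Finset.mul_sum, Finset.sum_comm]
    refine mul_le_mul_of_nonneg_left (Finset.sum_le_sum fun l _ => ?_)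
      (Finset.sum_nonneg fun l _ => abs_nonneg _)
    rw [← Finset.mul_sum, sum_leafVec_sq n hq h0]
    exact mul_le_of_le_one_right (abs_nonneg _) h1
  have e : ∀ c, comp m n q Y g t c = (∑ l, a l * leafVec n q l c) / S := fun c => by
    simp only [comp, a, S, mul_assoc]
  simp only [e, div_pow, ← Finset.sum_div]
  have hS : 0 ≤ cascSum r m n (fun _ => B) t := by
    rw [cascSum_eq_sum_leaves]
    exact Finset.sum_nonneg fun l _ => mul_nonneg (leafW_pos r m n t l ht).le hB
  calc (∑ c, (∑ l, a l * leafVec n q l c) ^ 2) / S ^ 2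
      ≤ (cascSum r m n (fun _ => B) t * cascSum r m n (fun _ => B) t) / S ^ 2 := by
        gcongr
        exact hsum.trans (mul_le_mul ha ha (Finset.sum_nonneg fun l _ => abs_nonneg _) hS)
    _ = |ratio m n Y (fun _ => B) t| * |ratio m n Y (fun _ => B) t| := by
        rw [abs_mul_abs_self, ratio, div_mul_div_comm, sq]
    _ ≤ _ := mul_le_mul hb hb (abs_nonneg _) ((abs_nonneg _).trans hb)

/-- Averages over a tree with a root variable, rearranged. -/
lemma integral_root {r : ℕ} (n : Fin r → ℕ)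
    {H : (Fin 1 → ℝ) × CascTree (β × (Fin 1 → ℝ)) r n → ℝ} (hH : Measurable H) {K : ℝ}
    (hb : ∀ g₀ t, GoodTree r n t → |H (g₀, t)| ≤ K) :
    Integrable (fun t => ∫ γ, H (fun _ => γ none, att r n (t, fun c _ => γ (some c)))
        ∂gam (Option (Node r n))) (cascLaw ν r n) ∧
      ∫ t, (∫ γ, H (fun _ => γ none, att r n (t, fun c _ => γ (some c)))
          ∂gam (Option (Node r n))) ∂cascLaw ν r n =
        ∫ g₀, ∫ t, H (g₀, t) ∂cascLaw (ν.prod (gam (Fin 1))) r n ∂gam (Fin 1) := by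
  have hf : MeasurePreserving (fun (x : ℝ) (_ : Fin 1) => x) (gaussianReal 0 1) (gam (Fin 1)) := by
    refine (congrArg (fun e => MeasurePreserving e _ _) ?_).mp
      (measurePreserving_funUnique (gaussianReal 0 1) (Fin 1)).symm
    funext x i
    simp
  have hmp : MeasurePreserving (fun z : CascTree β r n × (Option (Node r n) → ℝ) =>
      ((fun _ : Fin 1 => z.2 none), att r n (z.1, fun c (_ : Fin 1) => z.2 (some c))))
      ((cascLaw ν r n).prod (gam (Option (Node r n))))
      ((gam (Fin 1)).prod (cascLaw (ν.prod (gam (Fin 1))) r n)) :=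
    (mp_rootAtt ν (gam (Fin 1)) r n).comp ((MeasurePreserving.id _).prod (mp_pi hf))
  have hi : Integrable H ((gam (Fin 1)).prod (cascLaw (ν.prod (gam (Fin 1))) r n)) := by
    refine Integrable.of_bound hH.aestronglyMeasurable K ?_
    filter_upwards [Measure.quasiMeasurePreserving_snd.ae (ae_good (ν.prod (gam (Fin 1))) r n)]
      with z hz using hb z.1 z.2 hz
  have hc := hmp.integrable_comp_of_integrable hi
  refine ⟨hc.integral_prod_left, ?_⟩
  rw [← integral_prod H hi, ← integral_mp hmp hH]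
  exact (integral_prod _ hc).symm

variable (ν)

/-- The pattern weight of configurations. -/
def patU {N : ℕ} (f : ℝ → ℝ) (g : Fin N → ℝ) (σ : Cube N) : ℝ :=
  Real.exp (f (dot g (unitVec σ)))

/-- Weights with a fresh pattern. -/
def patY {N : ℕ} (ξ : Path) (f : ℝ → ℝ) (w : Cube N → (Fin ξ.r → β) → ℝ) (g₀ : Fin 1 → ℝ)
    (η : Fin ξ.r → β × (Fin 1 → ℝ)) : ℝ :=
  (∑ σ, w σ fun i => (η i).1) * leafY ξ f g₀ fun i => (η i).2

/-- An observable times the derivative weight of a fresh pattern. -/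
def patN (ξ : Path) (f : ℝ → ℝ) (G : (Fin ξ.r → β) → ℝ) (g₀ : Fin 1 → ℝ)
    (η : Fin ξ.r → β × (Fin 1 → ℝ)) : ℝ :=
  (G fun i => (η i).1) * patD ξ f g₀ fun i => (η i).2

/-- The difference of squared overlaps at a tree with a fresh pattern. -/
def swapTerm {N : ℕ} (ξ : Path) (f : ℝ → ℝ) (w : Cube N → (Fin ξ.r → β) → ℝ) (n : Fin ξ.r → ℕ)
    (z : (Fin 1 → ℝ) × CascTree (β × (Fin 1 → ℝ)) ξ.r n) : ℝ :=
  (∑ c, comp ξ.m n ξ.q (patY ξ f w z.1) (patN ξ f (fun η => ∑ σ, w σ η) z.1) z.2 c ^ 2) -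
    1 / (N : ℝ) * ∑ i, ratio ξ.m n (patY ξ f w z.1) (patN ξ f (mag w i) z.1) z.2 ^ 2

/-- The exchange on a finite tree. -/
lemma swap_tree (hs : Smooth f A) (hcv : BlockConcave f) {N : ℕ} (hN : 0 < N)
    {C : ℝ} {w : Cube N → (Fin ξ.r → β) → ℝ} (hw : WBdd C w) {n : Fin ξ.r → ℕ}
    (hn : ∀ i, 0 < n i) {t : CascTree β ξ.r n} (ht : GoodTree ξ.r n t) :
    (∫ g, Real.log (cascMean ξ.m n (fun η => ∑ σ, w σ η * patU f g σ) t) ∂gam (Fin N)) -
        ∫ γ, Real.log (cascMean ξ.m n
          (patY ξ f w fun _ : Fin 1 => γ none)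
          (att ξ.r n (t, fun c (_ : Fin 1) => γ (some c)))) ∂gam (Option (Node ξ.r n)) ≤
      1 / 2 * ∫ γ, swapTerm ξ f w n
        (fun _ : Fin 1 => γ none, att ξ.r n (t, fun c (_ : Fin 1) => γ (some c)))
        ∂gam (Option (Node ξ.r n)) := by
  set δ := 1 - ξ.q (Fin.last ξ.r)
  set W : (Fin ξ.r → β) → ℝ := fun η => ∑ σ, w σ η
  have hW := bdd_sum hw
  set S := cascSum ξ.r ξ.m n W t with hS_def
  have hS : 0 < S := (cascSum_pos hW ξ.m hn ht).2
  have hS1 := cascSum_one_pos ξ.m hn ht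
  have : Nonempty (Leaf ξ.r n) := ⟨fun i => ⟨0, hn i⟩⟩
  let p : Cube N × Leaf ξ.r n → ℝ := fun x =>
    leafW ξ.r ξ.m n t x.2 * w x.1 (leafMarks ξ.r n t x.2) / S
  have hp : ∀ x, 0 ≤ p x := fun x =>
    div_nonneg (mul_nonneg (leafW_pos _ _ _ _ _ ht).le ((hw x.1).gt_zero _).le) hS.le
  have hsum : ∀ F : Cube N → Leaf ξ.r n → ℝ,
      ∑ x, p x * F x.1 x.2 = (∑ l, leafW ξ.r ξ.m n t l *
        ∑ σ, w σ (leafMarks ξ.r n t l) * F σ l) / S := fun F => by
    rw [Fintype.sum_prod_type_right, Finset.sum_div]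
    refine Finset.sum_congr rfl fun l _ => ?_
    rw [Finset.mul_sum, Finset.sum_div]
    exact Finset.sum_congr rfl fun σ _ => by simp only [p]; ring
  have hp1 : ∑ x, p x = 1 := by
    have := hsum fun _ _ => 1
    simp only [mul_one] at this
    rw [this, ← cascSum_eq_sum_leaves ξ.r ξ.m n W t, ← hS_def, div_self hS.ne']
  let u : Leaf ξ.r n → Option (Node ξ.r n) → ℝ := leafVec n ξ.q
  have hu : ∀ l, ∑ c, u l c ^ 2 = ξ.q (Fin.last ξ.r) :=
    sum_leafVec_sq n ξ.isPath.mono ξ.isPath.nonneg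
  have key := swap_finite hcv hs hN p hp hp1 u hu ξ.isPath.le_one
  -- the left-hand sides
  have hlogsub : ∀ a : ℝ, 0 < a → Real.log (a / S) = Real.log (a / cascSum ξ.r ξ.m n (fun _ => 1) t) -
      Real.log (S / cascSum ξ.r ξ.m n (fun _ => 1) t) := fun a ha => by
    rw [Real.log_div ha.ne' hS.ne', Real.log_div ha.ne' hS1.ne', Real.log_div hS.ne' hS1.ne']
    ring
  have e1 : ∀ g, Real.log (cascMean ξ.m n (fun η => ∑ σ, w σ η * patU f g σ) t) =
      logSum p f (fun x => unitVec x.1) g + Real.log (cascMean ξ.m n W t) := fun g => by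
    have hpos := (Real.exp_pos _).trans_le
      (sum_exp_mem hp hp1 (F := fun x => f (dot g (unitVec x.1))) fun x => hs.b0 _).1
    have he : ∑ x, p x * Real.exp (f (dot g (unitVec x.1))) =
        cascSum ξ.r ξ.m n (fun η => ∑ σ, w σ η * patU f g σ) t / S := by
      rw [hsum fun σ _ => Real.exp (f (dot g (unitVec σ))), cascSum_eq_sum_leaves]
      rfl
    rw [logSum, he]
    rw [he] at hpos
    rw [hlogsub _ ((div_pos_iff_of_pos_right hS).1 hpos), cascMean, cascMean]
    ring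
  let den : (Option (Node ξ.r n) → ℝ) → ℝ := fun γ => ∑ x, p x * avgExp f δ (dot γ (u x.2))
  let Y : (Fin 1 → ℝ) → (Fin ξ.r → β × (Fin 1 → ℝ)) → ℝ := patY ξ f w
  let T : (Option (Node ξ.r n) → ℝ) → CascTree (β × (Fin 1 → ℝ)) ξ.r n := fun γ =>
    att ξ.r n (t, fun c _ => γ (some c))
  have hdot : ∀ γ l, dot γ (u l) = pathField ξ.q (γ none) fun i => γ (some (node n l i)) :=
    fun γ l => dot_leafVec n ξ.q l γ
  have hdenY : ∀ γ, den γ = cascSum ξ.r ξ.m n (Y fun _ => γ none) (T γ) / S := fun γ => by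
    simp only [den]
    rw [hsum fun _ l => avgExp f δ (dot γ (u l))]
    simp only [T, cascSum_att, Y, patY, leafY_eq hs, W, Finset.sum_mul, hdot]
    rfl
  have hone : ∀ γ, cascSum ξ.r ξ.m n (fun _ => (1 : ℝ)) (T γ) =
      cascSum ξ.r ξ.m n (fun _ => 1) t := fun γ =>
    cascSum_att_fst ξ.m n (fun _ => 1) _
  have hden : ∀ γ, Real.exp (-A) ≤ den γ ∧ den γ ≤ Real.exp A := fun γ => by
    constructor
    · calc Real.exp (-A) = ∑ x, p x * Real.exp (-A) := by rw [← Finset.sum_mul, hp1, one_mul]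
        _ ≤ _ := Finset.sum_le_sum fun x _ =>
          mul_le_mul_of_nonneg_left (avgExp_mem hs _ _).1 (hp x)
    · calc den γ ≤ ∑ x, p x * Real.exp A := Finset.sum_le_sum fun x _ =>
            mul_le_mul_of_nonneg_left (avgExp_mem hs _ _).2 (hp x)
        _ = Real.exp A := by rw [← Finset.sum_mul, hp1, one_mul]
  have e2 : ∀ γ, Real.log (cascMean ξ.m n (Y fun _ => γ none) (T γ)) =
      Real.log (den γ) + Real.log (cascMean ξ.m n W t) := fun γ => by
    have hpos := (Real.exp_pos _).trans_le (hden γ).1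
    rw [hdenY] at hpos ⊢
    rw [hlogsub _ ((div_pos_iff_of_pos_right hS).1 hpos), cascMean, cascMean, hone]
    ring
  have hdenm : Measurable den := Finset.measurable_sum _ fun x _ =>
    ((measurable_avgExp hs δ).comp
      (measurable_dot.comp (measurable_id.prodMk measurable_const))).const_mul _
  have hi1 : Integrable (logSum p f fun x => unitVec x.1) (gam (Fin N)) :=
    integrable_bdd (measurable_logSum (continuous_of_smooth hs).measurable _)
      fun g => abs_log_sum_exp_le hp hp1 fun x => hs.b0 _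
  have hi2 : Integrable (fun γ => Real.log (den γ)) (gam (Option (Node ξ.r n))) :=
    integrable_bdd hdenm.log fun γ => by
      obtain ⟨h1, h2⟩ := hden γ
      have hpos := (Real.exp_pos _).trans_le h1
      exact abs_le.2 ⟨(Real.le_log_iff_exp_le hpos).2 h1, (Real.log_le_iff_le_exp hpos).2 h2⟩
  -- the pair term
  have e3 : ∀ γ, pairTerm p f δ u γ = swapTerm ξ f w n (fun _ => γ none, T γ) := fun γ => by
    have hq : ∀ (F : Cube N → Leaf ξ.r n → ℝ) (G : (Fin ξ.r → β × (Fin 1 → ℝ)) → Leaf ξ.r n → ℝ),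
        (∀ l, (∑ σ, w σ (leafMarks ξ.r n t l) * F σ l) =
          G (fun i => (leafMarks ξ.r n t l i, fun _ => γ (some (node n l i)))) l) →
        (∑ x, p x * F x.1 x.2) / den γ =
          (∑ l, leafW ξ.r ξ.m n (T γ) l * G (leafMarks ξ.r n (T γ) l) l) /
            cascSum ξ.r ξ.m n (Y fun _ => γ none) (T γ) := fun F G h => by
      rw [hdenY, hsum, div_div_div_cancel_right₀ hS.ne']
      congr 1
      refine Finset.sum_congr rfl fun l _ => ?_
      rw [h, leafW_att]
      congr 2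
      exact funext fun i => (leafMarks_att ξ.r n (t, fun c (_ : Fin 1) => γ (some c)) l i).symm
    simp only [pairTerm, swapTerm, patN]
    congr 1
    · refine Finset.sum_congr rfl fun c _ => congrArg (· ^ 2) ?_
      refine (hq (fun _ l => u l c * avgDExp f δ (dot γ (u l)))
        (fun η l => ((W fun i => (η i).1) * patD ξ f (fun _ => γ none) fun i => (η i).2) *
          leafVec n ξ.q l c) fun l => ?_).trans rfl
      simp only [W, Finset.sum_mul, hdot]
      exact Finset.sum_congr rfl fun σ _ => by simp only [patD, δ, u]; ring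
    · congr 1
      refine Finset.sum_congr rfl fun i _ => congrArg (· ^ 2) ?_
      refine (hq (fun σ l => sv σ i * avgDExp f δ (dot γ (u l)))
        (fun η _ => (mag w i fun j => (η j).1) * patD ξ f (fun _ => γ none) fun j => (η j).2)
        fun l => ?_).trans ?_
      · simp only [mag, Finset.sum_mul, hdot]
        exact Finset.sum_congr rfl fun σ _ => by simp only [patD, δ]; ring
      · rw [ratio, cascSum_eq_sum_leaves ξ.r ξ.m n (patN ξ f (mag w i) fun _ => γ none)]
        rfl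
  simp only [e1, Y, T, W] at e1 e2 e3 ⊢
  simp only [e2, ← e3]
  rw [integral_add hi1 (integrable_const _), integral_add hi2 (integrable_const _)]
  simp only [integral_const, probReal_univ, one_smul]
  simp only [den] at key ⊢
  have : meanLog p f (fun x => unitVec x.1) = ∫ g, logSum p f (fun x => unitVec x.1) g ∂gam (Fin N) :=
    rfl
  linarith

section limits

variable {N : ℕ} {C : ℝ} {w : Cube N → (Fin ξ.r → β) → ℝ}

omit [IsProbabilityMeasure ν]

lemma measurable_fst2 : Measurable fun z : (Fin 1 → ℝ) × (Fin ξ.r → β × (Fin 1 → ℝ)) =>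
    fun i => (z.2 i).1 :=
  measurable_pi_lambda _ fun i => ((measurable_pi_apply i).comp measurable_snd).fst

lemma measurable_snd2 : Measurable fun z : (Fin 1 → ℝ) × (Fin ξ.r → β × (Fin 1 → ℝ)) =>
    (z.1, fun i => (z.2 i).2) :=
  measurable_fst.prodMk (measurable_pi_lambda _ fun i =>
    ((measurable_pi_apply i).comp measurable_snd).snd)

lemma measurable_patY (hs : Smooth f A) (hw : WBdd C w) :
    Measurable (Function.uncurry (patY ξ f w)) :=
  ((bdd_sum hw).meas.comp measurable_fst2).mul ((measurable_leafY hs).comp measurable_snd2)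

lemma measurable_patN (hs : Smooth f A) {G : (Fin ξ.r → β) → ℝ} (hG : Measurable G) :
    Measurable (Function.uncurry (patN ξ f G)) :=
  (hG.comp measurable_fst2).mul ((measurable_patD hs).comp measurable_snd2)

lemma measurable_patN' (hs : Smooth f A) {G : (Fin ξ.r → β) → ℝ} (hG : Measurable G)
    (g₀ : Fin 1 → ℝ) : Measurable (patN ξ f G g₀) :=
  (measurable_patN hs hG).comp (measurable_const.prodMk measurable_id)

/-- The bound of weights with a pattern. -/
def cU (A C : ℝ) (N : ℕ) : ℝ := Fintype.card (Cube N) * C * Real.exp A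

lemma bdd_patY (hs : Smooth f A) (hw : WBdd C w) (g₀ : Fin 1 → ℝ) :
    Bdd (cU A C N) (patY ξ f w g₀) := by
  have hW := bdd_sum hw
  have hC₀ := hW.pos
  refine ⟨mul_pos hC₀ (Real.exp_pos _), (measurable_patY hs hw).comp
    (measurable_const.prodMk measurable_id), fun η => ⟨?_, ?_⟩⟩
  · rw [cU, mul_inv]
    exact mul_le_mul (hW.mem _).1 ((bdd_leafY hs g₀).mem _).1 (by positivity) (hW.gt_zero _).le
  · exact mul_le_mul (hW.mem _).2 ((bdd_leafY hs g₀).mem _).2 ((bdd_leafY hs g₀).gt_zero _).le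
      hC₀.le

lemma abs_patN_le (hs : Smooth f A) {G : (Fin ξ.r → β) → ℝ} {B : ℝ} (hG : ∀ η, |G η| ≤ B)
    (g₀ : Fin 1 → ℝ) (η : Fin ξ.r → β × (Fin 1 → ℝ)) :
    |patN ξ f G g₀ η| ≤ B * (A * Real.exp A) := by
  rw [patN, abs_mul]
  exact mul_le_mul (hG _) (abs_avgDExp_le hs _ _) (abs_nonneg _) ((abs_nonneg _).trans (hG fun i =>
    (η i).1))

lemma abs_sumW_le (hw : WBdd C w) (η : Fin ξ.r → β) :
    |∑ σ, w σ η| ≤ Fintype.card (Cube N) * C :=
  (abs_of_pos ((bdd_sum hw).gt_zero η)).trans_le ((bdd_sum hw).mem η).2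

lemma abs_mag_le' (hw : WBdd C w) (i : Fin N) (η : Fin ξ.r → β) :
    |mag w i η| ≤ Fintype.card (Cube N) * C :=
  (abs_mag_le hw i η).trans ((bdd_sum hw).mem η).2

lemma measurable_swapTerm (hs : Smooth f A) (hw : WBdd C w) (n : Fin ξ.r → ℕ) :
    Measurable (swapTerm ξ f w n) := by
  have hY := measurable_cascSum_param ξ.m n (measurable_patY hs hw)
  refine (Finset.measurable_sum _ fun c _ => Measurable.pow_const ?_ 2).sub
    ((Finset.measurable_sum _ fun i _ => ((measurable_cascSum_param ξ.m n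
      (measurable_patN hs (measurable_mag hw i))).div hY).pow_const 2).const_mul _)
  exact (Finset.measurable_sum _ fun l _ => ((measurable_leafW _ ξ.m n l).comp measurable_snd).mul
    (((measurable_patN hs (bdd_sum hw).meas).comp (measurable_fst.prodMk
      ((measurable_leafMarks _ n l).comp measurable_snd))).mul_const _)).div hY

/-- The bound of `swapTerm`. -/
def cK (A C : ℝ) (N : ℕ) : ℝ :=
  (cU A C N * (Fintype.card (Cube N) * C * (A * Real.exp A))) *
    (cU A C N * (Fintype.card (Cube N) * C * (A * Real.exp A)))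

lemma abs_swapTerm_le (hs : Smooth f A) (hN : 0 < N) (hw : WBdd C w) (n : Fin ξ.r → ℕ)
    (g₀ : Fin 1 → ℝ) (t : CascTree (β × (Fin 1 → ℝ)) ξ.r n) (ht : GoodTree ξ.r n t) :
    |swapTerm ξ f w n (g₀, t)| ≤ cK A C N := by
  have hY := bdd_patY hs hw g₀
  have hA0 := smooth_nonneg hs
  have hC₀ := (bdd_sum hw).pos
  have hBD : 0 ≤ Fintype.card (Cube N) * C * (A * Real.exp A) := by positivity
  have h1 := sum_comp_sq_le (m := ξ.m) ξ.isPath.mono ξ.isPath.nonneg ξ.isPath.le_one hY hBD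
    (abs_patN_le hs (abs_sumW_le hw) g₀) ht
  have h2 : ∀ i, ratio ξ.m n (patY ξ f w g₀) (patN ξ f (mag w i) g₀) t ^ 2 ≤ cK A C N := fun i => by
    have := abs_ratio_le' hY hBD (abs_patN_le hs (abs_mag_le' hw i) g₀) ξ.m n ht
    rw [← sq_abs, sq]
    exact mul_le_mul this this (abs_nonneg _) ((abs_nonneg _).trans this)
  have hNr : (0 : ℝ) < N := by exact_mod_cast hN
  have h3 : 1 / (N : ℝ) * ∑ i, ratio ξ.m n (patY ξ f w g₀) (patN ξ f (mag w i) g₀) t ^ 2 ≤
      cK A C N := by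
    rw [one_div_mul_eq_div, div_le_iff₀ hNr]
    exact (Finset.sum_le_sum fun i _ => h2 i).trans_eq (by simp [mul_comm])
  have h4 : 0 ≤ ∑ c, comp ξ.m n ξ.q (patY ξ f w g₀) (patN ξ f (fun η => ∑ σ, w σ η) g₀) t c ^ 2 :=
    Finset.sum_nonneg fun c _ => sq_nonneg _
  have h5 : 0 ≤ 1 / (N : ℝ) * ∑ i,
      ratio ξ.m n (patY ξ f w g₀) (patN ξ f (mag w i) g₀) t ^ 2 := by positivity
  have h1' : ∑ c, comp ξ.m n ξ.q (patY ξ f w g₀) (patN ξ f (fun η => ∑ σ, w σ η) g₀) t c ^ 2 ≤
      cK A C N := h1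
  simp only [swapTerm]
  rw [abs_le]
  constructor <;> linarith

variable [IsProbabilityMeasure ν]

lemma pairM_patN (hT : TiltFactorStmt) (hs : Smooth f A) (hm : Exps ξ.m) (hw : WBdd C w)
    (g₀ : Fin 1 → ℝ) {G : (Fin ξ.r → β) → ℝ} (hG : Measurable G)
    (hb : ∀ η, |G η| ≤ Fintype.card (Cube N) * C) (p : Fin (ξ.r + 1)) :
    pairM (ν.prod (gam (Fin 1))) ξ.m (patY ξ f w g₀) (patN ξ f G g₀) (patN ξ f G g₀) p =
      pairM ν ξ.m (fun η => ∑ σ, w σ η) G G p *
        pairM (gam (Fin 1)) ξ.m (leafY ξ f g₀) (patD ξ f g₀) (patD ξ f g₀) p := by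
  have hd : Measurable (patD ξ f g₀) :=
    (measurable_patD hs).comp (measurable_const.prodMk measurable_id)
  have hdb : ∀ η, |patD ξ f g₀ η| ≤
      max (max (Fintype.card (Cube N) * C) (Real.exp A)) (A * Real.exp A) := fun η =>
    (abs_avgDExp_le hs _ _).trans (le_max_right _ _)
  exact pairM_prod hT ν (gam (Fin 1)) hm
    (bdd_mono ((le_max_left _ _).trans (le_max_left _ _)) (bdd_sum hw))
    (bdd_mono ((le_max_right _ _).trans (le_max_left _ _)) (bdd_leafY hs g₀)) hG hG hd hd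
    (fun η => (hb η).trans ((le_max_left _ _).trans (le_max_left _ _)))
    (fun η => (hb η).trans ((le_max_left _ _).trans (le_max_left _ _))) hdb hdb p

lemma swap_limit (hT : TiltFactorStmt) (hs : Smooth f A) (hm : Exps ξ.m)
    (hw : WBdd C w) (g₀ : Fin 1 → ℝ) :
    Tendsto (fun n => ∫ t, swapTerm ξ f w n (g₀, t) ∂cascLaw (ν.prod (gam (Fin 1))) ξ.r n)
      (cascFilter ξ.r) (𝓝 (∑ p : Fin (ξ.r + 1), weight ξ.m p *
        (pairM (gam (Fin 1)) ξ.m (leafY ξ f g₀) (patD ξ f g₀) (patD ξ f g₀) p *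
          (ξ.q p - bVal ν ξ.m w p)))) := by
  set ν' := ν.prod (gam (Fin 1))
  have hY := bdd_patY hs hw g₀
  have hA0 := smooth_nonneg hs
  have hC₀ := (bdd_sum hw).pos
  set BD := Fintype.card (Cube N) * C * (A * Real.exp A)
  have hBD : 0 ≤ BD := by positivity
  set G₀ := patN ξ f (fun η => ∑ σ, w σ η) g₀
  set G₁ : Fin N → (Fin ξ.r → β × (Fin 1 → ℝ)) → ℝ := fun i => patN ξ f (mag w i) g₀
  have hm0 : Measurable G₀ := measurable_patN' hs (bdd_sum hw).meas g₀
  have hm1 : ∀ i, Measurable (G₁ i) := fun i => measurable_patN' hs (measurable_mag hw i) g₀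
  have hb0 : ∀ η, |G₀ η| ≤ BD := abs_patN_le hs (abs_sumW_le hw) g₀
  have hb1 : ∀ i η, |G₁ i η| ≤ BD := fun i => abs_patN_le hs (abs_mag_le' hw i) g₀
  have l1 := tendsto_sumSq hT ν' hm ξ.isPath.mono ξ.isPath.nonneg hY hm0 hBD hb0
  have l2 := fun i => tendsto_ratio_mul ν' hm hY (hm1 i) (hm1 i) (hb1 i) (hb1 i)
  have l3 := l1.sub ((tendsto_finsetSum Finset.univ fun i _ => l2 i).const_mul (1 / (N : ℝ)))
  have e0 : ∀ p, pairM ν' ξ.m (patY ξ f w g₀) G₀ G₀ p =
      pairM (gam (Fin 1)) ξ.m (leafY ξ f g₀) (patD ξ f g₀) (patD ξ f g₀) p := fun p =>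
    (pairM_patN ν hT hs hm hw g₀ (bdd_sum hw).meas (abs_sumW_le hw) p).trans
      (by rw [pairM_self ν hm (bdd_sum hw), one_mul])
  have e1 : ∀ i p, pairM ν' ξ.m (patY ξ f w g₀) (G₁ i) (G₁ i) p =
      pairM ν ξ.m (fun η => ∑ σ, w σ η) (mag w i) (mag w i) p *
        pairM (gam (Fin 1)) ξ.m (leafY ξ f g₀) (patD ξ f g₀) (patD ξ f g₀) p := fun i p =>
    pairM_patN ν hT hs hm hw g₀ (measurable_mag hw i) (abs_mag_le' hw i) p
  have eL : (∑ p : Fin (ξ.r + 1), weight ξ.m p * (ξ.q p * pairM ν' ξ.m (patY ξ f w g₀) G₀ G₀ p)) -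
      1 / (N : ℝ) * ∑ i : Fin N, ∑ p : Fin (ξ.r + 1),
        weight ξ.m p * pairM ν' ξ.m (patY ξ f w g₀) (G₁ i) (G₁ i) p =
      ∑ p : Fin (ξ.r + 1), weight ξ.m p *
        (pairM (gam (Fin 1)) ξ.m (leafY ξ f g₀) (patD ξ f g₀) (patD ξ f g₀) p *
          (ξ.q p - bVal ν ξ.m w p)) := by
    simp only [e0, e1, bVal]
    rw [Finset.sum_comm, Finset.mul_sum, ← Finset.sum_sub_distrib]
    refine Finset.sum_congr rfl fun p _ => ?_
    rw [← Finset.mul_sum, ← Finset.sum_mul]
    ring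
  rw [← eL]
  refine l3.congr fun n => ?_
  have hrm : ∀ i, Measurable fun t => ratio ξ.m n (patY ξ f w g₀) (G₁ i) t := fun i =>
    (measurable_cascSum ξ.m n (hm1 i)).div (measurable_cascSum ξ.m n hY.meas)
  have hS : Integrable (fun t => ∑ c, comp ξ.m n ξ.q (patY ξ f w g₀) G₀ t c ^ 2)
      (cascLaw ν' ξ.r n) := by
    refine Integrable.of_bound (Measurable.aestronglyMeasurable
      (Finset.measurable_sum _ fun c _ => Measurable.pow_const
        ((Finset.measurable_sum _ fun l _ => (measurable_leafW _ ξ.m n l).mul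
          ((hm0.comp (measurable_leafMarks _ n l)).mul_const _)).div
          (measurable_cascSum ξ.m n hY.meas)) 2))
      ((cU A C N * BD) * (cU A C N * BD)) ((ae_good ν' ξ.r n).mono fun t ht => ?_)
    rw [Real.norm_eq_abs, abs_of_nonneg (Finset.sum_nonneg fun c _ => sq_nonneg _)]
    exact sum_comp_sq_le ξ.isPath.mono ξ.isPath.nonneg ξ.isPath.le_one hY hBD hb0 ht
  have hR : ∀ i, Integrable (fun t => ratio ξ.m n (patY ξ f w g₀) (G₁ i) t *
      ratio ξ.m n (patY ξ f w g₀) (G₁ i) t) (cascLaw ν' ξ.r n) := fun i => by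
    refine Integrable.of_bound ((hrm i).mul (hrm i)).aestronglyMeasurable
      ((cU A C N * BD) * (cU A C N * BD)) ((ae_good ν' ξ.r n).mono fun t ht => ?_)
    rw [Real.norm_eq_abs, abs_mul]
    have := abs_ratio_le' hY hBD (hb1 i) ξ.m n ht
    exact mul_le_mul this this (abs_nonneg _) ((abs_nonneg _).trans this)
  rw [← integral_finsetSum _ fun i _ => hR i, ← integral_const_mul, ← integral_sub hS
    ((integrable_finsetSum _ fun i _ => hR i).const_mul _)]
  simp only [swapTerm, sq]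
  rfl

lemma integrable_pairM_pat (hs : Smooth f A) (hm : Exps ξ.m) (p : Fin (ξ.r + 1)) :
    Integrable (fun g₀ => pairM (gam (Fin 1)) ξ.m (leafY ξ f g₀) (patD ξ f g₀) (patD ξ f g₀) p)
      (gam (Fin 1)) := by
  refine integrable_bdd (C := Real.exp ((2 * ξ.r + 1) * (2 : ℕ) * |Real.log (Real.exp A)|) *
    (A * Real.exp A * (A * Real.exp A))) (measurable_pairM (gam (Fin 1)) ξ.m (measurable_leafY hs)
      (measurable_patD hs) (measurable_patD hs) p) fun g₀ => ?_
  have hA0 := smooth_nonneg hs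
  have hd : ∀ η, |patD ξ f g₀ η| ≤ A * Real.exp A := fun η => abs_avgDExp_le hs _ _
  have hb : ∀ ω, |integrand (gam (Fin 1)) ξ.m (leafY ξ f g₀) ![patD ξ f g₀, patD ξ f g₀]
      (sh p) ω| ≤ Real.exp ((2 * ξ.r + 1) * (2 : ℕ) * |Real.log (Real.exp A)|) *
        (A * Real.exp A * (A * Real.exp A)) := fun ω => by
    simp only [integrand, Fin.prod_univ_two, Matrix.cons_val_zero, Matrix.cons_val_one, abs_mul,
      Real.abs_exp]
    refine mul_le_mul (Real.exp_le_exp.2 ((le_abs_self _).trans ?_))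
      (mul_le_mul (hd _) (hd _) (abs_nonneg _) (by positivity))
      (mul_nonneg (abs_nonneg _) (abs_nonneg _)) (Real.exp_pos _).le
    exact_mod_cast abs_logW_le (gam (Fin 1)) hm (bdd_leafY hs g₀) _ ω
  have := norm_integral_le_of_norm_le_const (μ := tableLaw (gam (Fin 1)) ξ.r 2)
    (Eventually.of_forall fun ω => (Real.norm_eq_abs _).trans_le (hb ω))
  simpa [pairM] using this

end limits

/-- Exchanging one pattern for a fresh one in the cascade. -/
theorem swapStep (hT : TiltFactorStmt) (hTS : TreeShapeStmt) (hSl : SlopeStmt) (hs : Smooth f A)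
    (hcv : BlockConcave f) {N : ℕ} (hN : 0 < N) (hm : Exps ξ.m) {C : ℝ}
    {w : Cube N → (Fin ξ.r → β) → ℝ} (hw : WBdd C w) :
    ∫ g, Phi ν ξ.m (fun σ η => w σ η * patU f g σ) ∂gam (Fin N) ≤
      (∫ g₀, Phi (ν.prod (gam (Fin 1))) ξ.m (tens w fun _ => leafY ξ f g₀) ∂gam (Fin 1)) +
        1 / 2 * ∑ p : Fin (ξ.r + 1),
          weight ξ.m p * (slope f ξ.m ξ.q p * (ξ.q p - bVal ν ξ.m w p)) := by
  set ν' := ν.prod (gam (Fin 1))
  have hW := bdd_sum hw
  set CU := cU A C N
  set UU : (Fin N → ℝ) → (Fin ξ.r → β) → ℝ := fun g η => ∑ σ, w σ η * patU f g σ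
  have hUm : Measurable (Function.uncurry UU) := Finset.measurable_sum _ fun σ _ =>
    ((hw σ).meas.comp measurable_snd).mul (((continuous_of_smooth hs).measurable.comp
      (measurable_dot.comp (measurable_fst.prodMk measurable_const))).exp)
  have hUb : ∀ g, Bdd CU (UU g) := fun g => by
    refine ⟨mul_pos hW.pos (Real.exp_pos _), hUm.comp (measurable_const.prodMk measurable_id),
      fun η => ⟨?_, ?_⟩⟩
    · calc CU⁻¹ = (Fintype.card (Cube N) * C)⁻¹ * Real.exp (-A) := by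
            simp only [CU, cU]; rw [mul_inv, Real.exp_neg]
        _ ≤ (∑ σ, w σ η) * Real.exp (-A) :=
            mul_le_mul_of_nonneg_right (hW.mem η).1 (Real.exp_pos _).le
        _ ≤ _ := by
          simp only [Finset.sum_mul, UU]
          exact Finset.sum_le_sum fun σ _ => mul_le_mul_of_nonneg_left
            (Real.exp_le_exp.2 (abs_le.1 (hs.b0 _)).1) ((hw σ).gt_zero η).le
    · calc UU g η ≤ (∑ σ, w σ η) * Real.exp A := by
            simp only [Finset.sum_mul, UU]
            exact Finset.sum_le_sum fun σ _ => mul_le_mul_of_nonneg_left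
              (Real.exp_le_exp.2 (abs_le.1 (hs.b0 _)).2) ((hw σ).gt_zero η).le
        _ ≤ CU := mul_le_mul_of_nonneg_right (hW.mem η).2 (Real.exp_pos _).le
  have hYm := measurable_patY hs hw
  have hY := bdd_patY hs hw
  have limA := tendsto_integral_logMean (ν := ν) (gam (Fin N)) hm hUm hUb
  have limB := tendsto_integral_logMean (ν := ν') (gam (Fin 1)) hm hYm hY
  set Lim : (Fin 1 → ℝ) → ℝ := fun g₀ => ∑ p : Fin (ξ.r + 1), weight ξ.m p *
    (pairM (gam (Fin 1)) ξ.m (leafY ξ f g₀) (patD ξ f g₀) (patD ξ f g₀) p *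
      (ξ.q p - bVal ν ξ.m w p))
  have hHm := measurable_swapTerm hs hw
  have hHb := abs_swapTerm_le hs hN hw
  have hFb : ∀ (n : Fin ξ.r → ℕ) g₀,
      |∫ t, swapTerm ξ f w n (g₀, t) ∂cascLaw ν' ξ.r n| ≤ cK A C N := fun n g₀ => by
    have := norm_integral_le_of_norm_le_const (μ := cascLaw ν' ξ.r n)
      (f := fun t => swapTerm ξ f w n (g₀, t)) (C := cK A C N)
      ((ae_good ν' ξ.r n).mono fun t ht => hHb n g₀ t ht)
    simpa using this
  have hLb : ∀ g₀, |Lim g₀| ≤ cK A C N := fun g₀ =>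
    haveI := cascFilter_neBot ξ.r
    le_of_tendsto' (swap_limit ν hT hs hm hw g₀).abs fun n => hFb n g₀
  have hLm : Measurable Lim := Finset.measurable_sum _ fun p _ =>
    ((measurable_pairM (gam (Fin 1)) ξ.m (measurable_leafY hs) (measurable_patD hs)
      (measurable_patD hs) p).mul_const _).const_mul _
  have limC := tendsto_integral_cascFilter (gam (Fin 1))
    (fun n g₀ => ∫ t, swapTerm ξ f w n (g₀, t) ∂cascLaw ν' ξ.r n) Lim (cK A C N)
    (fun n => ((hHm n).stronglyMeasurable.integral_prod_right').measurable) hLm hFb hLb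
    (swap_limit ν hT hs hm hw)
  have hfin : ∀ n : Fin ξ.r → ℕ, (∀ i, 0 < n i) →
      ∫ g, ∫ t, Real.log (cascMean ξ.m n (UU g) t) ∂cascLaw ν ξ.r n ∂gam (Fin N) ≤
        (∫ g₀, ∫ t, Real.log (cascMean ξ.m n (patY ξ f w g₀) t) ∂cascLaw ν' ξ.r n ∂gam (Fin 1)) +
          1 / 2 * ∫ g₀, ∫ t, swapTerm ξ f w n (g₀, t) ∂cascLaw ν' ξ.r n ∂gam (Fin 1) := by
    intro n hn
    have hUi : Integrable (Function.uncurry fun g t => Real.log (cascMean ξ.m n (UU g) t))
        ((gam (Fin N)).prod (cascLaw ν ξ.r n)) := by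
      refine Integrable.of_bound (((measurable_cascSum_param ξ.m n hUm).div
        (measurable_cascSum_param ξ.m n (Y := fun _ _ => (1 : ℝ))
          measurable_const)).log).aestronglyMeasurable |Real.log CU| ?_
      filter_upwards [Measure.quasiMeasurePreserving_snd.ae (ae_good ν ξ.r n)] with z hz
      exact abs_log_cascMean_le (hUb z.1) ξ.m n hz
    obtain ⟨iB, eB⟩ := integral_root (ν := ν) n
      (H := fun z => Real.log (cascMean ξ.m n (patY ξ f w z.1) z.2))
      (((measurable_cascSum_param ξ.m n hYm).div (measurable_cascSum_param ξ.m n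
        (Y := fun _ _ => (1 : ℝ)) measurable_const)).log)
      fun g₀ t ht => abs_log_cascMean_le (hY g₀) ξ.m n ht
    obtain ⟨iC, eC⟩ := integral_root (ν := ν) n (hHm n) (hHb n)
    rw [integral_integral_swap hUi, ← eB, ← eC, ← integral_const_mul, ← integral_add iB
      (iC.const_mul _)]
    refine integral_mono_ae hUi.integral_prod_right (iB.add (iC.const_mul _)) ?_
    filter_upwards [ae_good ν ξ.r n] with t ht
    have := swap_tree hs hcv hN hw hn ht
    dsimp [UU] at this ⊢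
    linarith
  have := cascFilter_neBot ξ.r
  have hmain := le_of_tendsto_of_tendsto limA (limB.add (limC.const_mul (1 / 2)))
    ((eventually_pos ξ.r).mono hfin)
  have eI : ∫ g₀, Lim g₀ ∂gam (Fin 1) = ∑ p : Fin (ξ.r + 1),
      weight ξ.m p * (slope f ξ.m ξ.q p * (ξ.q p - bVal ν ξ.m w p)) := by
    simp only [Lim]
    rw [integral_finsetSum _ fun p _ =>
      ((integrable_pairM_pat hs hm p).mul_const _).const_mul _]
    refine Finset.sum_congr rfl fun p _ => ?_
    rw [integral_const_mul, integral_mul_const, integral_pairM_pat hTS hSl hs]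
  rw [eI] at hmain
  refine hmain.trans_eq ?_
  congr 1
  refine integral_congr_ae (Eventually.of_forall fun g₀ => ?_)
  simp only [Phi, sum_tens_const]
  rfl

end Vale.Agent.P157.Parisi.Up
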