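import Vale.Agent.P157.Parisi.Upper.Site
import Vale.Agent.P157.Parisi.Upper.Discrete

/-!
The upper bound: exchange all patterns for fields, then let the number of slots and the number of
sites go to infinity.
-/

noncomputable section

open MeasureTheory ProbabilityTheory Filter
open scoped BigOperators Topology

namespace Vale.Agent.P157.Parisi.Up

open Vale.Agent.P168.Cascade (Exps)

/-- The upper bound of the Parisi formula. -/
theorem upper_stmt (hT : TiltFactorStmt) (hTS : TreeShapeStmt) (hSl : SlopeStmt)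
    (hB : BridgeStmt) : UpperStmt := by
  intro α A f hα hs hconc ξ ε hε
  have hm : Exps ξ.m := ⟨ξ.isPath.pos, ξ.isPath.lt_one, ξ.isPath.strictMono⟩
  have ha' : Tendsto (fun n : ℕ => α * (1 - svar n) * A ^ 2) atTop (𝓝 0) := by
    simpa using (((tendsto_const_nhds (x := (1 : ℝ))).sub tendsto_svar).const_mul α).mul_const (A ^ 2)
  obtain ⟨n, hn⟩ := (ha'.eventually (eventually_le_nhds (by positivity : (0 : ℝ) < ε / 3))).exists
  set a : ℝ := (n : ℝ) with ha_def
  have ha : 0 ≤ a := Nat.cast_nonneg n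
  set ρ : Fin (ξ.r + 1) → ℝ := fun p => α * slope f ξ.m ξ.q p
  have hN' : Tendsto (fun N : ℕ => A * (Real.sqrt α / Real.sqrt N + 1 / N)) atTop (𝓝 0) := by
    have h1 := (tendsto_const_nhds (x := Real.sqrt α)).div_atTop
      (Real.tendsto_sqrt_atTop.comp (tendsto_natCast_atTop_atTop (R := ℝ)))
    simpa [Function.comp_def] using
      (h1.add tendsto_one_div_atTop_nhds_zero_nat).const_mul A
  filter_upwards [hN'.eventually (eventually_le_nhds (by positivity : (0 : ℝ) < ε / 3)),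
    eventually_gt_atTop 0] with N hNε hN
  have hN0 : (0 : ℝ) < N := Nat.cast_pos.2 hN
  set K : ℝ := N * (fieldLen ρ * a)
  have hs0 : Tendsto (fun L : ℕ => Real.sqrt (1 / (L : ℝ))) atTop (𝓝 0) := by
    simpa using tendsto_one_div_atTop_nhds_zero_nat.sqrt
  obtain ⟨L, hL, hprob, hsmall, herr⟩ :
      ∃ L : ℕ, 0 < L ∧ α * N / L ≤ 1 ∧ Real.sqrt (1 / (L : ℝ)) * K ≤ 1 / 10 ∧
        20 * (Real.sqrt (1 / (L : ℝ)) * K ^ 3) ≤ N * (ε / 3) := by
    have h1 := (tendsto_const_div_atTop_nhds_zero_nat (α * N)).eventually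
      (eventually_le_nhds one_pos)
    have h2 := (hs0.mul_const K).eventually
      (eventually_le_nhds (by norm_num : (0 : ℝ) * K < 1 / 10))
    have h3 := ((hs0.mul_const (K ^ 3)).const_mul 20).eventually
      (eventually_le_nhds (by simp; positivity : (20 : ℝ) * (0 * K ^ 3) < N * (ε / 3)))
    obtain ⟨L, hL, a1, a2, a3⟩ := ((eventually_gt_atTop 0).and (h1.and (h2.and h3))).exists
    exact ⟨L, hL, a1, a2, a3⟩
  have hP : Params ξ f A α a L N := ⟨hs, hconc, hα, ha, hL, hN, hprob, hsmall⟩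
  have s1 : (N : ℝ) * meanPressure isingLaw α f N ≤
      slots (α * N / L) f (Measure.dirac ()) ξ.m L (unifW N) +
        A * (Real.sqrt (α * N) + 1) := slots_init hs hm hα.le hN hL hprob
  have s2 := slots_le hT hTS hSl hB hP hm (Measure.dirac ()) L _ _ (wbdd_unifW N (r := ξ.r))
  have s3 := fields_unif_le (N := N) ha hm ρ hL
  have hL0 : (0 : ℝ) < L := Nat.cast_pos.2 hL
  have hcube : (L : ℝ) * fieldM (1 / (L : ℝ)) a N ρ ^ 3 = Real.sqrt (1 / (L : ℝ)) * K ^ 3 := by
    have hsq : Real.sqrt (1 / (L : ℝ)) * Real.sqrt (1 / (L : ℝ)) = 1 / L :=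
      Real.mul_self_sqrt (by positivity)
    calc (L : ℝ) * fieldM (1 / (L : ℝ)) a N ρ ^ 3
        = (L * (Real.sqrt (1 / (L : ℝ)) * Real.sqrt (1 / (L : ℝ)))) *
            (Real.sqrt (1 / (L : ℝ)) * K ^ 3) := by simp only [fieldM, K]; ring
      _ = _ := by rw [hsq, mul_one_div_cancel hL0.ne', one_mul]
  set S := ∑ p : Fin (ξ.r + 1), weight ξ.m p * (slope f ξ.m ξ.q p * ξ.q p) with hS
  have hC : (L : ℝ) * stepC ξ f A α a L N =
      N * (α * patValue f ξ.m ξ.q + α / 2 * S - α / 2 * slope f ξ.m ξ.q (Fin.last ξ.r) +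
        α * (1 - svar a) * A ^ 2) + 20 * (Real.sqrt (1 / (L : ℝ)) * K ^ 3) := by
    rw [← hcube, stepC, ← hS]
    field_simp
    ring
  have hpar : parisi α f ξ.m ξ.q = α * patValue f ξ.m ξ.q + siteValue ξ.m ρ + α / 2 * S := by
    simp only [parisi, hS, ρ]
    congr 2
    exact Finset.sum_congr rfl fun p _ => by ring
  have herrN : A * (Real.sqrt (α * N) + 1) ≤ N * (ε / 3) := by
    refine le_trans (le_of_eq ?_) (mul_le_mul_of_nonneg_left hNε hN0.le)
    calc A * (Real.sqrt (α * N) + 1)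
        = A * (Real.sqrt α * ((N : ℝ) / Real.sqrt N) + (N : ℝ) / N) := by
          rw [Real.sqrt_mul hα.le, Real.div_sqrt, div_self hN0.ne']
      _ = _ := by ring
  have hρr : ρ (Fin.last ξ.r) = α * slope f ξ.m ξ.q (Fin.last ξ.r) := rfl
  rw [hρr] at s3
  refine le_of_mul_le_mul_left ?_ hN0
  rw [hpar]
  have := mul_le_mul_of_nonneg_left hn hN0.le
  nlinarith

end Vale.Agent.P157.Parisi.Up
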