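import Vale.Agent.P157.Parisi.Upper.PairMom
import Vale.Agent.P168.Upper.Limit

/-!
Sums of squares of the components of leaf vectors averaged over a cascade.
-/

noncomputable section

open MeasureTheory ProbabilityTheory Filter
open scoped BigOperators Topology

namespace Vale.Agent.P157.Parisi.Up

open Vale.Agent.P168 (Shape shapeMarks CascTree cascLaw cascSum cascFilter)
open Vale.Agent.P168.Cascade
open Vale.Agent.P168.Upper (integral_mp tendsto_integral_cascFilter cascFilter_neBot)

/-- Tilted pairs of independent mark families factor. -/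
lemma pairM_prod (hT : TiltFactorStmt) {β γ : Type} [MeasurableSpace β] [MeasurableSpace γ]
    (ν : Measure β) (μ : Measure γ) [IsProbabilityMeasure ν] [IsProbabilityMeasure μ] {r : ℕ}
    {m : Fin r → ℝ} (hm : Exps m) {C : ℝ} {Y g g' : (Fin r → β) → ℝ}
    {Z h h' : (Fin r → γ) → ℝ} (hY : Bdd C Y) (hZ : Bdd C Z) (hgm : Measurable g)
    (hgm' : Measurable g') (hhm : Measurable h) (hhm' : Measurable h') (hg : ∀ ω, |g ω| ≤ C)
    (hg' : ∀ ω, |g' ω| ≤ C) (hh : ∀ ω, |h ω| ≤ C) (hh' : ∀ ω, |h' ω| ≤ C) (p : Fin (r + 1)) :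
    pairM (ν.prod μ) m (fun η => (Y fun i => (η i).1) * Z fun i => (η i).2)
        (fun η => (g fun i => (η i).1) * h fun i => (η i).2)
        (fun η => (g' fun i => (η i).1) * h' fun i => (η i).2) p =
      pairM ν m Y g g' p * pairM μ m Z h h' p := by
  have e := hT β γ ν μ r 2 m hm C Y Z hY hZ ![g, g'] ![h, h']
    (fun a => by fin_cases a <;> assumption) (fun a => by fin_cases a <;> assumption)
    (fun a => by fin_cases a <;> assumption) (fun a => by fin_cases a <;> assumption)
    (sh p) (isTree_sh p)
  refine Eq.trans (integral_congr_ae (Eventually.of_forall fun ω => ?_)) e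
  simp only [integrand, Fin.prod_univ_two, Matrix.cons_val_zero, Matrix.cons_val_one]

/-! ### The clipped Gaussian -/

/-- The variance of a clipped Gaussian. -/
def svar (a : ℝ) : ℝ := ∫ x, clipA a x * clipA a x ∂gaussianReal 0 1

lemma mp_neg : MeasurePreserving (fun x : ℝ => -x) (gaussianReal 0 1) (gaussianReal 0 1) :=
  ⟨measurable_neg, by rw [gaussianReal_map_neg, neg_zero]⟩

lemma integral_clipA {a : ℝ} (ha : 0 ≤ a) : ∫ x, clipA a x ∂gaussianReal 0 1 = 0 := by
  have h := integral_mp mp_neg (measurable_clipA a)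
  simp only [clipA_neg ha, integral_neg] at h
  linarith

lemma clipA_of_abs_le {a x : ℝ} (h : |x| ≤ a) : clipA a x = x := by
  obtain ⟨h1, h2⟩ := abs_le.1 h
  rw [clipA, min_eq_right h2, max_eq_right h1]

lemma abs_clipA_sq_le {a : ℝ} (ha : 0 ≤ a) (x : ℝ) : |clipA a x * clipA a x| ≤ a * a := by
  rw [abs_mul]; exact mul_le_mul (abs_clipA_le ha x) (abs_clipA_le ha x) (abs_nonneg _) ha

lemma svar_pos {a : ℝ} (ha : 0 < a) : 0 < svar a := by
  have hi : Integrable (fun x => clipA a x * clipA a x) (gaussianReal 0 1) :=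
    integrable_bdd ((measurable_clipA a).mul (measurable_clipA a)) (abs_clipA_sq_le ha.le)
  refine (integral_pos_iff_support_of_nonneg (fun x => mul_self_nonneg _) hi).2 ?_
  have hs : (Function.support fun x => clipA a x * clipA a x) = {0}ᶜ := by
    ext x
    simp only [Function.mem_support, ne_eq, mul_self_eq_zero, Set.mem_compl_iff,
      Set.mem_singleton_iff]
    refine ⟨fun h hx => h (by rw [hx, clipA_of_abs_le (by simpa using ha.le)]), fun h hx => ?_⟩
    rcases le_total |x| a with h' | h'
    · exact h (by rwa [clipA_of_abs_le h'] at hx)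
    · simp only [clipA] at hx
      rcases le_total a x with h1 | h1
      · rw [min_eq_left h1, max_eq_right (by linarith)] at hx; linarith
      · rw [min_eq_right h1] at hx
        rcases abs_cases x with h2 | h2
        · rcases le_total (-a) x with h3 | h3
          · rw [max_eq_right h3] at hx; exact h hx
          · rw [max_eq_left h3] at hx; linarith
        · rw [max_eq_left (by linarith)] at hx; linarith
  rw [hs]
  haveI := nullSingletonClass_gaussianReal (μ := (0 : ℝ)) (v := 1) one_ne_zero
  rw [measure_compl (measurableSet_singleton 0) (measure_ne_top _ _), measure_univ,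
    measure_singleton]
  simp

lemma svar_le_one {a : ℝ} (ha : 0 ≤ a) : svar a ≤ 1 := by
  have h2 : ∫ x, x * x ∂gaussianReal 0 1 = 1 := by
    have h := variance_id_gaussianReal (μ := 0) (v := 1)
    rw [variance_eq_integral measurable_id.aemeasurable] at h
    simpa [sq] using h
  rw [svar, ← h2]
  refine integral_mono_of_nonneg (Eventually.of_forall fun x => mul_self_nonneg _) ?_
    (Eventually.of_forall fun x => ?_)
  · by_contra hn
    rw [integral_undef hn] at h2
    exact zero_ne_one h2
  · calc clipA a x * clipA a x = |clipA a x| * |clipA a x| := (abs_mul_abs_self _).symm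
      _ ≤ |x| * |x| :=
          mul_le_mul (abs_clipA_le_abs ha x) (abs_clipA_le_abs ha x) (abs_nonneg _) (abs_nonneg _)
      _ = x * x := abs_mul_abs_self x

lemma tendsto_svar : Tendsto (fun n : ℕ => svar n) atTop (𝓝 1) := by
  have h2 : ∫ x, x * x ∂gaussianReal 0 1 = 1 := by
    have h := variance_id_gaussianReal (μ := 0) (v := 1)
    rw [variance_eq_integral measurable_id.aemeasurable] at h
    simpa [sq] using h
  rw [← h2]
  refine tendsto_integral_of_dominated_convergence (fun x => x * x)
    (fun n => ((measurable_clipA _).mul (measurable_clipA _)).aestronglyMeasurable) ?_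
    (fun n => Eventually.of_forall fun x => ?_) (Eventually.of_forall fun x => ?_)
  · by_contra hn
    rw [integral_undef hn] at h2
    exact zero_ne_one h2
  · rw [Real.norm_eq_abs, abs_mul]
    exact (mul_le_mul (abs_clipA_le_abs n.cast_nonneg x) (abs_clipA_le_abs n.cast_nonneg x)
      (abs_nonneg _) (abs_nonneg _)).trans_eq (abs_mul_abs_self x)
  · refine tendsto_const_nhds.congr' ?_
    filter_upwards [eventually_ge_atTop ⌈|x|⌉₊] with n hn
    rw [clipA_of_abs_le ((Nat.le_ceil _).trans (by exact_mod_cast hn))]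

/-! ### Cascade sums over attached variables -/

variable {β X : Type} {r : ℕ}

lemma cascSum_att (m : Fin r → ℝ) (n : Fin r → ℕ) (G : (Fin r → β × X) → ℝ)
    (z : CascTree β r n × (Node r n → X)) :
    cascSum r m n G (att r n z) =
      ∑ l, leafW r m n z.1 l * G (fun p => (leafMarks r n z.1 l p, z.2 (node n l p))) := by
  rw [cascSum_eq_sum_leaves]
  refine Finset.sum_congr rfl fun l _ => ?_
  rw [leafW_att]
  congr 2
  exact funext fun p => leafMarks_att r n z l p

lemma cascSum_att_fst (m : Fin r → ℝ) (n : Fin r → ℕ) (Y : (Fin r → β) → ℝ)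
    (z : CascTree β r n × (Node r n → X)) :
    cascSum r m n (fun η : Fin r → β × X => Y fun i => (η i).1) (att r n z) =
      cascSum r m n Y z.1 := by
  rw [cascSum_att, cascSum_eq_sum_leaves]

/-- The average of a component of the leaf vectors. -/
def comp (m : Fin r → ℝ) (n : Fin r → ℕ) (q : Fin (r + 1) → ℝ) (Y g : (Fin r → β) → ℝ)
    (t : CascTree β r n) (c : Option (Node r n)) : ℝ :=
  (∑ l, leafW r m n t l * (g (leafMarks r n t l) * leafVec n q l c)) / cascSum r m n Y t

/-- A ratio of field averages is a linear form in the node variables. -/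
lemma ratio_field (m : Fin r → ℝ) (n : Fin r → ℕ) (q : Fin (r + 1) → ℝ) (φ : X → ℝ)
    (Y g : (Fin r → β) → ℝ) (t : CascTree β r n) (γ : Option (Node r n) → X) :
    ratio m n (fun η : Fin r → β × X => (Y fun i => (η i).1) * 1)
        (fun η => (g fun i => (η i).1) * pathField q (φ (γ none)) fun i => φ (η i).2)
        (att r n (t, fun c => γ (some c))) =
      ∑ c, comp m n q Y g t c * φ (γ c) := by
  simp only [ratio, mul_one, cascSum_att, comp, div_mul_eq_mul_div,
    ← Finset.sum_div, Finset.sum_mul]
  congr 1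
  swap
  · exact (cascSum_eq_sum_leaves r m n Y t).symm
  rw [Finset.sum_comm]
  refine Finset.sum_congr rfl fun l _ => ?_
  rw [← dot_leafVec n q l (fun c => φ (γ c)), dot, Finset.mul_sum, Finset.mul_sum]
  exact Finset.sum_congr rfl fun c _ => by ring

variable [MeasurableSpace β]

lemma measurable_pathField (q : Fin (r + 1) → ℝ) :
    Measurable fun z : ℝ × (Fin r → ℝ) => pathField q z.1 z.2 :=
  (measurable_fst.const_mul _).add (Finset.measurable_sum _ fun p _ =>
    ((measurable_pi_apply p).comp measurable_snd).const_mul _)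

/-- The mean sum of squared components, in the limit. -/
theorem tendsto_sumSq (hT : TiltFactorStmt) (ν : Measure β) [IsProbabilityMeasure ν]
    {m : Fin r → ℝ} (hm : Exps m) {q : Fin (r + 1) → ℝ} (hq : Monotone q) (hq0 : 0 ≤ q 0)
    {C B : ℝ} {Y g : (Fin r → β) → ℝ} (hY : Bdd C Y) (hgm : Measurable g) (hB : 0 ≤ B)
    (hg : ∀ ω, |g ω| ≤ B) :
    Tendsto (fun n => ∫ t, ∑ c, comp m n q Y g t c ^ 2 ∂cascLaw ν r n) (cascFilter r)
      (𝓝 (∑ p : Fin (r + 1), weight m p * (q p * pairM ν m Y g g p))) := by
  set μ := gaussianReal 0 1 with hμ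
  set φ : ℝ → ℝ := clipA 1 with hφ
  have hφm : Measurable φ := measurable_clipA 1
  have hφb : ∀ x, |φ x| ≤ 1 := abs_clipA_le zero_le_one
  have hφ0 : ∫ x, φ x ∂μ = 0 := integral_clipA zero_le_one
  set s := svar 1 with hs_def
  have hs : 0 < s := svar_pos one_pos
  set Y₁ : (Fin r → β × ℝ) → ℝ := fun η => (Y fun i => (η i).1) * 1
  set G : ℝ → (Fin r → β × ℝ) → ℝ := fun e η =>
    (g fun i => (η i).1) * pathField q (φ e) fun i => φ (η i).2
  set K := (Real.sqrt (q 0) + ∑ p, Real.sqrt (inc q p)) * 1
  have hℓb : ∀ e (η : Fin r → ℝ), |pathField q (φ e) fun i => φ (η i)| ≤ K := fun e η =>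
    abs_pathField_le q (hφb e) fun p => hφb _
  have hGb : ∀ e η, |G e η| ≤ B * K := fun e η => by
    simp only [G]
    rw [abs_mul]
    exact mul_le_mul (hg _) (hℓb e _) (abs_nonneg _) hB
  have hY₁ : Bdd C Y₁ := ⟨hY.pos, (hY.meas.comp (measurable_pi_lambda _ fun i =>
    (measurable_pi_apply i).fst)).mul_const 1, fun η => by simpa [Y₁] using hY.mem _⟩
  have hGm : Measurable (Function.uncurry G) :=
    (hgm.comp (measurable_pi_lambda _ fun i => ((measurable_pi_apply i).comp measurable_snd).fst)).mul
      ((measurable_pathField q).comp ((hφm.comp measurable_fst).prodMk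
        (measurable_pi_lambda _ fun i => hφm.comp ((measurable_pi_apply i).comp measurable_snd).snd)))
  have hGm' : ∀ e, Measurable (G e) := fun e => hGm.comp (measurable_const.prodMk measurable_id)
  set F : (Fin r → ℕ) → ℝ → ℝ := fun n e =>
    ∫ t, ratio m n Y₁ (G e) t * ratio m n Y₁ (G e) t ∂cascLaw (ν.prod μ) r n
  set P : Fin (r + 1) → ℝ := fun p => pairM ν m Y g g p
  set Lim : ℝ → ℝ := fun e => ∑ p : Fin (r + 1), weight m p *
    (P p * (Real.sqrt (q 0) * φ e * (Real.sqrt (q 0) * φ e) +
      s * ∑ i : Fin r, if i.val < p.val then Real.sqrt (inc q i) * Real.sqrt (inc q i) else 0))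
  have hpt : ∀ e, Tendsto (fun n => F n e) (cascFilter r) (𝓝 (Lim e)) := by
    intro e
    have hrat := tendsto_ratio_mul (ν.prod μ) hm hY₁ (hGm' e) (hGm' e) (hGb e) (hGb e)
    refine Eq.mp (congrArg (fun L => Tendsto (fun n => F n e) (cascFilter r) (𝓝 L)) ?_) hrat
    refine Finset.sum_congr rfl fun p _ => ?_
    congr 1
    set C' := max (max C 1) (max B K) with hC'
    have hC'1 : 1 ≤ C' := (le_max_right _ _).trans (le_max_left _ _)
    have hYC : Bdd C' Y := ⟨one_pos.trans_le hC'1, hY.meas, fun ω =>
      ⟨(inv_anti₀ hY.pos ((le_max_left _ _).trans (le_max_left _ _))).trans (hY.mem ω).1,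
        (hY.mem ω).2.trans ((le_max_left _ _).trans (le_max_left _ _))⟩⟩
    have h1C : Bdd C' (fun _ : Fin r → ℝ => (1 : ℝ)) :=
      ⟨one_pos.trans_le hC'1, measurable_const, fun _ => ⟨inv_le_one_of_one_le₀ hC'1, hC'1⟩⟩
    have hℓm : Measurable fun η : Fin r → ℝ => pathField q (φ e) fun i => φ (η i) :=
      (measurable_pathField q).comp (measurable_const.prodMk
        (measurable_pi_lambda _ fun i => hφm.comp (measurable_pi_apply i)))
    refine (pairM_prod hT ν μ hm (Y := Y) (g := g) (g' := g) (Z := fun _ => 1)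
      (h := fun η => pathField q (φ e) fun i => φ (η i))
      (h' := fun η => pathField q (φ e) fun i => φ (η i)) hYC h1C hgm hgm hℓm hℓm
      (fun ω => (hg ω).trans ((le_max_left _ _).trans (le_max_right _ _)))
      (fun ω => (hg ω).trans ((le_max_left _ _).trans (le_max_right _ _)))
      (fun η => (hℓb e η).trans ((le_max_right _ _).trans (le_max_right _ _)))
      (fun η => (hℓb e η).trans ((le_max_right _ _).trans (le_max_right _ _))) p).trans ?_
    congr 1
    exact pairM_lin μ hφm hφb hφ0 hm (Real.sqrt (q 0) * φ e) (fun i => Real.sqrt (inc q i)) p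
  have hFb : ∀ n e, |F n e| ≤ (C * (B * K)) * (C * (B * K)) := fun n e => by
    have hK : 0 ≤ B * K := (abs_nonneg _).trans (hGb e fun _ => ((nonempty_of_isProbabilityMeasure
      (ν.prod μ)).some))
    have h := norm_integral_le_of_norm_le_const (μ := cascLaw (ν.prod μ) r n)
      (f := fun t => ratio m n Y₁ (G e) t * ratio m n Y₁ (G e) t)
      (C := (C * (B * K)) * (C * (B * K))) ((ae_good (ν.prod μ) r n).mono fun t ht => by
        rw [Real.norm_eq_abs, abs_mul]
        exact mul_le_mul (abs_ratio_le' hY₁ hK (hGb e) m n ht) (abs_ratio_le' hY₁ hK (hGb e) m n ht)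
          (abs_nonneg _) (mul_nonneg hY.pos.le hK))
    simpa using h
  have hrm : ∀ n : Fin r → ℕ, Measurable fun z : ℝ × CascTree (β × ℝ) r n =>
      ratio m n Y₁ (G z.1) z.2 * ratio m n Y₁ (G z.1) z.2 := by
    intro n
    have : Measurable fun z : ℝ × CascTree (β × ℝ) r n => ratio m n Y₁ (G z.1) z.2 := by
      simp only [ratio, cascSum_eq_sum_leaves]
      exact (Finset.measurable_sum _ fun l _ => ((measurable_leafW r m n l).comp measurable_snd).mul
          (hGm.comp (measurable_fst.prodMk ((measurable_leafMarks r n l).comp measurable_snd)))).div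
        (Finset.measurable_sum _ fun l _ => ((measurable_leafW r m n l).comp measurable_snd).mul
          (hY₁.meas.comp ((measurable_leafMarks r n l).comp measurable_snd)))
    exact this.mul this
  have hFm : ∀ n, Measurable (F n) := fun n =>
    ((hrm n).stronglyMeasurable.integral_prod_right').measurable
  have hLm : Measurable Lim := Finset.measurable_sum _ fun p _ =>
    ((((hφm.const_mul _).mul (hφm.const_mul _)).add_const _).const_mul _).const_mul _
  have hLb : ∀ e, |Lim e| ≤ (C * (B * K)) * (C * (B * K)) := fun e =>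
    haveI := cascFilter_neBot r
    le_of_tendsto' (hpt e).abs fun n => hFb n e
  have hlim := tendsto_integral_cascFilter μ F Lim _ hFm hLm hFb hLb hpt
  have hLint : ∫ e, Lim e ∂μ = s * ∑ p : Fin (r + 1), weight m p * (q p * P p) := by
    have e1 : ∀ e, Real.sqrt (q 0) * φ e * (Real.sqrt (q 0) * φ e) = q 0 * (φ e * φ e) := fun e => by
      rw [mul_mul_mul_comm, Real.mul_self_sqrt hq0]
    have e2 : ∀ i : Fin r, Real.sqrt (inc q i) * Real.sqrt (inc q i) = inc q i := fun i =>
      Real.mul_self_sqrt (inc_nonneg hq i)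
    have hii : Integrable (fun e => q 0 * (φ e * φ e)) μ :=
      (integrable_bdd (hφm.mul hφm) fun e => abs_clipA_sq_le zero_le_one e).const_mul _
    have hp : ∀ p : Fin (r + 1), Integrable (fun e => weight m p * (P p * (q 0 * (φ e * φ e) +
        s * ∑ i : Fin r, if i.val < p.val then inc q i else 0))) μ := fun p =>
      ((hii.add (integrable_const _)).const_mul _).const_mul _
    simp only [Lim, e1, e2]
    rw [integral_finsetSum _ fun p _ => hp p, Finset.mul_sum]
    refine Finset.sum_congr rfl fun p _ => ?_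
    rw [integral_const_mul, integral_const_mul, integral_add hii (integrable_const _),
      integral_const_mul, ← sum_inc_lt q p]
    simp only [integral_const, probReal_univ, one_smul]
    rw [show ∫ e, φ e * φ e ∂μ = s from rfl]
    ring
  rw [hLint] at hlim
  have h2 := hlim.const_mul s⁻¹
  rw [inv_mul_cancel_left₀ hs.ne'] at h2
  refine h2.congr fun n => ?_
  -- the finite identity
  set H : ℝ × CascTree (β × ℝ) r n → ℝ := fun z =>
    ratio m n Y₁ (G z.1) z.2 * ratio m n Y₁ (G z.1) z.2
  have hmp := mp_rootAtt ν μ r n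
  have hH : Integrable H (μ.prod (cascLaw (ν.prod μ) r n)) := by
    refine Integrable.of_bound (hrm n).aestronglyMeasurable ((C * (B * K)) * (C * (B * K))) ?_
    filter_upwards [Measure.quasiMeasurePreserving_snd.ae (ae_good (ν.prod μ) r n)] with z hz
    have hK : 0 ≤ B * K := (abs_nonneg _).trans (hGb z.1 fun _ => ((nonempty_of_isProbabilityMeasure
      (ν.prod μ)).some))
    rw [Real.norm_eq_abs, abs_mul]
    exact mul_le_mul (abs_ratio_le' hY₁ hK (hGb _) m n hz) (abs_ratio_le' hY₁ hK (hGb _) m n hz)
      (abs_nonneg _) (mul_nonneg hY.pos.le hK)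
  have e : ∫ e, F n e ∂μ = s * ∫ t, ∑ c, comp m n q Y g t c ^ 2 ∂cascLaw ν r n := by
    have hcomp : Integrable (fun z : CascTree β r n × (Option (Node r n) → ℝ) =>
        H (z.2 none, att r n (z.1, fun c => z.2 (some c))))
        ((cascLaw ν r n).prod (Measure.pi fun _ => μ)) := hmp.integrable_comp_of_integrable hH
    rw [← integral_prod H hH, ← integral_mp hmp (g := H) (hrm n),
      integral_prod _ hcomp, ← integral_const_mul]
    refine integral_congr_ae (Eventually.of_forall fun t => ?_)
    simp only [Function.comp_apply, H, Y₁, G, ratio_field]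
    rw [integral_lin_mul hφm hφb hφ0]
    rw [show ∫ e, φ e * φ e ∂μ = s from rfl]
    congr 1
    exact Finset.sum_congr rfl fun c _ => (sq _).symm
  rw [e, inv_mul_cancel_left₀ hs.ne']

end Vale.Agent.P157.Parisi.Up
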